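import Mathlib

/-!
Gaussian integration by parts for polynomials, and the recursion for joint moments of traces of
powers of a Gaussian symmetric matrix.
-/

namespace Vale.Agent.P150

open MeasureTheory ProbabilityTheory Finset MvPolynomial Matrix
open scoped NNReal

/-! ### Moments of the standard Gaussian -/

/-- The moments of the standard Gaussian. -/
noncomputable def gm (k : ℕ) : ℝ := ∫ x, x ^ k ∂gaussianReal 0 1

lemma mgf_std : mgf id (gaussianReal 0 1) = fun t ↦ Real.exp (t ^ 2 / 2) := by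
  rw [mgf_id_gaussianReal]
  simp

lemma gm_eq (k : ℕ) : gm k = iteratedDeriv k (fun t : ℝ ↦ Real.exp (t ^ 2 / 2)) 0 := by
  rw [← mgf_std, iteratedDeriv_mgf_zero (by simp)]
  rfl

lemma iteratedDeriv_expSq (k : ℕ) :
    iteratedDeriv (k + 1) (fun t : ℝ ↦ Real.exp (t ^ 2 / 2)) = fun t ↦
      t * iteratedDeriv k (fun t : ℝ ↦ Real.exp (t ^ 2 / 2)) t +
        k * iteratedDeriv (k - 1) (fun t : ℝ ↦ Real.exp (t ^ 2 / 2)) t := by
  set F := fun t : ℝ ↦ Real.exp (t ^ 2 / 2)
  have hd : ∀ j, Differentiable ℝ (iteratedDeriv j F) := fun j ↦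
    (by fun_prop : ContDiff ℝ (⊤ : ℕ∞) F).differentiable_iteratedDeriv j (by exact_mod_cast ENat.natCast_lt_top j)
  induction k with
  | zero =>
    rw [iteratedDeriv_one, iteratedDeriv_zero]
    funext t
    rw [_root_.deriv_exp (by fun_prop)]
    simp [F, mul_comm]
  | succ k ih =>
    rw [iteratedDeriv_succ, ih]
    funext t
    have hD := ((hasDerivAt_id' t).fun_mul (hd k t).hasDerivAt).fun_add
      ((hd (k - 1) t).hasDerivAt.const_mul (k : ℝ))
    rw [hD.deriv]
    cases k with
    | zero =>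
      simp only [← iteratedDeriv_succ, ih]
      simp [add_comm]
    | succ j =>
      simp only [← iteratedDeriv_succ, Nat.add_sub_cancel]
      rw [ih]
      simp only [Nat.add_sub_cancel]
      push_cast
      ring

lemma gm_succ (k : ℕ) : gm (k + 1) = k * gm (k - 1) := by
  simp [gm_eq, congrFun (iteratedDeriv_expSq k) 0]

/-! ### Expectation of polynomials -/

variable {σ : Type*} [Fintype σ]

/-- The law of independent standard Gaussians. -/
noncomputable def gam (σ : Type*) [Fintype σ] : Measure (σ → ℝ) :=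
  Measure.pi fun _ ↦ gaussianReal 0 1

instance : IsProbabilityMeasure (gam σ) := by unfold gam; infer_instance

/-- The Gaussian expectation of a polynomial. -/
noncomputable def E (p : MvPolynomial σ ℝ) : ℝ := ∫ g, eval g p ∂gam σ

lemma eval_monomial' (g : σ → ℝ) (s : σ →₀ ℕ) (a : ℝ) :
    eval g (monomial s a) = a * ∏ v, g v ^ s v := by
  rw [eval_monomial, Finsupp.prod_fintype _ _ fun _ ↦ pow_zero _]

lemma integrable_eval (p : MvPolynomial σ ℝ) : Integrable (fun g ↦ eval g p) (gam σ) := by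
  induction p using MvPolynomial.induction_on' with
  | monomial s a =>
    simp only [eval_monomial']
    refine (Integrable.fintype_prod (f := fun v (x : ℝ) ↦ x ^ s v) fun v ↦ ?_).const_mul a
    rcases Nat.eq_zero_or_pos (s v) with h | h
    · simp [h]
    · refine ((memLp_id_gaussianReal (s v : ℝ≥0)).integrable_norm_pow' ).mono'
        (by fun_prop) (.of_forall fun x ↦ ?_)
      simp
  | add p q hp hq => simp only [map_add]; exact hp.add hq

lemma E_add (p q : MvPolynomial σ ℝ) : E (p + q) = E p + E q := by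
  simp only [E, map_add]
  exact integral_add (integrable_eval p) (integrable_eval q)

lemma E_C_mul (c : ℝ) (p : MvPolynomial σ ℝ) : E (C c * p) = c * E p := by
  simp only [E, map_mul, eval_C]
  exact integral_const_mul _ _

lemma E_one : E (1 : MvPolynomial σ ℝ) = 1 := by simp [E]

lemma E_sum {κ : Type*} (s : Finset κ) (f : κ → MvPolynomial σ ℝ) :
    E (∑ i ∈ s, f i) = ∑ i ∈ s, E (f i) := by
  simp only [E, map_sum]
  exact integral_finsetSum _ fun i _ ↦ integrable_eval _

lemma E_monomial (s : σ →₀ ℕ) (a : ℝ) : E (monomial s a) = a * ∏ v, gm (s v) := by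
  simp only [E, eval_monomial', gam]
  rw [integral_const_mul, integral_fintype_prod_eq_prod fun v x ↦ x ^ s v]
  rfl

/-- Gaussian integration by parts. -/
lemma E_X_mul (v : σ) (p : MvPolynomial σ ℝ) : E (X v * p) = E (pderiv v p) := by
  classical
  induction p using MvPolynomial.induction_on' with
  | monomial s a =>
    rw [pderiv_monomial, X, monomial_mul, one_mul, E_monomial, E_monomial,
      ← mul_prod_erase univ _ (mem_univ v), ← mul_prod_erase univ _ (mem_univ v)]
    have h1 : ∀ w ∈ univ.erase v, gm ((Finsupp.single v 1 + s : σ →₀ ℕ) w) = gm ((s - Finsupp.single v 1 : σ →₀ ℕ) w) := by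
      intro w hw
      have := (mem_erase.1 hw).1
      simp [Finsupp.single_eq_of_ne this]
    rw [prod_congr rfl h1]
    simp only [Finsupp.add_apply, Finsupp.single_eq_same, Finsupp.tsub_apply]
    rw [add_comm 1, gm_succ]
    ring
  | add p q hp hq => rw [mul_add, E_add, hp, hq, map_add, E_add]

/-! ### The matrix -/

variable {n : ℕ}

/-- The variable carrying the entry `(a, b)`. -/
def vi (a b : Fin n) : Fin n × Fin n := if a ≤ b then (a, b) else (b, a)

/-- The scale of the entry `(a, b)`. -/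
noncomputable def sc (a b : Fin n) : ℝ := (if a = b then √2 else 1) / √(n : ℝ)

/-- The Gaussian symmetric matrix with entry variances `(1 + δ) / n`. -/
noncomputable def W (n : ℕ) : Matrix (Fin n) (Fin n) (MvPolynomial (Fin n × Fin n) ℝ) :=
  Matrix.of fun a b ↦ C (sc a b) * X (vi a b)

lemma vi_comm (a b : Fin n) : vi a b = vi b a := by
  unfold vi
  rcases lt_trichotomy a b with h | h | h
  · rw [if_pos h.le, if_neg (not_le.2 h)]
  · rw [h]
  · rw [if_neg (not_le.2 h), if_pos h.le]

lemma vi_eq_iff {a b c e : Fin n} : vi a b = vi c e ↔ a = c ∧ b = e ∨ a = e ∧ b = c := by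
  unfold vi
  split <;> split <;> simp only [Prod.mk.injEq] <;> omega

lemma sc_comm (a b : Fin n) : sc a b = sc b a := by simp only [sc, eq_comm]

lemma W_symm : (W n).IsSymm := by
  ext a b : 2
  simp [W, vi_comm a b, sc_comm a b]

/-- The derivative dual to the entry `(a, b)`. -/
noncomputable def d (a b : Fin n) (p : MvPolynomial (Fin n × Fin n) ℝ) :
    MvPolynomial (Fin n × Fin n) ℝ :=
  C (sc a b) * pderiv (vi a b) p

lemma E_W_mul (a b : Fin n) (p : MvPolynomial (Fin n × Fin n) ℝ) :
    E (W n a b * p) = E (d a b p) := by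
  simp only [W, of_apply, d, mul_assoc, E_C_mul, E_X_mul]

lemma d_mul (a b : Fin n) (p q : MvPolynomial (Fin n × Fin n) ℝ) :
    d a b (p * q) = d a b p * q + p * d a b q := by
  simp only [d, pderiv_mul]
  ring

lemma d_sum (a b : Fin n) {κ : Type*} (s : Finset κ) (f : κ → MvPolynomial (Fin n × Fin n) ℝ) :
    d a b (∑ i ∈ s, f i) = ∑ i ∈ s, d a b (f i) := by
  simp only [d, map_sum, mul_sum]

lemma d_one (a b : Fin n) : d a b 1 = 0 := by simp [d]

lemma d_W (a b c e : Fin n) :
    d a b (W n c e) = C (1 / (n : ℝ)) *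
      ((1 : Matrix (Fin n) (Fin n) (MvPolynomial (Fin n × Fin n) ℝ)) c a *
          (1 : Matrix (Fin n) (Fin n) (MvPolynomial (Fin n × Fin n) ℝ)) b e +
        (1 : Matrix (Fin n) (Fin n) (MvPolynomial (Fin n × Fin n) ℝ)) c b *
          (1 : Matrix (Fin n) (Fin n) (MvPolynomial (Fin n × Fin n) ℝ)) a e) := by
  have hn : 0 < n := a.pos
  simp only [d, W, of_apply, pderiv_C_mul, pderiv_X, Pi.single_apply, Matrix.one_apply]
  have h2 : (√2 / √(n : ℝ)) * (√2 / √(n : ℝ)) = 1 / n * 2 := by
    rw [div_mul_div_comm, Real.mul_self_sqrt (by norm_num), Real.mul_self_sqrt (Nat.cast_nonneg n)]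
    ring
  have h1 : (1 / √(n : ℝ)) * (1 / √(n : ℝ)) = 1 / n := by
    rw [div_mul_div_comm, Real.mul_self_sqrt (Nat.cast_nonneg n), one_mul]
  by_cases h : vi c e = vi a b
  · rcases vi_eq_iff.1 h with ⟨rfl, rfl⟩ | ⟨rfl, rfl⟩
    · by_cases hab : c = e
      · subst hab
        simp only [sc, if_true, mul_one]
        rw [← C.map_mul, h2, C.map_mul, map_ofNat]
        ring
      · simp only [sc, if_neg hab, if_neg (Ne.symm hab), if_pos h, if_true, mul_one, mul_zero,
          add_zero]
        rw [← C.map_mul, h1]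
    · by_cases hab : c = e
      · subst hab
        simp only [sc, if_true, mul_one]
        rw [← C.map_mul, h2, C.map_mul, map_ofNat]
        ring
      · simp only [sc, if_neg hab, if_neg (Ne.symm hab), if_pos h, if_true, mul_one, mul_zero,
          zero_add]
        rw [← C.map_mul, h1]
  · have h' := mt vi_eq_iff.2 h
    have e1 : ¬ (c = a ∧ b = e) := fun ⟨x, y⟩ ↦ h' (Or.inl ⟨x, y.symm⟩)
    have e2 : ¬ (c = b ∧ a = e) := fun ⟨x, y⟩ ↦ h' (Or.inr ⟨x, y.symm⟩)
    simp only [not_and] at e1 e2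
    simp only [if_neg h, mul_zero]
    split_ifs <;> simp_all

lemma d_pow (a b : Fin n) : ∀ (p : ℕ) (c e : Fin n),
    d a b ((W n ^ p) c e) = C (1 / (n : ℝ)) * ∑ l ∈ range p,
      ((W n ^ l) c a * (W n ^ (p - 1 - l)) b e + (W n ^ l) c b * (W n ^ (p - 1 - l)) a e) := by
  intro p
  induction p with
  | zero =>
    intro c e
    rw [pow_zero, Matrix.one_apply]
    split <;> simp [d]
  | succ p ih =>
    intro c e
    rw [pow_succ, Matrix.mul_apply, d_sum]
    simp only [d_mul, ih, d_W, sum_range_succ, Nat.add_sub_cancel, Nat.sub_self, pow_zero]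
    rw [sum_add_distrib, mul_add]
    congr 1
    · simp only [mul_assoc, ← mul_sum, sum_mul]
      congr 1
      rw [sum_comm]
      refine sum_congr rfl fun l hl ↦ ?_
      rw [show p - l = p - 1 - l + 1 by have := Finset.mem_range.1 hl; omega, pow_succ,
        Matrix.mul_apply, Matrix.mul_apply, mul_sum, mul_sum, ← sum_add_distrib]
      exact sum_congr rfl fun k _ ↦ by ring
    · simp [Matrix.one_apply, mul_add, add_mul, sum_add_distrib, ite_mul, mul_ite, mul_comm]

/-- The trace of a power. -/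
noncomputable def T (n l : ℕ) : MvPolynomial (Fin n × Fin n) ℝ := Matrix.trace (W n ^ l)

lemma sum_pow_pow (i j : ℕ) :
    ∑ a, ∑ b, (W n ^ i) b a * (W n ^ j) a b = T n (i + j) := by
  rw [sum_comm, T, pow_add, Matrix.trace]
  simp [Matrix.diag, Matrix.mul_apply]

lemma pow_symm (i : ℕ) (a b : Fin n) : (W n ^ i) a b = (W n ^ i) b a :=
  (W_symm.pow i).apply b a

lemma d_T (a b : Fin n) (q : ℕ) :
    d a b (T n q) = C (2 * q / (n : ℝ)) * (W n ^ (q - 1)) a b := by
  rw [T, Matrix.trace, d_sum]
  simp only [Matrix.diag, d_pow, ← mul_sum]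
  rw [sum_comm]
  have h : ∀ l ∈ range q, ∑ c, ((W n ^ l) c a * (W n ^ (q - 1 - l)) b c +
      (W n ^ l) c b * (W n ^ (q - 1 - l)) a c) = 2 * (W n ^ (q - 1)) a b := by
    intro l hl
    have e : q - 1 - l + l = q - 1 := by have := Finset.mem_range.1 hl; omega
    have h1 : ∀ x y, ∑ c, (W n ^ l) c x * (W n ^ (q - 1 - l)) y c = (W n ^ (q - 1)) y x := by
      intro x y
      rw [← e, pow_add, Matrix.mul_apply, e]
      exact sum_congr rfl fun c _ ↦ mul_comm _ _
    rw [sum_add_distrib, h1, h1, pow_symm (q - 1) b a, two_mul]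
  rw [sum_congr rfl h, sum_const, card_range, nsmul_eq_mul, ← mul_assoc, ← mul_assoc]
  congr 1
  rw [show 2 * (q : ℝ) / n = 1 / n * q * 2 by ring, C.map_mul, C.map_mul, map_natCast, map_ofNat]

lemma sum_d_pow (p : ℕ) :
    ∑ a, ∑ b, d a b ((W n ^ p) b a) = C (1 / (n : ℝ)) *
      (∑ l ∈ range p, T n l * T n (p - 1 - l) + (p : MvPolynomial _ ℝ) * T n (p - 1)) := by
  simp only [d_pow, ← mul_sum]
  congr 1
  rw [sum_congr rfl fun a _ ↦ sum_comm, sum_comm]
  have h : ∀ l ∈ range p, ∑ a, ∑ b, ((W n ^ l) b a * (W n ^ (p - 1 - l)) b a +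
      (W n ^ l) b b * (W n ^ (p - 1 - l)) a a) = T n (p - 1) + T n l * T n (p - 1 - l) := by
    intro l hl
    simp only [sum_add_distrib]
    congr 1
    · rw [show p - 1 = l + (p - 1 - l) by have := Finset.mem_range.1 hl; omega, ← sum_pow_pow]
      exact sum_congr rfl fun a _ ↦ sum_congr rfl fun b _ ↦ by
        rw [show l + (p - 1 - l) - l = p - 1 - l by omega, pow_symm (p - 1 - l) b a]
    · simp only [T, Matrix.trace, Matrix.diag, sum_mul, mul_sum]
  rw [sum_congr rfl h, sum_add_distrib, sum_const, card_range, nsmul_eq_mul, add_comm]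

/-- A product of traces. -/
noncomputable def Phi (n : ℕ) (L : List ℕ) : MvPolynomial (Fin n × Fin n) ℝ := (L.map (T n)).prod

lemma Phi_nil : Phi n [] = 1 := rfl

lemma Phi_cons (l : ℕ) (L : List ℕ) : Phi n (l :: L) = T n l * Phi n L := rfl

lemma Phi_append (L M : List ℕ) : Phi n (L ++ M) = Phi n L * Phi n M := by
  simp [Phi, List.map_append, List.prod_append]

/-- The contraction of a power with the derivative of a product of traces. -/
noncomputable def Dl (n p : ℕ) (L : List ℕ) : MvPolynomial (Fin n × Fin n) ℝ :=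
  ∑ a, ∑ b, (W n ^ p) b a * d a b (Phi n L)

lemma Dl_nil (p : ℕ) : Dl n p [] = 0 := by simp [Dl, Phi_nil, d_one]

lemma Dl_cons (p q : ℕ) (L : List ℕ) :
    Dl n p (q :: L) =
      C (2 * q / (n : ℝ)) * T n (p + (q - 1)) * Phi n L + T n q * Dl n p L := by
  simp only [Dl, Phi_cons, d_mul, d_T, mul_add, sum_add_distrib]
  congr 1
  · rw [← sum_pow_pow, mul_sum, sum_mul]
    refine sum_congr rfl fun a _ ↦ ?_
    rw [mul_sum, sum_mul]
    exact sum_congr rfl fun b _ ↦ by ring
  · rw [mul_sum]
    refine sum_congr rfl fun a _ ↦ ?_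
    rw [mul_sum]
    exact sum_congr rfl fun b _ ↦ by ring

/-- The recursion for joint moments of traces. -/
lemma E_succ (p : ℕ) (L : List ℕ) :
    E (T n (p + 1) * Phi n L) =
      1 / (n : ℝ) * (∑ l ∈ range p, E (T n l * T n (p - 1 - l) * Phi n L) +
        p * E (T n (p - 1) * Phi n L)) + E (Dl n p L) := by
  have e : T n (p + 1) * Phi n L = ∑ a, ∑ b, W n a b * ((W n ^ p) b a * Phi n L) := by
    rw [T, pow_succ', Matrix.trace, sum_mul]
    refine sum_congr rfl fun a _ ↦ ?_
    rw [Matrix.diag, Matrix.mul_apply, sum_mul]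
    exact sum_congr rfl fun b _ ↦ by ring
  rw [e]
  simp only [E_sum, E_W_mul, d_mul, E_add, sum_add_distrib]
  congr 1
  · simp only [← E_sum, ← sum_mul]
    rw [sum_d_pow, mul_assoc, E_C_mul, add_mul, E_add, sum_mul, E_sum]
    congr 2
    rw [← map_natCast (C (R := ℝ) (σ := Fin n × Fin n)), mul_assoc, E_C_mul]
  · simp only [← E_sum]
    rfl

end Vale.Agent.P150
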