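import Vale.Agent.P150.SlowRS

/-! Mean deviation of functions with coordinatewise Lipschitz bounds under the standard Gaussian law. -/

namespace Vale.Agent.P150.Slow

open Finset MeasureTheory ProbabilityTheory Real Filter

variable {ι : Type*} [Fintype ι] [DecidableEq ι]

lemma integral_sq_gauss : ∫ x : ℝ, x ^ 2 ∂gaussianReal 0 1 = 1 := by
  simpa using moment_succ 0

/-- Lipschitz bounds in each coordinate. -/
def Lip (G : (ι → ℝ) → ℝ) (L : ι → ℝ) : Prop :=
  (∀ e, 0 ≤ L e) ∧ ∀ g h : ι → ℝ, |G g - G h| ≤ ∑ e, L e * |g e - h e|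

lemma memLp_two : MemLp (id : ℝ → ℝ) 2 (gaussianReal 0 1) := by
  simpa using memLp_id_gaussianReal (μ := 0) (v := 1) 2

omit [DecidableEq ι] in
lemma memLp_coord (e : ι) : MemLp (fun g : ι → ℝ => g e) 2 (stdPi ι) :=
  memLp_two.comp_measurePreserving
    (measurePreserving_eval (fun _ : ι => gaussianReal 0 1) e)

omit [DecidableEq ι] in
lemma Lip.continuous {G : (ι → ℝ) → ℝ} {L : ι → ℝ} (hG : Lip G L) : Continuous G := by
  refine continuous_iff_continuousAt.2 fun g => ?_
  rw [ContinuousAt, tendsto_iff_norm_sub_tendsto_zero]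
  refine squeeze_zero (fun h => norm_nonneg _) (fun h => (hG.2 h g)) ?_
  have hc : Continuous fun h : ι → ℝ => ∑ e, L e * |h e - g e| := by fun_prop
  simpa using hc.tendsto g

omit [DecidableEq ι] in
lemma Lip.memLp {G : (ι → ℝ) → ℝ} {L : ι → ℝ} (hG : Lip G L) : MemLp G 2 (stdPi ι) := by
  have hc : MemLp (fun _ : ι → ℝ => |G 0|) 2 (stdPi ι) := memLp_const _
  have hs : MemLp (fun g : ι → ℝ => ∑ e, L e * |g e|) 2 (stdPi ι) := by
    refine memLp_finsetSum (f := fun e (g : ι → ℝ) => L e * |g e|) _ fun e _ => ?_
    have h : MemLp (fun g : ι → ℝ => |g e|) 2 (stdPi ι) := by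
      simpa only [Real.norm_eq_abs] using (memLp_coord (ι := ι) e).norm
    exact h.const_mul (L e)
  refine (hc.add hs).mono hG.continuous.aestronglyMeasurable (ae_of_all _ fun g => ?_)
  rw [Real.norm_eq_abs, Real.norm_eq_abs, Pi.add_apply, abs_of_nonneg (add_nonneg (abs_nonneg _)
    (sum_nonneg fun e _ => mul_nonneg (hG.1 e) (abs_nonneg _)))]
  have h := hG.2 g 0
  simp only [Pi.zero_apply, sub_zero] at h
  linarith [abs_sub_abs_le_abs_sub (G g) (G 0)]

omit [DecidableEq ι] in
lemma integrable_sq_of_lip {G : (ι → ℝ) → ℝ} {L : ι → ℝ} (hG : Lip G L) :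
    Integrable (fun g => G g ^ 2) (stdPi ι) := hG.memLp.integrable_sq

omit [DecidableEq ι] in
lemma integrable_of_lip {G : (ι → ℝ) → ℝ} {L : ι → ℝ} (hG : Lip G L) :
    Integrable G (stdPi ι) := hG.memLp.integrable one_le_two

/-- Variance bound by induction over the coordinates the function depends on. -/
lemma variance_le (s : Finset ι) : ∀ (G : (ι → ℝ) → ℝ) (L : ι → ℝ), Lip G L →
    (∀ e, e ∉ s → L e = 0) →
    ∫ g, G g ^ 2 ∂stdPi ι - (∫ g, G g ∂stdPi ι) ^ 2 ≤ ∑ e ∈ s, L e ^ 2 := by
  induction s using Finset.induction_on with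
  | empty =>
    intro G L hG hL
    have hc : ∀ g, G g = G 0 := fun g => by
      have h := hG.2 g 0
      simp [hL] at h
      linarith
    simp [hc]
  | @insert e s hes ih =>
    intro G L hG hL
    set ν := gaussianReal 0 1
    set A : (ι → ℝ) → ℝ := fun g => ∫ x, G (Function.update g e x) ∂ν with hA
    have hupd : ∀ g : ι → ℝ, ∀ x y,
        |G (Function.update g e x) - G (Function.update g e y)| ≤ L e * |x - y| := by
      intro g x y
      refine (hG.2 _ _).trans (le_of_eq ?_)
      rw [sum_eq_single e (fun b _ hb => by simp [Function.update_of_ne hb]) (by simp)]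
      simp
    have hm2 : ∀ g : ι → ℝ, MemLp (fun x => G (Function.update g e x)) 2 ν := by
      intro g
      have hn : MemLp (fun x : ℝ => |x|) 2 ν := by
        simpa only [Real.norm_eq_abs, id_eq] using memLp_two.norm
      have hc : MemLp (fun _ : ℝ => |G (Function.update g e 0)|) 2 ν := memLp_const _
      refine (hc.add (hn.const_mul (L e))).mono (hG.continuous.comp (by fun_prop)).aestronglyMeasurable (ae_of_all _ fun x => ?_)
      rw [Real.norm_eq_abs, Real.norm_eq_abs, Pi.add_apply,
        abs_of_nonneg (add_nonneg (abs_nonneg _) (mul_nonneg (hG.1 e) (abs_nonneg _)))]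
      have h := hupd g x 0
      simp only [sub_zero] at h
      linarith [abs_sub_abs_le_abs_sub (G (Function.update g e x)) (G (Function.update g e 0))]
    set L' := Function.update L e 0 with hL'
    have hLA : Lip A L' := by
      refine ⟨fun b => ?_, fun g h => ?_⟩
      · by_cases hb : b = e
        · subst hb; simp [hL']
        · simpa [hL', hb] using hG.1 b
      · have hb : ∀ x, ‖G (Function.update g e x) - G (Function.update h e x)‖ ≤
            ∑ b, L' b * |g b - h b| := by
          intro x
          refine (hG.2 _ _).trans (le_of_eq (sum_congr rfl fun b _ => ?_))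
          by_cases hbe : b = e
          · subst hbe; simp [hL']
          · simp [hL', hbe]
        have h2 := norm_integral_le_of_norm_le_const (μ := ν) (ae_of_all _ hb)
        rw [integral_sub ((hm2 g).integrable one_le_two) ((hm2 h).integrable one_le_two)] at h2
        simpa [hA] using h2
    have ih' := ih A L' hLA (by
      intro b hb
      by_cases hbe : b = e
      · subst hbe; simp [hL']
      · simpa [hL', hbe] using hL b (by simp [hbe, hb]))
    have e1 : ∫ g, A g ∂stdPi ι = ∫ g, G g ∂stdPi ι :=
      (integral_update e hG.continuous.measurable (integrable_of_lip hG)).symm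
    have e2 : ∫ g, G g ^ 2 ∂stdPi ι = ∫ g, ∫ x, G (Function.update g e x) ^ 2 ∂ν ∂stdPi ι :=
      integral_update e (G := fun g => G g ^ 2) (hG.continuous.measurable.pow_const 2)
        (integrable_sq_of_lip hG)
    -- one coordinate
    have one : ∀ g, ∫ x, G (Function.update g e x) ^ 2 ∂ν ≤ A g ^ 2 + L e ^ 2 := by
      intro g
      set c := G (Function.update g e 0)
      have i1 := (hm2 g).integrable one_le_two
      have i2 := (hm2 g).integrable_sq
      have hx2 : Integrable (fun x : ℝ => x ^ 2) ν := memLp_two.integrable_sq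
      have hb : ∫ x, (G (Function.update g e x) - c) ^ 2 ∂ν ≤ L e ^ 2 * ∫ x, x ^ 2 ∂ν := by
        rw [← integral_const_mul]
        refine integral_mono (((hm2 g).sub (memLp_const c)).integrable_sq) (hx2.const_mul _) fun x => ?_
        have h := hupd g x 0
        simp only [sub_zero] at h
        calc (G (Function.update g e x) - c) ^ 2 ≤ (L e * |x|) ^ 2 := sq_le_sq' (abs_le.1 h).1 (abs_le.1 h).2
          _ = _ := by rw [mul_pow, sq_abs]
      rw [integral_sq_gauss, mul_one] at hb
      have ee : (fun x => (G (Function.update g e x) - c) ^ 2) = fun x =>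
          G (Function.update g e x) ^ 2 - 2 * c * G (Function.update g e x) + c ^ 2 := by
        funext x; ring
      rw [ee, integral_add (i2.sub' (i1.const_mul _)) (integrable_const _),
        integral_sub i2 (i1.const_mul _), integral_const_mul, integral_const, probReal_univ,
        one_smul] at hb
      simp only [hA]
      nlinarith [sq_nonneg ((∫ x, G (Function.update g e x) ∂ν) - c)]
    have key : ∫ g, G g ^ 2 ∂stdPi ι ≤ ∫ g, A g ^ 2 ∂stdPi ι + L e ^ 2 := by
      rw [e2]
      refine (integral_mono_of_nonneg (ae_of_all _ fun g => integral_nonneg fun x => sq_nonneg _)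
        ((integrable_sq_of_lip hLA).add (integrable_const _)) (ae_of_all _ one)).trans (le_of_eq ?_)
      simp only [Pi.add_apply]
      rw [integral_add (integrable_sq_of_lip hLA) (integrable_const _)]
      simp
    have hsum : ∑ b ∈ s, L' b ^ 2 = ∑ b ∈ s, L b ^ 2 :=
      sum_congr rfl fun b hb => by rw [hL', Function.update_of_ne (ne_of_mem_of_not_mem hb hes)]
    rw [sum_insert hes, ← e1]
    linarith

/-- Mean absolute deviation. -/
theorem deviation_le {G : (ι → ℝ) → ℝ} {L : ι → ℝ} (hG : Lip G L) {t : ℝ} (ht : 0 < t) :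
    ∫ g, |G g - ∫ h, G h ∂stdPi ι| ∂stdPi ι ≤ (∑ e, L e ^ 2) / (2 * t) + t / 2 := by
  set M := ∫ h, G h ∂stdPi ι with hM
  have hv := variance_le univ G L hG (by simp)
  have i1 := integrable_of_lip hG
  have i2 := integrable_sq_of_lip hG
  have isq : Integrable (fun g => (G g - M) ^ 2) (stdPi ι) :=
    (hG.memLp.sub (memLp_const M)).integrable_sq
  have pt : ∀ g, |G g - M| ≤ (G g - M) ^ 2 / (2 * t) + t / 2 := fun g => by
    rw [← sub_nonneg]
    have e : (G g - M) ^ 2 / (2 * t) + t / 2 - |G g - M| = (|G g - M| - t) ^ 2 / (2 * t) := by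
      rw [← sq_abs (G g - M)]; field_simp; ring
    rw [e]; positivity
  refine (integral_mono (i1.sub (integrable_const M)).abs
    ((isq.div_const _).add (integrable_const _)) pt).trans ?_
  simp only [Pi.add_apply]
  rw [integral_add (isq.div_const _) (integrable_const _), integral_div, integral_const,
    probReal_univ, one_smul]
  refine add_le_add_left (div_le_div_of_nonneg_right ?_ (by positivity)) _
  have ee : (fun g => (G g - M) ^ 2) = fun g => G g ^ 2 - 2 * M * G g + M ^ 2 := by funext g; ring
  rw [ee, integral_add (i2.sub' (i1.const_mul _)) (integrable_const _),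
    integral_sub i2 (i1.const_mul _), integral_const_mul, integral_const, probReal_univ, one_smul,
    ← hM]
  linarith

omit [DecidableEq ι] in
/-- The log partition function is Lipschitz in every coordinate. -/
lemma lip_lg {Ω : Type*} [Fintype Ω] [Nonempty Ω] (a : ι → Ω → ℝ) {L : ι → ℝ}
    (h0 : ∀ e, 0 ≤ L e) (hL : ∀ e x, |a e x| ≤ L e) : Lip (lg a) L := by
  refine ⟨h0, fun g h => ?_⟩
  have one : ∀ g h : ι → ℝ, lg a g - lg a h ≤ ∑ e, L e * |g e - h e| := by
    intro g h
    set M := ∑ e, L e * |g e - h e|
    have hx : ∀ x, Real.exp (en a g x) ≤ Real.exp M * Real.exp (en a h x) := fun x => by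
      rw [← Real.exp_add]
      refine Real.exp_le_exp.2 ?_
      rw [← sub_le_iff_le_add, en, en, ← sum_sub_distrib]
      refine sum_le_sum fun e _ => ?_
      rw [← sub_mul, mul_comm (L e)]
      refine (le_abs_self _).trans ?_
      rw [abs_mul]
      exact mul_le_mul_of_nonneg_left (hL e x) (abs_nonneg _)
    have h2 := Real.log_le_log (part_pos a g) ((sum_le_sum fun x _ => hx x).trans_eq
      (mul_sum univ _ _).symm)
    rw [Real.log_mul (Real.exp_pos _).ne' (part_pos a h).ne', Real.log_exp] at h2
    unfold lg; linarith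
  rw [abs_le]
  refine ⟨?_, one g h⟩
  have := one h g
  simp only [abs_sub_comm (h _)] at this
  linarith

/-- The pressure of the model deviates from its mean by at most order root `n`. -/
theorem lg_deviation {n : ℕ} (hn : 0 < n) (b : ℝ) :
    ∫ g, |lg (cpl n b) g - F n b| ∂stdPi (Fin n × Fin n) ≤ √n * (b ^ 2 / 4 + 1 / 2) := by
  set L : Fin n × Fin n → ℝ := fun e => if e ∈ pairs n then |b| / √n else 0 with hL
  have hlip : Lip (lg (cpl n b)) L := lip_lg _ (fun e => by simp only [hL]; split_ifs <;> positivity)
    fun e x => by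
      simp only [hL, cpl]
      split_ifs
      · rw [abs_mul, abs_X, mul_one, abs_div, abs_of_nonneg (Real.sqrt_nonneg (n : ℝ))]
      · simp
  have hn' : (0 : ℝ) < n := by exact_mod_cast hn
  have hs : 0 < √(n : ℝ) := Real.sqrt_pos.2 hn'
  refine (deviation_le hlip hs).trans ?_
  have hsum : ∑ e, L e ^ 2 ≤ n * b ^ 2 / 2 := by
    simp only [hL, ite_pow, ne_eq, OfNat.ofNat_ne_zero, not_false_eq_true, zero_pow, sum_ite_mem,
      univ_inter, sum_const, nsmul_eq_mul, div_pow, sq_abs, Real.sq_sqrt hn'.le]
    refine (mul_le_mul_of_nonneg_right card_pairs_le (by positivity)).trans (le_of_eq ?_)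
    field_simp
  refine (add_le_add_left (div_le_div_of_nonneg_right hsum (by positivity)) _).trans (le_of_eq ?_)
  field_simp
  rw [Real.sq_sqrt hn'.le]
  ring

end Vale.Agent.P150.Slow
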