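import Vale.Agent.P150.Defs

/-! Continuous-time heat-bath dynamics and its distance to the Gibbs law. -/

namespace Vale.Agent.P150

open Finset

variable {n : ℕ}

/-- The generator `∑ᵢ (Qᵢ - I)` as a matrix: `Qᵢ` resamples spin `i` given the others. -/
noncomputable def generator (J : Fin n → Fin n → ℝ) (h : Fin n → ℝ) :
    Matrix (Fin n → Bool) (Fin n → Bool) ℝ :=
  Matrix.of fun x y => ∑ i, (condExp J h i (fun z => if z = y then 1 else 0) x
    - if x = y then 1 else 0)

/-- The kernel `P_t = exp (t L)`. -/
noncomputable def kernel (J : Fin n → Fin n → ℝ) (h : Fin n → ℝ) (t : ℝ) :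
    Matrix (Fin n → Bool) (Fin n → Bool) ℝ :=
  NormedSpace.exp (t • generator J h)

/-- Total variation distance between the law at time `t` from `x` and the Gibbs law. -/
noncomputable def tvGibbs (J : Fin n → Fin n → ℝ) (h : Fin n → ℝ) (t : ℝ) (x : Fin n → Bool) : ℝ :=
  1 / 2 * ∑ y, |kernel J h t x y - gibbs J h y|

end Vale.Agent.P150
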