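import Mathlib

/-! Heat-bath dynamics of the Sherrington–Kirkpatrick model. -/

namespace Vale.Agent.P150

open Finset MeasureTheory ProbabilityTheory

variable {n : ℕ}

/-- The spin attached to a truth value. -/
def spin (b : Bool) : ℝ := if b then 1 else -1

/-- The configuration with coordinate `i` flipped. -/
def flip (x : Fin n → Bool) (i : Fin n) : Fin n → Bool := Function.update x i (!x i)

/-- Unnormalised Gibbs weight for pair couplings `J` (read only at `i < j`) and field `h`. -/
noncomputable def weight (J : Fin n → Fin n → ℝ) (h : Fin n → ℝ) (x : Fin n → Bool) : ℝ :=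
  Real.exp ((∑ i, ∑ j, if i < j then J i j * spin (x i) * spin (x j) else 0)
    + ∑ i, h i * spin (x i))

/-- Gibbs probability. -/
noncomputable def gibbs (J : Fin n → Fin n → ℝ) (h : Fin n → ℝ) (x : Fin n → Bool) : ℝ :=
  weight J h x / ∑ y, weight J h y

/-- Gibbs mean. -/
noncomputable def mean (J : Fin n → Fin n → ℝ) (h : Fin n → ℝ) (f : (Fin n → Bool) → ℝ) : ℝ :=
  ∑ x, gibbs J h x * f x

/-- Gibbs variance. -/
noncomputable def variance (J : Fin n → Fin n → ℝ) (h : Fin n → ℝ) (f : (Fin n → Bool) → ℝ) : ℝ :=
  ∑ x, gibbs J h x * (f x - mean J h f) ^ 2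

/-- Conditional expectation given all spins except the one at `i`. -/
noncomputable def condExp (J : Fin n → Fin n → ℝ) (h : Fin n → ℝ) (i : Fin n)
    (f : (Fin n → Bool) → ℝ) (x : Fin n → Bool) : ℝ :=
  (weight J h x * f x + weight J h (flip x i) * f (flip x i))
    / (weight J h x + weight J h (flip x i))

/-- Dirichlet form of the heat-bath generator: the pairing of `f` with `∑ᵢ (f - Qᵢ f)`. -/
noncomputable def dirichlet (J : Fin n → Fin n → ℝ) (h : Fin n → ℝ) (f : (Fin n → Bool) → ℝ) : ℝ :=
  ∑ x, gibbs J h x * f x * ∑ i, (f x - condExp J h i f x)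

/-- The spectral gap of heat-bath dynamics is at least `γ`. -/
def GapAtLeast (J : Fin n → Fin n → ℝ) (h : Fin n → ℝ) (γ : ℝ) : Prop :=
  ∀ f : (Fin n → Bool) → ℝ, γ * variance J h f ≤ dirichlet J h f

/-- Symmetric zero-diagonal matrix of `tanh` of the couplings. -/
noncomputable def tanhMat (J : Fin n → Fin n → ℝ) (i j : Fin n) : ℝ :=
  if i < j then Real.tanh (J i j) else if j < i then Real.tanh (J j i) else 0

/-- SK couplings at inverse temperature `β`. -/
noncomputable def skJ (n : ℕ) (β : ℝ) (g : Fin n × Fin n → ℝ) : Fin n → Fin n → ℝ :=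
  fun i j => β / Real.sqrt n * g (i, j)

/-- The disorder law: independent standard Gaussians (only the entries with `i < j` are used). -/
noncomputable def disorder (n : ℕ) : Measure (Fin n × Fin n → ℝ) :=
  Measure.pi fun _ => gaussianReal 0 1

end Vale.Agent.P150
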