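import Mathlib
import Vale.Agent.P150.Defs

/-!
The spectral gap of heat-bath dynamics of an Ising model is at least `1 - λ`, where `λ` bounds the
quadratic form of the zero-diagonal matrix of `tanh` of the couplings.
-/

namespace Vale.Agent.P150

open Finset

variable {n : ℕ} (J : Fin n → Fin n → ℝ) (h : Fin n → ℝ)

/-- The symmetric zero-diagonal coupling matrix. -/
def symJ (i j : Fin n) : ℝ := if i < j then J i j else if j < i then J j i else 0

/-- The local field at `i`. -/
def field (i : Fin n) (x : Fin n → Bool) : ℝ := h i + ∑ j, symJ J i j * spin (x j)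

/-- The rate at which the auxiliary dynamics flips `i`. -/
noncomputable def rate (i : Fin n) (x : Fin n → Bool) : ℝ :=
  Real.exp (-(spin (x i) * field J h i x))

/-- The auxiliary generator. -/
noncomputable def gen (u : (Fin n → Bool) → ℝ) (x : Fin n → Bool) : ℝ :=
  ∑ i, rate J h i x * (u x - u (flip x i))

lemma spin_not (b : Bool) : spin (!b) = -spin b := by cases b <;> simp [spin]

lemma spin_mul_self (b : Bool) : spin b * spin b = 1 := by cases b <;> simp [spin]

lemma flip_flip (x : Fin n → Bool) (i : Fin n) : flip (flip x i) i = x := by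
  simp [flip]

lemma flip_comm (x : Fin n → Bool) {i j : Fin n} (hij : i ≠ j) :
    flip (flip x i) j = flip (flip x j) i := by
  simp [flip, Function.update_of_ne hij, Function.update_of_ne hij.symm,
    Function.update_comm hij]

lemma sum_flip (i : Fin n) (F : (Fin n → Bool) → ℝ) : ∑ x, F (flip x i) = ∑ x, F x :=
  Equiv.sum_comp
    (⟨fun x ↦ flip x i, fun x ↦ flip x i, fun x ↦ flip_flip x i, fun x ↦ flip_flip x i⟩ :
      (Fin n → Bool) ≃ (Fin n → Bool)) F

lemma symJ_self (i : Fin n) : symJ J i i = 0 := by simp [symJ]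

lemma symJ_comm (i j : Fin n) : symJ J i j = symJ J j i := by
  rcases lt_trichotomy i j with h | h | h
  · simp [symJ, h, h.asymm]
  · rw [h]
  · simp [symJ, h, h.asymm]

lemma tanhMat_eq (i j : Fin n) : tanhMat J i j = Real.tanh (symJ J i j) := by
  unfold tanhMat symJ
  split_ifs <;> simp

lemma energy_eq (s : Fin n → ℝ) :
    ∑ i, ∑ j, (if i < j then J i j * s i * s j else 0) = (∑ i, ∑ j, symJ J i j * s i * s j) / 2 := by
  have e : ∀ i j, symJ J i j * s i * s j =
      (if i < j then J i j * s i * s j else 0) + (if j < i then J j i * s j * s i else 0) := by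
    intro i j
    rcases lt_trichotomy i j with h | h | h
    · simp [symJ, h, h.asymm]
    · subst h; simp [symJ]
    · simp [symJ, h, h.asymm]; ring
  simp only [e, sum_add_distrib]
  rw [sum_comm (f := fun i j ↦ if j < i then J j i * s j * s i else 0)]
  ring

lemma weight_flip (x : Fin n → Bool) (i : Fin n) :
    weight J h (flip x i) = weight J h x * rate J h i x ^ 2 := by
  rw [rate, ← Real.exp_nat_mul, weight, weight, ← Real.exp_add, energy_eq, energy_eq]
  congr 1
  have hs : ∀ j, spin (flip x i j) = spin (x j) + if j = i then -2 * spin (x i) else 0 := by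
    intro j
    by_cases hj : j = i
    · subst hj; simp [flip, spin_not]; ring
    · simp [flip, hj]
  simp only [hs, mul_add, add_mul, sum_add_distrib, mul_ite, ite_mul, mul_zero, zero_mul,
    sum_ite_eq', sum_ite_irrel, sum_const_zero, mem_univ, if_true, symJ_self, field]
  have e1 : ∑ j, symJ J j i * spin (x j) * (-2 * spin (x i)) =
      -2 * spin (x i) * ∑ j, symJ J i j * spin (x j) := by
    rw [mul_sum]
    exact sum_congr rfl fun j _ ↦ by rw [symJ_comm J j i]; ring
  have e2 : ∑ j, symJ J i j * (-2 * spin (x i)) * spin (x j) =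
      -2 * spin (x i) * ∑ j, symJ J i j * spin (x j) := by
    rw [mul_sum]
    exact sum_congr rfl fun j _ ↦ by ring
  rw [e1, e2]
  push_cast
  ring

lemma rate_flip (x : Fin n → Bool) (i : Fin n) :
    rate J h i (flip x i) = (rate J h i x)⁻¹ := by
  rw [rate, rate, ← Real.exp_neg, neg_neg]
  congr 1
  have : field J h i (flip x i) = field J h i x := by
    unfold field
    congr 1
    refine sum_congr rfl fun j _ ↦ ?_
    by_cases hj : j = i
    · subst hj; simp [symJ_self]
    · simp [flip, hj]
  rw [this]
  simp [flip, spin_not]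

lemma weight_rate_flip (x : Fin n → Bool) (i : Fin n) :
    weight J h (flip x i) * rate J h i (flip x i) = weight J h x * rate J h i x := by
  have : rate J h i x ≠ 0 := (Real.exp_pos _).ne'
  rw [weight_flip, rate_flip]
  field_simp

lemma rate_flip_ne (x : Fin n → Bool) {i j : Fin n} (hij : i ≠ j) :
    rate J h j (flip x i) =
      rate J h j x * Real.exp (2 * symJ J i j * (spin (x i) * spin (x j))) := by
  rw [rate, rate, ← Real.exp_add]
  congr 1
  have : field J h j (flip x i) = field J h j x - 2 * symJ J i j * spin (x i) := by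
    have hs : ∀ k, spin (flip x i k) = spin (x k) + if k = i then -2 * spin (x i) else 0 := by
      intro k
      by_cases hk : k = i
      · subst hk; simp [flip, spin_not]; ring
      · simp [flip, hk]
    simp only [field, hs, mul_add, sum_add_distrib, mul_ite, mul_zero, sum_ite_eq', mem_univ,
      if_true, symJ_comm J j i]
    ring
  rw [this, show flip x i j = x j by simp [flip, hij.symm]]
  ring

lemma exp_two_mul_tanh (a σ : ℝ) (hσ : σ = 1 ∨ σ = -1) :
    Real.exp (2 * a * σ) * (1 - Real.tanh a * σ) = 1 + Real.tanh a * σ := by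
  have hc := Real.cosh_pos a
  rw [Real.tanh_eq_sinh_div_cosh]
  rcases hσ with rfl | rfl
  · field_simp
    rw [two_mul, Real.exp_add, Real.cosh_sub_sinh, Real.cosh_add_sinh, mul_assoc,
      ← Real.exp_add, add_neg_cancel, Real.exp_zero, mul_one]
  · field_simp
    rw [two_mul, neg_add, Real.exp_add]
    simp only [sub_neg_eq_add]
    rw [Real.cosh_add_sinh, mul_assoc, ← Real.exp_add, neg_add_cancel, Real.exp_zero, mul_one]
    exact (Real.cosh_sub_sinh a).symm

/-- The nonnegative pair term of the identity. -/
lemma pair_nonneg (u : (Fin n → Bool) → ℝ) {i j : Fin n} (hij : i ≠ j) :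
    0 ≤ ∑ x, weight J h x * rate J h i x * rate J h j x *
      (1 + tanhMat J i j * (spin (x i) * spin (x j))) *
      ((u x - u (flip x i)) * (u x - u (flip x j))) := by
  set F := fun x ↦ weight J h x * rate J h i x * rate J h j x *
      (1 + tanhMat J i j * (spin (x i) * spin (x j))) *
      ((u x - u (flip x i)) * (u x - u (flip x j))) with hF
  have h4 : ∑ x, (F x + F (flip x i) + F (flip x j) + F (flip (flip x i) j)) = 4 * ∑ x, F x := by
    rw [sum_add_distrib, sum_add_distrib, sum_add_distrib, sum_flip i, sum_flip j,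
      sum_flip i (fun x ↦ F (flip x j)), sum_flip j]
    ring
  suffices ∀ x, 0 ≤ F x + F (flip x i) + F (flip x j) + F (flip (flip x i) j) by
    have := sum_nonneg fun x (_ : x ∈ univ) ↦ this x
    rw [h4] at this
    linarith
  intro x
  set G := fun y ↦ weight J h y * rate J h i y * rate J h j y with hG
  set a := symJ J i j with ha
  set σ := spin (x i) * spin (x j) with hσd
  have hσ : σ = 1 ∨ σ = -1 := by
    simp only [hσd, spin]; cases x i <;> cases x j <;> simp
  have G1 : G (flip x i) = G x * Real.exp (2 * a * σ) := by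
    simp only [hG]
    rw [weight_rate_flip, rate_flip_ne J h x hij]
    ring
  have Gj : ∀ y, G (flip y j) = G y * Real.exp (2 * a * (spin (y i) * spin (y j))) := by
    intro y
    simp only [hG]
    rw [mul_right_comm, weight_rate_flip, rate_flip_ne J h y hij.symm, symJ_comm J j i,
      mul_comm (spin (y j))]
    ring
  have G2 : G (flip x j) = G x * Real.exp (2 * a * σ) := Gj x
  have σ1 : spin (flip x i i) * spin (flip x i j) = -σ := by
    simp [flip, hij.symm, spin_not, hσd]
  have σ2 : spin (flip x j i) * spin (flip x j j) = -σ := by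
    simp [flip, hij, spin_not, hσd]
  have σ3 : spin (flip (flip x i) j i) * spin (flip (flip x i) j j) = σ := by
    simp [flip, hij, hij.symm, spin_not, hσd]
  have G3 : G (flip (flip x i) j) = G x := by
    rw [Gj, σ1, G1, mul_assoc, ← Real.exp_add,
      show 2 * a * σ + 2 * a * -σ = 0 by ring, Real.exp_zero, mul_one]
  have e := exp_two_mul_tanh a σ hσ
  have hτ : tanhMat J i j = Real.tanh a := tanhMat_eq J i j
  have key : F x + F (flip x i) + F (flip x j) + F (flip (flip x i) j) =
      G x * (1 + Real.tanh a * σ) *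
        (u x - u (flip x i) - u (flip x j) + u (flip (flip x i) j)) ^ 2 := by
    simp only [hF]
    simp only [hG] at G1 G2 G3
    rw [G1, G2, G3, σ1, σ2, σ3, hτ, flip_flip, flip_flip, flip_flip,
      ← flip_comm x hij, ← hσd]
    rw [show flip (flip (flip x i) j) i = flip x j by
      rw [flip_comm x hij, flip_flip]]
    simp only [hG]
    linear_combination (weight J h x * rate J h i x * rate J h j x *
      ((u (flip x i) - u x) * (u (flip x i) - u (flip (flip x i) j)) +
        (u (flip x j) - u (flip (flip x i) j)) * (u (flip x j) - u x))) * e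
  rw [key]
  refine mul_nonneg (mul_nonneg (mul_pos (mul_pos (Real.exp_pos _) (Real.exp_pos _))
    (Real.exp_pos _)).le ?_) (sq_nonneg _)
  have := abs_le.1 (le_of_lt (Real.abs_tanh_lt_one a))
  rcases hσ with hσ | hσ <;> rw [hσ] <;> linarith

lemma two_mul_inner_gen (f u : (Fin n → Bool) → ℝ) :
    2 * ∑ x, weight J h x * f x * gen J h u x =
      ∑ i, ∑ x, weight J h x * rate J h i x * ((f x - f (flip x i)) * (u x - u (flip x i))) := by
  simp only [gen, mul_sum]
  rw [sum_comm]
  refine sum_congr rfl fun i _ ↦ ?_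
  have e := sum_flip i fun x ↦ weight J h x * f x * (rate J h i x * (u x - u (flip x i)))
  simp only [flip_flip] at e
  rw [← mul_sum, two_mul]
  conv_lhs => arg 2; rw [← e]
  rw [← sum_add_distrib]
  refine sum_congr rfl fun x _ ↦ ?_
  linear_combination (f (flip x i) * (u (flip x i) - u x)) * weight_rate_flip J h x i

lemma const_of_gen_eq_zero {u : (Fin n → Bool) → ℝ} (hu : gen J h u = 0) :
    ∀ x y, u x = u y := by
  classical
  have h0 := two_mul_inner_gen J h u u
  simp only [hu, Pi.zero_apply, mul_zero, sum_const_zero] at h0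
  have hstep : ∀ i x, u (flip x i) = u x := by
    intro i x
    have hnn : ∀ i ∈ univ, 0 ≤ ∑ x, weight J h x * rate J h i x *
        ((u x - u (flip x i)) * (u x - u (flip x i))) := fun i _ ↦ sum_nonneg fun x _ ↦
      mul_nonneg (mul_pos (Real.exp_pos _) (Real.exp_pos _)).le (mul_self_nonneg _)
    have h1 := (sum_eq_zero_iff_of_nonneg hnn).1 h0.symm i (mem_univ i)
    have h2 := (sum_eq_zero_iff_of_nonneg fun x _ ↦ mul_nonneg
      (mul_pos (Real.exp_pos _) (Real.exp_pos _)).le (mul_self_nonneg _)).1 h1 x (mem_univ x)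
    rcases mul_eq_zero.1 h2 with h3 | h3
    · exact absurd h3 (mul_pos (Real.exp_pos _) (Real.exp_pos _)).ne'
    · exact (sub_eq_zero.1 (mul_self_eq_zero.1 h3)).symm
  have hs : ∀ (s : Finset (Fin n)) x y, (∀ k ∉ s, x k = y k) → u x = u y := by
    intro s
    induction s using Finset.induction with
    | empty => intro x y hxy; rw [funext fun k ↦ hxy k (notMem_empty k)]
    | insert a s _ ih =>
      intro x y hxy
      by_cases hk : x a = y a
      · exact ih x y fun k hk' ↦ if e : k = a then e ▸ hk else hxy k (by simp [e, hk'])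
      · rw [← hstep a x]
        refine ih _ y fun k hk' ↦ ?_
        by_cases e : k = a
        · subst e
          simp only [flip, Function.update_self]
          revert hk; cases x k <;> cases y k <;> simp
        · simp only [flip, Function.update_of_ne e]
          exact hxy k (by simp [e, hk'])
  exact fun x y ↦ hs univ x y fun k hk ↦ absurd (mem_univ k) hk

/-- Every centred function is in the range of the auxiliary generator. -/
lemma exists_gen_eq {f : (Fin n → Bool) → ℝ} (hf : ∑ x, weight J h x * f x = 0) :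
    ∃ u, gen J h u = f := by
  classical
  let L : ((Fin n → Bool) → ℝ) →ₗ[ℝ] ((Fin n → Bool) → ℝ) :=
    { toFun := fun u x ↦ gen J h u x + ∑ y, weight J h y * u y
      map_add' := fun u v ↦ by
        funext x
        simp only [gen, Pi.add_apply, mul_add, sum_add_distrib]
        have : ∀ i, rate J h i x * (u x + v x - (u (flip x i) + v (flip x i))) =
            rate J h i x * (u x - u (flip x i)) + rate J h i x * (v x - v (flip x i)) :=
          fun i ↦ by ring
        simp only [this, sum_add_distrib]
        ring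
      map_smul' := fun c u ↦ by
        funext x
        simp only [gen, Pi.smul_apply, smul_eq_mul, RingHom.id_apply, mul_add, mul_sum]
        congr 1 <;> exact sum_congr rfl fun _ _ ↦ by ring }
  have hZ : 0 < ∑ x, weight J h x := sum_pos (fun x _ ↦ Real.exp_pos _) univ_nonempty
  have hzero : ∀ u, ∑ x, weight J h x * gen J h u x = 0 := by
    intro u
    have := two_mul_inner_gen J h (fun _ ↦ 1) u
    simp at this
    linarith
  have key : ∀ u, ∑ x, weight J h x * L u x =
      (∑ x, weight J h x) * ∑ y, weight J h y * u y := by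
    intro u
    simp only [L, LinearMap.coe_mk, AddHom.coe_mk, mul_add, sum_add_distrib, hzero, zero_add,
      ← sum_mul]
  have hinj : Function.Injective L := by
    rw [← LinearMap.ker_eq_bot, LinearMap.ker_eq_bot']
    intro u hu
    have h1 := key u
    simp only [hu, Pi.zero_apply, mul_zero, sum_const_zero] at h1
    have h2 := (mul_eq_zero.1 h1.symm).resolve_left hZ.ne'
    have h3 : gen J h u = 0 := funext fun x ↦ by
      simpa [L, h2] using congrFun hu x
    funext x
    rw [sum_congr rfl fun y _ ↦ by rw [const_of_gen_eq_zero J h h3 y x], ← sum_mul] at h2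
    exact (mul_eq_zero.1 h2).resolve_left hZ.ne'
  obtain ⟨u, hu⟩ := (LinearMap.injective_iff_surjective.1 hinj) f
  have h1 := key u
  rw [hu, hf] at h1
  have h2 := (mul_eq_zero.1 h1.symm).resolve_left hZ.ne'
  refine ⟨u, funext fun x ↦ ?_⟩
  rw [← hu]
  simp [L, h2]

/-- The key inequality. -/
lemma gen_sq_lower {lam : ℝ}
    (hlam : ∀ v : Fin n → ℝ, ∑ i, ∑ j, tanhMat J i j * v i * v j ≤ lam * ∑ i, v i ^ 2)
    (u : (Fin n → Bool) → ℝ) :
    (1 - lam) * ∑ x, weight J h x * ∑ i, (rate J h i x * (u x - u (flip x i))) ^ 2 ≤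
      ∑ x, weight J h x * gen J h u x ^ 2 := by
  classical
  set p := fun i x ↦ rate J h i x * (u x - u (flip x i)) with hp
  have hpair : ∀ i j, 0 ≤ ∑ x, weight J h x * (p i x * p j x +
      tanhMat J i j * (spin (x i) * p i x) * (spin (x j) * p j x) -
      if i = j then p i x ^ 2 else 0) := by
    intro i j
    by_cases hij : i = j
    · subst hij
      refine sum_nonneg fun x _ ↦ le_of_eq ?_
      simp [tanhMat, sq]
    · refine (pair_nonneg J h u hij).trans_eq (sum_congr rfl fun x _ ↦ ?_)
      simp only [if_neg hij, hp]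
      ring
  have hs := sum_nonneg fun i (_ : i ∈ univ) ↦ sum_nonneg fun j (_ : j ∈ univ) ↦ hpair i j
  rw [sum_congr rfl fun i _ ↦ sum_comm, sum_comm] at hs
  simp only [← mul_sum, sum_sub_distrib, sum_add_distrib, sum_ite_eq, mem_univ, if_true] at hs
  have hb : ∀ x, ∑ i, ∑ j, tanhMat J i j * (spin (x i) * p i x) * (spin (x j) * p j x) ≤
      lam * ∑ i, p i x ^ 2 := by
    intro x
    refine (hlam fun i ↦ spin (x i) * p i x).trans_eq ?_
    simp only [mul_pow, sq (spin _), spin_mul_self, one_mul]
  rw [mul_sum]
  have hx : ∀ x, weight J h x * ((∑ i, p i x * ∑ j, p j x) +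
      ∑ i, ∑ j, tanhMat J i j * (spin (x i) * p i x) * (spin (x j) * p j x) - ∑ i, p i x ^ 2) ≤
      weight J h x * gen J h u x ^ 2 - (1 - lam) * (weight J h x * ∑ i, p i x ^ 2) := by
    intro x
    have e : (∑ i, p i x * ∑ j, p j x) = gen J h u x ^ 2 := by rw [← sum_mul, sq]; rfl
    rw [e]
    have := mul_le_mul_of_nonneg_left (hb x) (Real.exp_pos _).le (a := weight J h x)
    linarith
  have := hs.trans (sum_le_sum fun x _ ↦ hx x)
  rw [sum_sub_distrib] at this
  linarith

/-- The heat-bath gap is at least `1 - lam`. -/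
theorem gap_of_tanh {lam : ℝ}
    (hlam : ∀ v : Fin n → ℝ, ∑ i, ∑ j, tanhMat J i j * v i * v j ≤ lam * ∑ i, v i ^ 2)
    (hl : lam < 1) : GapAtLeast J h (1 - lam) := by
  intro f
  set Z := ∑ y, weight J h y with hZd
  have hZ : 0 < Z := sum_pos (fun x _ ↦ Real.exp_pos _) univ_nonempty
  set m := mean J h f with hm
  set f' := fun x ↦ f x - m with hf'
  have hcen : ∑ x, weight J h x * f' x = 0 := by
    simp only [hf', mul_sub, sum_sub_distrib, ← sum_mul, hm, mean, gibbs, div_mul_eq_mul_div,
      ← sum_div]
    rw [← hZd]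
    field_simp
    ring
  obtain ⟨u, hu⟩ := exists_gen_eq J h hcen
  set Vw := ∑ x, weight J h x * f' x ^ 2 with hVw
  set P := ∑ x, weight J h x * ∑ i, (rate J h i x * (u x - u (flip x i))) ^ 2
  set A := ∑ i, ∑ x, weight J h x * weight J h (flip x i) /
    (weight J h x + weight J h (flip x i)) * (f x - f (flip x i)) ^ 2
  have hP : (1 - lam) * P ≤ Vw := by
    refine (gen_sq_lower J h hlam u).trans_eq ?_
    rw [hu]
  have hcs : (2 * Vw) ^ 2 ≤ A * (2 * P) := by
    have e1 : 2 * Vw = ∑ ix : Fin n × (Fin n → Bool), weight J h ix.2 * rate J h ix.1 ix.2 *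
        ((f ix.2 - f (flip ix.2 ix.1)) * (u ix.2 - u (flip ix.2 ix.1))) := by
      rw [Fintype.sum_prod_type]
      refine Eq.trans ?_ ((two_mul_inner_gen J h f' u).trans (by simp [hf']))
      simp only [hVw, hu, sq, mul_assoc]
    have e2 : 2 * P = ∑ ix : Fin n × (Fin n → Bool),
        (weight J h ix.2 + weight J h (flip ix.2 ix.1)) * (u ix.2 - u (flip ix.2 ix.1)) ^ 2 := by
      rw [Fintype.sum_prod_type, mul_sum]
      simp only [mul_sum]
      rw [sum_comm]
      refine sum_congr rfl fun i _ ↦ ?_
      simp only [add_mul, sum_add_distrib]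
      have e := sum_flip i fun x ↦ weight J h x * (u x - u (flip x i)) ^ 2
      simp only [flip_flip] at e
      rw [← e, ← mul_sum, two_mul]
      congr 1
      · exact sum_congr rfl fun x _ ↦ by rw [weight_flip]; ring
      · exact sum_congr rfl fun x _ ↦ by rw [weight_flip]; ring
    have e3 : A = ∑ ix : Fin n × (Fin n → Bool), weight J h ix.2 * weight J h (flip ix.2 ix.1) /
        (weight J h ix.2 + weight J h (flip ix.2 ix.1)) * (f ix.2 - f (flip ix.2 ix.1)) ^ 2 := by
      rw [Fintype.sum_prod_type]
    rw [e1, e2, e3]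
    refine sum_sq_le_sum_mul_sum_of_sq_le_mul _ (fun ix _ ↦ ?_) (fun ix _ ↦ ?_) fun ix _ ↦ ?_
    · have := Real.exp_pos (0 : ℝ)
      exact mul_nonneg (div_nonneg (mul_pos (Real.exp_pos _) (Real.exp_pos _)).le
        (add_pos (Real.exp_pos _) (Real.exp_pos _)).le) (sq_nonneg _)
    · exact mul_nonneg (add_pos (Real.exp_pos _) (Real.exp_pos _)).le (sq_nonneg _)
    · have hs : weight J h ix.2 + weight J h (flip ix.2 ix.1) ≠ 0 :=
        (add_pos (Real.exp_pos _) (Real.exp_pos _)).ne'
      rw [weight_flip] at hs ⊢
      refine le_of_eq ?_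
      field_simp
  have hA : A = 2 * (Z * dirichlet J h f) := by
    have e : Z * dirichlet J h f = ∑ i, ∑ x, weight J h x * f x *
        (weight J h (flip x i) * (f x - f (flip x i)) /
          (weight J h x + weight J h (flip x i))) := by
      simp only [dirichlet, gibbs, mul_sum]
      rw [← hZd, sum_comm]
      refine sum_congr rfl fun i _ ↦ sum_congr rfl fun x _ ↦ ?_
      have hs : weight J h x + weight J h (flip x i) ≠ 0 :=
        (add_pos (Real.exp_pos _) (Real.exp_pos _)).ne'
      rw [condExp]
      field_simp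
      ring
    rw [e, mul_sum]
    refine sum_congr rfl fun i _ ↦ ?_
    rw [two_mul]
    conv_rhs => arg 2; rw [← sum_flip i]
    rw [← sum_add_distrib]
    refine sum_congr rfl fun x _ ↦ ?_
    rw [flip_flip, add_comm (weight J h (flip x i))]
    ring
  have hvar : Vw = Z * variance J h f := by
    simp only [variance, gibbs, mul_sum, ← hZd, hVw, hf', ← hm]
    exact sum_congr rfl fun x _ ↦ by field_simp
  have hV0 : 0 ≤ Vw := sum_nonneg fun x _ ↦ mul_nonneg (Real.exp_pos _).le (sq_nonneg _)
  have h1 : (1 - lam) * Vw ^ 2 ≤ Z * dirichlet J h f * Vw := by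
    have hA0 : 0 ≤ A := sum_nonneg fun i _ ↦ sum_nonneg fun x _ ↦
      mul_nonneg (div_nonneg (mul_pos (Real.exp_pos _) (Real.exp_pos _)).le
        (add_pos (Real.exp_pos _) (Real.exp_pos _)).le) (sq_nonneg _)
    nlinarith [mul_le_mul_of_nonneg_left hcs (by linarith : (0:ℝ) ≤ 1 - lam),
      mul_le_mul_of_nonneg_left hP hA0]
  rcases hV0.eq_or_lt with hv | hv
  · have : variance J h f = 0 := by
      rw [hvar] at hv
      exact (mul_eq_zero.1 hv.symm).resolve_left hZ.ne'
    rw [this, mul_zero]
    have : 0 ≤ A := sum_nonneg fun i _ ↦ sum_nonneg fun x _ ↦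
      mul_nonneg (div_nonneg (mul_pos (Real.exp_pos _) (Real.exp_pos _)).le
        (add_pos (Real.exp_pos _) (Real.exp_pos _)).le) (sq_nonneg _)
    rw [hA] at this
    exact nonneg_of_mul_nonneg_right (by linarith) hZ
  · have h2 : (1 - lam) * Vw ≤ Z * dirichlet J h f := by
      refine le_of_mul_le_mul_right ?_ hv
      linarith [h1]
    rw [hvar] at h2
    exact le_of_mul_le_mul_left (by linarith) hZ

end Vale.Agent.P150
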