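import Vale.Agent.P150.Ent
import Vale.Agent.P150.Gap

/-! Single site entropies on the cube and tensorisation for product weights. -/

namespace Vale.Agent.P150

open Finset Filter
open scoped Topology

variable {Ω : Type*} [Fintype Ω] {n : ℕ}

/-- Values of `φ` on the edge at `x` in direction `i`. -/
def edge (φ : (Fin n → Bool) → ℝ) (i : Fin n) (x : Fin n → Bool) (b : Bool) : ℝ :=
  if b then φ x else φ (flip x i)

/-- Sum over the sites of the conditional entropies, unnormalised. -/
noncomputable def locEnt (w f : (Fin n → Bool) → ℝ) : ℝ :=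
  ∑ i, ∑ x, ent (edge w i x) (edge f i x) / 2

theorem edge_pos {w : (Fin n → Bool) → ℝ} (hw : ∀ x, 0 < w x) (i : Fin n) (x : Fin n → Bool)
    (b : Bool) : 0 < edge w i x b := by
  unfold edge; split_ifs <;> exact hw _

theorem edge_nonneg {f : (Fin n → Bool) → ℝ} (hf : ∀ x, 0 ≤ f x) (i : Fin n) (x : Fin n → Bool)
    (b : Bool) : 0 ≤ edge f i x b := by
  unfold edge; split_ifs <;> exact hf _

theorem locEnt_superadd {ι : Type*} [Fintype ι] (v : ι → (Fin n → Bool) → ℝ)
    (w f : (Fin n → Bool) → ℝ) (hf : ∀ x, 0 ≤ f x) (hv : ∀ j x, 0 < v j x)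
    (hsum : ∀ x, ∑ j, v j x = w x) : ∑ j, locEnt (v j) f ≤ locEnt w f := by
  rcases isEmpty_or_nonempty ι with h | ⟨⟨j₀⟩⟩
  · have hw : w = fun _ => 0 := funext fun x => by rw [← hsum x]; simp
    simp [locEnt, hw, ent, rel, edge]
  have hw : ∀ x, 0 < w x := fun x => by
    rw [← hsum x]; exact Finset.sum_pos (fun j _ => hv j x) ⟨j₀, Finset.mem_univ _⟩
  unfold locEnt
  rw [Finset.sum_comm]
  refine Finset.sum_le_sum fun i _ => ?_
  rw [Finset.sum_comm]
  refine Finset.sum_le_sum fun x _ => ?_
  rw [← Finset.sum_div]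
  refine div_le_div_of_nonneg_right ?_ two_pos.le
  refine ent_superadd (fun j => edge (v j) i x) _ _ (fun b => ?_) (fun j b => edge_pos (hv j) i x b)
    (edge_pos hw i x) (edge_nonneg hf i x)
  cases b <;> simp [edge, hsum]

theorem locEnt_smul (w f : (Fin n → Bool) → ℝ) {c : ℝ} (hc : c ≠ 0) :
    locEnt (fun x => c * w x) f = c * locEnt w f := by
  have e : ∀ i x, edge (fun y => c * w y) i x = fun b => c * edge w i x b := fun i x =>
    funext fun b => by unfold edge; split_ifs <;> rfl
  simp only [locEnt, e, ent_smul _ _ hc, Finset.mul_sum, mul_div_assoc]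

theorem ent_continuousAt [Nonempty Ω] (f w₀ : Ω → ℝ) (hw : ∀ x, 0 < w₀ x) (hf : ∀ x, 0 ≤ f x) :
    ContinuousAt (fun w : Ω → ℝ => ent w f) w₀ := by
  have hne : (∑ x, w₀ x) ≠ 0 := (Finset.sum_pos (fun x _ => hw x) Finset.univ_nonempty).ne'
  have e : ∀ᶠ w in 𝓝 w₀, ∀ x, w x ≠ 0 := eventually_all.2 fun x =>
    (continuous_apply x).continuousAt.eventually_ne (hw x).ne'
  have hc : ∀ᶠ w in 𝓝 w₀, ent w f
      = (∑ x, w x * f x * Real.log (f x)) - rel (∑ x, w x * f x) (∑ x, w x) := by
    filter_upwards [e] with w hw'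
    simp only [ent, rel, mul_div_cancel_left₀ _ (hw' _)]
  refine ContinuousAt.congr ?_ (hc.mono fun w h => h.symm)
  refine ContinuousAt.sub (continuous_finsetSum _ fun x _ =>
    ((continuous_apply x).mul continuous_const).mul continuous_const).continuousAt ?_
  rcases eq_or_ne (∑ x, w₀ x * f x) 0 with h0 | h0
  · have hfz : ∀ x, f x = 0 := fun x => (mul_eq_zero.1
      ((Finset.sum_eq_zero_iff_of_nonneg fun x _ => mul_nonneg (hw x).le (hf x)).1 h0 x
        (Finset.mem_univ x))).resolve_left (hw x).ne'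
    simp only [hfz, mul_zero, Finset.sum_const_zero, rel, zero_mul]
    exact continuousAt_const
  · have hs : ContinuousAt (fun w : Ω → ℝ => ∑ x, w x * f x) w₀ :=
      (continuous_finsetSum _ fun x _ => (continuous_apply x).mul continuous_const).continuousAt
    unfold rel
    exact ContinuousAt.mul hs (ContinuousAt.log (ContinuousAt.div hs
      (continuous_finsetSum _ fun x _ => continuous_apply x).continuousAt hne)
      (div_ne_zero h0 hne))

theorem locEnt_continuousAt (f w₀ : (Fin n → Bool) → ℝ) (hw : ∀ x, 0 < w₀ x) (hf : ∀ x, 0 ≤ f x) :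
    ContinuousAt (fun w => locEnt w f) w₀ := by
  unfold locEnt
  refine tendsto_finsetSum _ fun i _ => tendsto_finsetSum _ fun x _ => Tendsto.div_const ?_ _
  have hc : Continuous fun w : (Fin n → Bool) → ℝ => edge w i x := by
    refine continuous_pi fun b => ?_
    cases b <;> simp only [edge, Bool.false_eq_true, if_true, if_false] <;> exact continuous_apply _
  have h1 : ContinuousAt (fun u : Bool → ℝ => ent u (edge f i x)) (edge w₀ i x) :=
    ent_continuousAt _ _ (edge_pos hw i x) (edge_nonneg hf i x)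
  exact h1.tendsto.comp hc.continuousAt

/-- A nonnegative table carries at least the information of its two marginals. -/
theorem two_way {ι κ : Type*} [Fintype ι] [Fintype κ] [Nonempty ι] [Nonempty κ] (a : ι → κ → ℝ)
    (v : ι → ℝ) (u : κ → ℝ) (ha : ∀ i j, 0 ≤ a i j) (hv : ∀ i, 0 < v i) (hu : ∀ j, 0 < u j) :
    ∑ j, rel (∑ i, a i j) ((∑ i, v i) * u j) + ∑ i, rel (∑ j, a i j) (v i * ∑ j, u j)
      ≤ ∑ i, ∑ j, rel (a i j) (v i * u j) + rel (∑ i, ∑ j, a i j) ((∑ i, v i) * ∑ j, u j) := by
  set A := fun i => ∑ j, a i j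
  set S := fun j => ∑ i, a i j
  set T := ∑ i, ∑ j, a i j
  set V := ∑ i, v i
  set U := ∑ j, u j
  have hV : 0 < V := Finset.sum_pos (fun i _ => hv i) Finset.univ_nonempty
  have hU : 0 < U := Finset.sum_pos (fun j _ => hu j) Finset.univ_nonempty
  have hA : ∀ i, 0 ≤ A i := fun i => Finset.sum_nonneg fun j _ => ha i j
  have hS : ∀ j, 0 ≤ S j := fun j => Finset.sum_nonneg fun i _ => ha i j
  rcases (Finset.sum_nonneg fun i _ => hA i : 0 ≤ T).eq_or_lt with hT | hT
  · have hz : ∀ i j, a i j = 0 := fun i j =>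
      (Finset.sum_eq_zero_iff_of_nonneg fun j _ => ha i j).1
        ((Finset.sum_eq_zero_iff_of_nonneg fun i _ => hA i).1 hT.symm i (Finset.mem_univ _)) j
        (Finset.mem_univ _)
    simp [A, S, T, hz, rel]
  have key : ∀ i j, a i j - A i * S j / T ≤ rel (a i j) (v i * u j)
      + a i j * Real.log (T / (V * U)) - a i j * Real.log (S j / (V * u j))
      - a i j * Real.log (A i / (v i * U)) := by
    intro i j
    rcases (ha i j).eq_or_lt with h | h
    · rw [← h]; simp only [rel, zero_mul, zero_sub, add_zero, sub_zero]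
      exact neg_nonpos.2 (div_nonneg (mul_nonneg (hA i) (hS j)) hT.le)
    have hAi : 0 < A i := lt_of_lt_of_le h (Finset.single_le_sum (f := fun j => a i j) (fun j _ => ha i j) (Finset.mem_univ j))
    have hSj : 0 < S j := lt_of_lt_of_le h (Finset.single_le_sum (f := fun i => a i j) (fun i _ => ha i j) (Finset.mem_univ i))
    refine (sub_le_rel (ha i j) (div_pos (mul_pos hAi hSj) hT)).trans (le_of_eq ?_)
    have := hv i; have := hu j
    unfold rel
    have hT' : (0 : ℝ) < T := hT
    rw [Real.log_div h.ne' (div_pos (mul_pos hAi hSj) hT').ne',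
      Real.log_div (mul_pos hAi hSj).ne' hT'.ne', Real.log_mul hAi.ne' hSj.ne',
      Real.log_div h.ne' (mul_pos (hv i) (hu j)).ne', Real.log_mul (hv i).ne' (hu j).ne',
      Real.log_div hT'.ne' (mul_pos hV hU).ne', Real.log_mul hV.ne' hU.ne',
      Real.log_div hSj.ne' (mul_pos hV (hu j)).ne', Real.log_mul hV.ne' (hu j).ne',
      Real.log_div hAi.ne' (mul_pos (hv i) hU).ne', Real.log_mul (hv i).ne' hU.ne']
    ring
  have hsum := Finset.sum_le_sum fun i (_ : i ∈ (univ : Finset ι)) =>
    Finset.sum_le_sum fun j (_ : j ∈ (univ : Finset κ)) => key i j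
  simp only [Finset.sum_add_distrib, Finset.sum_sub_distrib, ← Finset.sum_mul] at hsum
  rw [Finset.sum_comm (f := fun i j => a i j * Real.log (S j / (V * u j)))] at hsum
  simp only [← Finset.sum_div, ← Finset.mul_sum, ← Finset.sum_mul] at hsum
  have e : ∑ j, S j = T := Finset.sum_comm
  have e' : T * T / T = T := mul_div_cancel_right₀ T hT.ne'
  simp only [rel] at hsum ⊢
  rw [e] at hsum
  change T - T * T / T ≤ _ at hsum
  rw [e'] at hsum
  linarith

/-- Tensorisation of entropy for product weights. -/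
theorem ent_prod_le : ∀ {n : ℕ} (u : Fin n → Bool → ℝ), (∀ i b, 0 < u i b) →
    ∀ f : (Fin n → Bool) → ℝ, (∀ x, 0 ≤ f x) →
      ent (fun x => ∏ i, u i (x i)) f ≤ locEnt (fun x => ∏ i, u i (x i)) f := by
  intro n
  induction n with
  | zero => intro u _ f _; simp [ent, locEnt]
  | succ n ih =>
    intro u hu f hf
    set v : (Fin n → Bool) → ℝ := fun x => ∏ i : Fin n, u i.succ (x i) with hv
    have hv0 : ∀ x, 0 < v x := fun x => Finset.prod_pos fun i _ => hu _ _
    set w : (Fin (n + 1) → Bool) → ℝ := fun x => ∏ i, u i (x i) with hw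
    have hcons : ∀ b x, w (Fin.cons b x) = u 0 b * v x := fun b x => by
      simp [hw, hv, Fin.prod_univ_succ]
    have hsum : ∀ G : (Fin (n + 1) → Bool) → ℝ,
        ∑ x, G x = ∑ b : Bool, ∑ x, G (Fin.cons b x) := fun G => by
      rw [← Equiv.sum_comp (Fin.consEquiv fun _ => Bool), Fintype.sum_prod_type]
      rfl
    have fl0 : ∀ b (x : Fin n → Bool), flip (Fin.cons b x : Fin (n + 1) → Bool) 0 = Fin.cons (!b) x := by
      intro b x; simp [flip, Fin.update_cons_zero]
    have fls : ∀ b (x : Fin n → Bool) i,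
        flip (Fin.cons b x : Fin (n + 1) → Bool) i.succ = Fin.cons b (flip x i) := by
      intro b x i; simp [flip, Fin.cons_update]
    set fb : Bool → (Fin n → Bool) → ℝ := fun b x => f (Fin.cons b x) with hfb
    have h1 : ent w f ≤ ∑ b, u 0 b * ent v (fb b) + ∑ x, v x * ent (u 0) (fun b => fb b x) := by
      have tw := two_way (fun x b => v x * (u 0 b * fb b x)) v (u 0)
        (fun x b => mul_nonneg (hv0 x).le (mul_nonneg (hu 0 b).le (hf _))) hv0 (hu 0)
      have a1 : ∀ b, u 0 b * ent v (fb b) = (∑ x, rel (v x * (u 0 b * fb b x)) (v x * u 0 b))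
          - rel (∑ x, v x * (u 0 b * fb b x)) ((∑ x, v x) * u 0 b) := by
        intro b
        rw [← ent_smul v (fb b) (hu 0 b).ne']
        unfold ent
        rw [Finset.sum_mul]
        exact congrArg₂ (· - ·) (Finset.sum_congr rfl fun x _ => congrArg₂ rel (by ring) (by ring))
          (congrArg₂ rel (Finset.sum_congr rfl fun x _ => by ring)
            (Finset.sum_congr rfl fun x _ => by ring))
      have a2 : ∀ x, v x * ent (u 0) (fun b => fb b x)
          = (∑ b, rel (v x * (u 0 b * fb b x)) (v x * u 0 b))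
            - rel (∑ b, v x * (u 0 b * fb b x)) (v x * ∑ b, u 0 b) := by
        intro x
        rw [← ent_smul (u 0) (fun b => fb b x) (hv0 x).ne']
        unfold ent
        rw [Finset.mul_sum]
        exact congrArg₂ (· - ·)
          (Finset.sum_congr rfl fun b _ => congrArg₂ rel (by ring) rfl)
          (congrArg₂ rel (Finset.sum_congr rfl fun b _ => by ring) rfl)
      have a0 : ent w f = (∑ x, ∑ b, rel (v x * (u 0 b * fb b x)) (v x * u 0 b))
          - rel (∑ x, ∑ b, v x * (u 0 b * fb b x)) ((∑ x, v x) * ∑ b, u 0 b) := by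
        unfold ent
        rw [hsum, hsum (fun x => w x * f x), hsum w, Finset.sum_comm, Finset.sum_mul]
        refine congrArg₂ (· - ·) (Finset.sum_congr rfl fun x _ => Finset.sum_congr rfl fun b _ =>
          congrArg₂ rel (by rw [hcons]; simp only [hfb]; ring) (by rw [hcons]; ring))
          (congrArg₂ rel ?_ ?_)
        · rw [Finset.sum_comm]
          exact Finset.sum_congr rfl fun x _ => Finset.sum_congr rfl fun b _ => by
            rw [hcons]; simp only [hfb]; ring
        · rw [Finset.sum_comm]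
          exact Finset.sum_congr rfl fun x _ => by
            rw [Finset.mul_sum]; exact Finset.sum_congr rfl fun b _ => by rw [hcons]; ring
      simp only [a0, a1, a2, Finset.sum_sub_distrib]
      rw [Finset.sum_comm (f := fun b x => rel (v x * (u 0 b * fb b x)) (v x * u 0 b))]
      linarith
    refine h1.trans (le_of_le_of_eq (add_le_add (Finset.sum_le_sum fun b _ =>
      mul_le_mul_of_nonneg_left (ih (fun i => u i.succ) (fun i b => hu _ b) (fb b) (fun x => hf _))
        (hu 0 b).le) le_rfl) ?_)
    have e0 : ∀ b x, ent (edge w 0 (Fin.cons b x)) (edge f 0 (Fin.cons b x))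
        = v x * ent (u 0) (fun c => fb c x) := by
      intro b x
      rw [← ent_smul (u 0) _ (hv0 x).ne']
      cases b <;>
        simp [ent, Fintype.sum_bool, edge, fl0, hcons, hfb, mul_comm (v x)] <;> ring
    have es : ∀ b x i, ent (edge w i.succ (Fin.cons b x)) (edge f i.succ (Fin.cons b x))
        = u 0 b * ent (edge v i x) (edge (fb b) i x) := by
      intro b x i
      rw [← ent_smul (edge v i x) _ (hu 0 b).ne']
      refine congrArg₂ ent (funext fun c => ?_) (funext fun c => ?_) <;>
        cases c <;> simp [edge, fls, hcons, hfb]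
    show _ = locEnt w f
    unfold locEnt
    rw [Fin.sum_univ_succ, add_comm]
    congr 1
    · simp only [hsum, e0, Fintype.sum_bool]
      rw [← Finset.sum_add_distrib]
      exact Finset.sum_congr rfl fun x _ => by ring
    · simp only [hsum, es, mul_div_assoc, ← Finset.mul_sum]
      rw [Finset.sum_comm]
      simp only [← Finset.mul_sum]
      rfl

end Vale.Agent.P150
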