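import Mathlib

/-! Entropy on finite weighted sets: log-sum, variational bound, subgaussian transport. -/

namespace Vale.Agent.P150

open Finset

variable {Ω ι : Type*} [Fintype Ω]

/-- The function `a log (a / b)`. -/
noncomputable def rel (a b : ℝ) : ℝ := a * Real.log (a / b)

/-- Unnormalised entropy of `f` for the weight `w`. -/
noncomputable def ent (w f : Ω → ℝ) : ℝ :=
  (∑ x, rel (w x * f x) (w x)) - rel (∑ x, w x * f x) (∑ x, w x)

/-- Variance of `φ` for the normalised weight. -/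
noncomputable def vari (w φ : Ω → ℝ) : ℝ :=
  (∑ x, w x * φ x ^ 2) / (∑ x, w x) - ((∑ x, w x * φ x) / (∑ x, w x)) ^ 2

theorem sub_le_rel {a b : ℝ} (ha : 0 ≤ a) (hb : 0 < b) : a - b ≤ rel a b := by
  have h := Real.self_sub_one_le_mul_log (div_nonneg ha hb.le)
  have h' := mul_le_mul_of_nonneg_left h hb.le
  unfold rel
  rw [mul_sub, mul_div_cancel₀ _ hb.ne', mul_one, ← mul_assoc, mul_div_cancel₀ _ hb.ne'] at h'
  exact h'

theorem rel_le_sub_add {a b : ℝ} (ha : 0 ≤ a) (hb : 0 < b) :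
    rel a b ≤ (a - b) + (a - b) ^ 2 / b := by
  have h := Real.log_le_sub_one_of_pos (x := a / b)
  rcases ha.eq_or_lt with rfl | ha'
  · simp only [rel, zero_mul, zero_sub, neg_sq]
    field_simp
    linarith
  · calc rel a b ≤ a * (a / b - 1) := mul_le_mul_of_nonneg_left (h (div_pos ha' hb)) ha
      _ = _ := by field_simp; ring

theorem rel_smul {a b c : ℝ} (hc : c ≠ 0) : rel (c * a) (c * b) = c * rel a b := by
  unfold rel; rw [mul_div_mul_left a b hc]; ring

theorem rel_scale {a b r : ℝ} (hb : b ≠ 0) (hr : 0 < r) :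
    rel a b = rel a (b * r) + a * Real.log r := by
  unfold rel
  rcases eq_or_ne a 0 with rfl | ha
  · simp
  · rw [show a / b = a / (b * r) * r from by field_simp,
      Real.log_mul (div_ne_zero ha (mul_ne_zero hb hr.ne')) hr.ne']
    ring

/-- The log-sum inequality. -/
theorem log_sum (s : Finset ι) (a b : ι → ℝ) (ha : ∀ i ∈ s, 0 ≤ a i) (hb : ∀ i ∈ s, 0 < b i) :
    rel (∑ i ∈ s, a i) (∑ i ∈ s, b i) ≤ ∑ i ∈ s, rel (a i) (b i) := by
  rcases (Finset.sum_nonneg ha).eq_or_lt with h | h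
  · have : ∀ i ∈ s, a i = 0 := (Finset.sum_eq_zero_iff_of_nonneg ha).1 h.symm
    simp only [rel]
    rw [← h, zero_mul, Finset.sum_eq_zero (fun i hi => by simp [this i hi])]
  have hne : s.Nonempty := Finset.nonempty_of_sum_ne_zero h.ne'
  have hB : 0 < ∑ i ∈ s, b i := Finset.sum_pos hb hne
  set r := (∑ i ∈ s, a i) / ∑ i ∈ s, b i with hr
  have hr0 : 0 < r := div_pos h hB
  have e : ∑ i ∈ s, rel (a i) (b i) = ∑ i ∈ s, rel (a i) (b i * r) + (∑ i ∈ s, a i) * Real.log r := by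
    rw [Finset.sum_mul, ← Finset.sum_add_distrib]
    exact Finset.sum_congr rfl fun i hi => rel_scale (hb i hi).ne' hr0
  have low : ∑ i ∈ s, (a i - b i * r) ≤ ∑ i ∈ s, rel (a i) (b i * r) :=
    Finset.sum_le_sum fun i hi => sub_le_rel (ha i hi) (mul_pos (hb i hi) hr0)
  rw [Finset.sum_sub_distrib, ← Finset.sum_mul, hr, mul_div_cancel₀ _ hB.ne', sub_self] at low
  rw [e]
  show (∑ i ∈ s, a i) * Real.log r ≤ _
  linarith

/-- Converse of the log-sum inequality, with a chi-square error. -/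
theorem log_sum_upper (s : Finset ι) (a b : ι → ℝ) (ha : ∀ i ∈ s, 0 ≤ a i) (hb : ∀ i ∈ s, 0 < b i)
    (hA : 0 < ∑ i ∈ s, a i) :
    ∑ i ∈ s, rel (a i) (b i) - rel (∑ i ∈ s, a i) (∑ i ∈ s, b i)
      ≤ ∑ i ∈ s, (a i - b i * ((∑ j ∈ s, a j) / ∑ j ∈ s, b j)) ^ 2
          / (b i * ((∑ j ∈ s, a j) / ∑ j ∈ s, b j)) := by
  have hne : s.Nonempty := Finset.nonempty_of_sum_ne_zero hA.ne'
  have hB : 0 < ∑ i ∈ s, b i := Finset.sum_pos hb hne
  set r := (∑ i ∈ s, a i) / ∑ i ∈ s, b i with hr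
  have hr0 : 0 < r := div_pos hA hB
  have e : ∑ i ∈ s, rel (a i) (b i) = ∑ i ∈ s, rel (a i) (b i * r) + (∑ i ∈ s, a i) * Real.log r := by
    rw [Finset.sum_mul, ← Finset.sum_add_distrib]
    exact Finset.sum_congr rfl fun i hi => rel_scale (hb i hi).ne' hr0
  have up : ∑ i ∈ s, rel (a i) (b i * r)
      ≤ ∑ i ∈ s, ((a i - b i * r) + (a i - b i * r) ^ 2 / (b i * r)) :=
    Finset.sum_le_sum fun i hi => rel_le_sub_add (ha i hi) (mul_pos (hb i hi) hr0)
  have h0 : ∑ i ∈ s, (a i - b i * r) = 0 := by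
    rw [Finset.sum_sub_distrib, ← Finset.sum_mul, hr, mul_div_cancel₀ _ hB.ne', sub_self]
  rw [Finset.sum_add_distrib, h0, zero_add] at up
  rw [e]
  show _ - (∑ i ∈ s, a i) * Real.log r ≤ _
  linarith

theorem ent_nonneg (w f : Ω → ℝ) (hw : ∀ x, 0 < w x) (hf : ∀ x, 0 ≤ f x) : 0 ≤ ent w f :=
  sub_nonneg.2 (log_sum _ _ _ (fun x _ => mul_nonneg (hw x).le (hf x)) fun x _ => hw x)

theorem ent_smul (w f : Ω → ℝ) {c : ℝ} (hc : c ≠ 0) :
    ent (fun x => c * w x) f = c * ent w f := by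
  simp only [ent, mul_assoc, ← Finset.mul_sum, rel_smul hc, mul_sub]

/-- Splitting the weight: entropy of the whole is that of the parts plus that of their means. -/
theorem ent_split [Fintype ι] (v : ι → Ω → ℝ) (w f : Ω → ℝ) (hv : ∀ x, ∑ i, v i x = w x)
    (hne : ∀ i x, v i x ≠ 0) (hw : ∀ x, w x ≠ 0) :
    ent w f = ∑ i, ent (v i) f
      + ((∑ i, rel (∑ x, v i x * f x) (∑ x, v i x)) - rel (∑ x, w x * f x) (∑ x, w x)) := by
  have e : ∀ x, ∑ i, rel (v i x * f x) (v i x) = rel (w x * f x) (w x) := by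
    intro x
    simp only [rel, mul_div_cancel_left₀ _ (hne _ x), mul_div_cancel_left₀ _ (hw x)]
    rw [← Finset.sum_mul, ← Finset.sum_mul, hv]
  unfold ent
  rw [Finset.sum_sub_distrib, Finset.sum_comm, Finset.sum_congr rfl fun x _ => e x]
  ring

/-- Entropy is superadditive in the weight. -/
theorem ent_superadd [Fintype ι] (v : ι → Ω → ℝ) (w f : Ω → ℝ) (hv : ∀ x, ∑ i, v i x = w x)
    (hpos : ∀ i x, 0 < v i x) (hw : ∀ x, 0 < w x) (hf : ∀ x, 0 ≤ f x) :
    ∑ i, ent (v i) f ≤ ent w f := by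
  classical
  rcases isEmpty_or_nonempty Ω with hΩ | ⟨⟨x₀⟩⟩
  · simp [ent, rel]
  have h := ent_split v w f hv (fun i x => (hpos i x).ne') fun x => (hw x).ne'
  have hA : ∑ i, ∑ x, v i x * f x = ∑ x, w x * f x := by
    rw [Finset.sum_comm]; simp only [← Finset.sum_mul, hv]
  have hB : ∑ i, ∑ x, v i x = ∑ x, w x := by rw [Finset.sum_comm]; simp only [hv]
  have := log_sum Finset.univ (fun i => ∑ x, v i x * f x) (fun i => ∑ x, v i x)
    (fun i _ => Finset.sum_nonneg fun x _ => mul_nonneg (hpos i x).le (hf x))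
    (fun i _ => Finset.sum_pos (fun x _ => hpos i x) ⟨x₀, Finset.mem_univ _⟩)
  rw [hA, hB] at this
  linarith

theorem vari_nonneg (w φ : Ω → ℝ) (hw : ∀ x, 0 ≤ w x) : 0 ≤ vari w φ := by
  unfold vari
  rw [div_pow, sub_nonneg]
  rcases (Finset.sum_nonneg fun x _ => hw x : 0 ≤ ∑ x, w x).eq_or_lt with h | h
  · simp [← h]
  have cs := Finset.sum_sq_le_sum_mul_sum_of_sq_le_mul Finset.univ (r := fun x => w x * φ x)
    (f := fun x => w x) (g := fun x => w x * φ x ^ 2) (fun x _ => hw x)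
    (fun x _ => mul_nonneg (hw x) (sq_nonneg _)) (fun x _ => le_of_eq (by ring))
  rw [div_le_div_iff₀ (by positivity) h]
  calc (∑ x, w x * φ x) ^ 2 * ∑ x, w x ≤ ((∑ x, w x) * ∑ x, w x * φ x ^ 2) * ∑ x, w x :=
        mul_le_mul_of_nonneg_right cs h.le
    _ = _ := by ring

theorem vari_le_second (w φ : Ω → ℝ) : vari w φ ≤ (∑ x, w x * φ x ^ 2) / (∑ x, w x) :=
  sub_le_self _ (sq_nonneg _)

theorem vari_eq_shift (w φ : Ω → ℝ) (c : ℝ) (h : (∑ x, w x) ≠ 0) :
    vari w φ = (∑ x, w x * (φ x - c) ^ 2) / (∑ x, w x)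
      - ((∑ x, w x * φ x) / (∑ x, w x) - c) ^ 2 := by
  have e : ∑ x, w x * (φ x - c) ^ 2
      = ∑ x, w x * φ x ^ 2 - 2 * c * ∑ x, w x * φ x + c ^ 2 * ∑ x, w x := by
    simp only [Finset.mul_sum, ← Finset.sum_sub_distrib, ← Finset.sum_add_distrib]
    exact Finset.sum_congr rfl fun x _ => by ring
  rw [vari, e]
  field_simp
  ring

/-- Comparison of variances for comparable weights. -/
theorem vari_le_of_compare (w w' φ : Ω → ℝ) {c₁ c₂ : ℝ} (hc : 0 < c₁) (hw : ∀ x, 0 < w x)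
    (h1 : ∀ x, c₁ * w x ≤ w' x) (h2 : ∀ x, w' x ≤ c₂ * w x) :
    vari w' φ ≤ c₂ / c₁ * vari w φ := by
  rcases isEmpty_or_nonempty Ω with hΩ | ⟨⟨x₀⟩⟩
  · simp [vari]
  have hb : 0 < ∑ x, w x := Finset.sum_pos (fun x _ => hw x) ⟨x₀, Finset.mem_univ _⟩
  have hb' : 0 < ∑ x, w' x :=
    Finset.sum_pos (fun x _ => lt_of_lt_of_le (mul_pos hc (hw x)) (h1 x)) ⟨x₀, Finset.mem_univ _⟩
  have hc2 : 0 ≤ c₂ := by
    by_contra h
    have := (h1 x₀).trans (h2 x₀)
    nlinarith [hw x₀]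
  set c := (∑ x, w x * φ x) / ∑ x, w x with hcdef
  rw [vari_eq_shift w' φ c hb'.ne', vari_eq_shift w φ c hb.ne', hcdef, sub_self]
  have hnum : ∑ x, w' x * (φ x - c) ^ 2 ≤ c₂ * ∑ x, w x * (φ x - c) ^ 2 := by
    rw [Finset.mul_sum]
    exact Finset.sum_le_sum fun x _ => by
      rw [← mul_assoc]; exact mul_le_mul_of_nonneg_right (h2 x) (sq_nonneg _)
  have hden : c₁ * ∑ x, w x ≤ ∑ x, w' x := by
    rw [Finset.mul_sum]; exact Finset.sum_le_sum fun x _ => h1 x
  have hn0 : 0 ≤ ∑ x, w x * (φ x - c) ^ 2 :=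
    Finset.sum_nonneg fun x _ => mul_nonneg (hw x).le (sq_nonneg _)
  calc _ ≤ (∑ x, w' x * (φ x - c) ^ 2) / ∑ x, w' x := sub_le_self _ (sq_nonneg _)
    _ ≤ (c₂ * ∑ x, w x * (φ x - c) ^ 2) / (c₁ * ∑ x, w x) :=
        div_le_div₀ (mul_nonneg hc2 hn0) hnum (mul_pos hc hb) hden
    _ = _ := by rw [← hcdef]; field_simp; ring

/-- Variational lower bound for the entropy. -/
theorem exp_dual [Nonempty Ω] (w f φ : Ω → ℝ) (hw : ∀ x, 0 < w x) (hf : ∀ x, 0 ≤ f x)
    (hA : 0 < ∑ x, w x * f x) :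
    ∑ x, w x * f x * φ x - (∑ x, w x * f x) *
        (Real.log (∑ x, w x * Real.exp (φ x)) - Real.log (∑ x, w x)) ≤ ent w f := by
  have hb : 0 < ∑ x, w x := Finset.sum_pos (fun x _ => hw x) Finset.univ_nonempty
  have hM : 0 < ∑ x, w x * Real.exp (φ x) :=
    Finset.sum_pos (fun x _ => mul_pos (hw x) (Real.exp_pos _)) Finset.univ_nonempty
  have key := log_sum Finset.univ (fun x => w x * f x) (fun x => w x * Real.exp (φ x))
    (fun x _ => mul_nonneg (hw x).le (hf x)) (fun x _ => mul_pos (hw x) (Real.exp_pos _))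
  have e : ∀ x, rel (w x * f x) (w x * Real.exp (φ x))
      = rel (w x * f x) (w x) - w x * f x * φ x := by
    intro x
    rcases eq_or_ne (w x * f x) 0 with h | h
    · simp [rel, h]
    · rw [rel_scale (hw x).ne' (Real.exp_pos (φ x)), Real.log_exp]; ring
  have e2 : rel (∑ x, w x * f x) (∑ x, w x * Real.exp (φ x))
      = rel (∑ x, w x * f x) (∑ x, w x) - (∑ x, w x * f x) *
        (Real.log (∑ x, w x * Real.exp (φ x)) - Real.log (∑ x, w x)) := by
    unfold rel
    rw [Real.log_div hA.ne' hM.ne', Real.log_div hA.ne' hb.ne']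
    ring
  simp only [e, Finset.sum_sub_distrib] at key
  rw [e2] at key
  unfold ent
  linarith

/-- The log moment generating function is bounded by the variances along the tilts. -/
theorem mgf_le [Nonempty Ω] (w φ : Ω → ℝ) (hw : ∀ x, 0 < w x) (V : ℝ)
    (hV : ∀ t, vari (fun x => w x * Real.exp (t * φ x)) φ ≤ V) (t : ℝ) :
    Real.log (∑ x, w x * Real.exp (t * φ x)) - Real.log (∑ x, w x)
      ≤ t * ((∑ x, w x * φ x) / ∑ x, w x) + V * t ^ 2 / 2 := by
  set M : ℝ → ℝ := fun s => ∑ x, w x * Real.exp (s * φ x) with hMdef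
  set M1 : ℝ → ℝ := fun s => ∑ x, w x * φ x * Real.exp (s * φ x) with hM1def
  set M2 : ℝ → ℝ := fun s => ∑ x, w x * φ x ^ 2 * Real.exp (s * φ x) with hM2def
  have hMpos : ∀ s, 0 < M s := fun s =>
    Finset.sum_pos (fun x _ => mul_pos (hw x) (Real.exp_pos _)) Finset.univ_nonempty
  have dexp : ∀ (x : Ω) s, HasDerivAt (fun r => Real.exp (r * φ x)) (φ x * Real.exp (s * φ x)) s := by
    intro x s
    simpa [mul_comm] using ((hasDerivAt_id s).mul_const (φ x)).exp
  have dM : ∀ s, HasDerivAt M (M1 s) s := by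
    intro s
    refine (HasDerivAt.fun_sum fun x _ => (dexp x s).const_mul (w x)).congr_deriv ?_
    exact Finset.sum_congr rfl fun x _ => by ring
  have dM1 : ∀ s, HasDerivAt M1 (M2 s) s := by
    intro s
    refine (HasDerivAt.fun_sum fun x _ => (dexp x s).const_mul (w x * φ x)).congr_deriv ?_
    exact Finset.sum_congr rfl fun x _ => by ring
  set m := (∑ x, w x * φ x) / ∑ x, w x
  set g : ℝ → ℝ := fun s => Real.log (M s) - s * m - V * s ^ 2 / 2 with hgdef
  set g' : ℝ → ℝ := fun s => M1 s / M s - m - V * s with hg'def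
  have dg : ∀ s, HasDerivAt g (g' s) s := by
    intro s
    refine ((((dM s).log (hMpos s).ne').sub ((hasDerivAt_id s).mul_const m)).sub
      (((hasDerivAt_pow 2 s).const_mul V).div_const 2)).congr_deriv ?_
    simp [hg'def]; ring
  have dg' : ∀ s, HasDerivAt g' (vari (fun x => w x * Real.exp (s * φ x)) φ - V) s := by
    intro s
    refine ((((dM1 s).div (dM s) (hMpos s).ne').sub_const m).sub
      ((hasDerivAt_id s).const_mul V)).congr_deriv ?_
    have e1 : ∑ x, w x * Real.exp (s * φ x) * φ x = M1 s :=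
      Finset.sum_congr rfl fun x _ => by ring
    have e2 : ∑ x, w x * Real.exp (s * φ x) * φ x ^ 2 = M2 s :=
      Finset.sum_congr rfl fun x _ => by ring
    rw [vari, e1, e2]
    show _ = M2 s / M s - (M1 s / M s) ^ 2 - V
    field_simp [(hMpos s).ne']
  have anti : Antitone g' := antitone_of_deriv_nonpos (fun s => (dg' s).differentiableAt)
    fun s => by rw [(dg' s).deriv]; linarith [hV s]
  have hg'0 : g' 0 = 0 := by simp [hg'def, hM1def, hMdef, m]
  have hmax : g t ≤ g 0 := by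
    rcases le_total 0 t with ht | ht
    · refine antitoneOn_of_deriv_nonpos (convex_Ici 0)
        (fun s _ => (dg s).continuousAt.continuousWithinAt)
        (fun s _ => (dg s).differentiableAt.differentiableWithinAt) (fun s hs => ?_)
        Set.self_mem_Ici ht ht
      rw [interior_Ici, Set.mem_Ioi] at hs
      rw [(dg s).deriv]; linarith [anti hs.le]
    · refine monotoneOn_of_deriv_nonneg (convex_Iic 0)
        (fun s _ => (dg s).continuousAt.continuousWithinAt)
        (fun s _ => (dg s).differentiableAt.differentiableWithinAt) (fun s hs => ?_)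
        ht Set.self_mem_Iic ht
      rw [interior_Iic, Set.mem_Iio] at hs
      rw [(dg s).deriv]; linarith [anti hs.le]
  simp [hgdef, hMdef] at hmax
  linarith

/-- Transport inequality from the variance bound along tilts. -/
theorem transport [Nonempty Ω] (w f φ : Ω → ℝ) (hw : ∀ x, 0 < w x) (hf : ∀ x, 0 ≤ f x)
    (hA : 0 < ∑ x, w x * f x) (V : ℝ)
    (hV : ∀ t, vari (fun x => w x * Real.exp (t * φ x)) φ ≤ V) :
    ((∑ x, w x * f x * φ x) / (∑ x, w x * f x) - (∑ x, w x * φ x) / (∑ x, w x)) ^ 2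
      ≤ 2 * V * (ent w f / ∑ x, w x * f x) := by
  set A := ∑ x, w x * f x
  set Δ := (∑ x, w x * f x * φ x) / A - (∑ x, w x * φ x) / (∑ x, w x)
  have hq : ∀ t : ℝ, 0 ≤ V / 2 * (t * t) + (-Δ) * t + ent w f / A := by
    intro t
    have h1 := exp_dual w f (fun x => t * φ x) hw hf hA
    have h2 := mgf_le w φ hw V hV t
    have h3 : ∑ x, w x * f x * (t * φ x) = t * ∑ x, w x * f x * φ x := by
      rw [Finset.mul_sum]; exact Finset.sum_congr rfl fun x _ => by ring
    rw [h3] at h1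
    have h4 := mul_le_mul_of_nonneg_left h2 hA.le
    have h5 : t * (∑ x, w x * f x * φ x) - A * (t * ((∑ x, w x * φ x) / ∑ x, w x) + V * t ^ 2 / 2)
        ≤ ent w f := le_trans (by linarith) h1
    have h6 := (div_le_div_iff_of_pos_right hA).2 h5
    have h7 : (t * (∑ x, w x * f x * φ x)
        - A * (t * ((∑ x, w x * φ x) / ∑ x, w x) + V * t ^ 2 / 2)) / A
        = t * Δ - V * t ^ 2 / 2 := by
      simp only [Δ]; field_simp; ring
    rw [h7] at h6
    nlinarith
  have h := discrim_le_zero hq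
  unfold discrim at h
  nlinarith

end Vale.Agent.P150
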