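import Vale.Agent.P150.Localise
import Vale.Agent.P150.Cube

/-! Factorisation of entropy into single site entropies from the gap bound. -/

namespace Vale.Agent.P150

open Finset

variable {n : ℕ} (J : Fin n → Fin n → ℝ) (h : Fin n → ℝ)

theorem variance_eq_vari (φ : (Fin n → Bool) → ℝ) :
    variance J h φ = vari (weight J h) φ := by
  have hZ : (∑ y, weight J h y) ≠ 0 := (sum_pos (fun x _ ↦ Real.exp_pos _) univ_nonempty).ne'
  have hm : mean J h φ = (∑ x, weight J h x * φ x) / ∑ y, weight J h y := by
    simp only [mean, gibbs, div_mul_eq_mul_div, ← Finset.sum_div]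
  rw [vari_eq_shift (weight J h) φ (mean J h φ) hZ, hm, sub_self, variance, hm]
  simp only [gibbs, div_mul_eq_mul_div, ← Finset.sum_div]
  simp

theorem dirichlet_linear_le (z : Fin n → ℝ) :
    dirichlet J h (fun x => ∑ i, z i * spin (x i)) ≤ ∑ i, z i ^ 2 := by
  have hZ : 0 < ∑ y, weight J h y := sum_pos (fun x _ ↦ Real.exp_pos _) univ_nonempty
  set φ : (Fin n → Bool) → ℝ := fun x => ∑ i, z i * spin (x i) with hφ
  have e : dirichlet J h φ = ∑ i, ∑ x, (weight J h x * φ x * (weight J h (flip x i) *
      (φ x - φ (flip x i)) / (weight J h x + weight J h (flip x i)))) / ∑ y, weight J h y := by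
    simp only [dirichlet, gibbs, mul_sum]
    rw [sum_comm]
    refine sum_congr rfl fun i _ ↦ sum_congr rfl fun x _ ↦ ?_
    have hs : weight J h x + weight J h (flip x i) ≠ 0 :=
      (add_pos (Real.exp_pos _) (Real.exp_pos _)).ne'
    rw [condExp]
    field_simp
    ring
  rw [e]
  refine sum_le_sum fun i _ => ?_
  rw [← Finset.sum_div, div_le_iff₀ hZ]
  have hd : ∀ x, φ x - φ (flip x i) = 2 * z i * spin (x i) := by
    intro x
    simp only [hφ, ← Finset.sum_sub_distrib]
    rw [Finset.sum_eq_single i]
    · simp [flip, spin_not]; ring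
    · intro j _ hj; simp [flip, hj]
    · simp
  set F : (Fin n → Bool) → ℝ := fun x => weight J h x * φ x * (weight J h (flip x i) *
    (φ x - φ (flip x i)) / (weight J h x + weight J h (flip x i)))
  have h2 : ∑ x, F x + ∑ x, F (flip x i) ≤ 2 * (z i ^ 2 * ∑ y, weight J h y) := by
    have hb : ∀ x, F x + F (flip x i) ≤ z i ^ 2 * weight J h x + z i ^ 2 * weight J h (flip x i) := by
      intro x
      have ha : 0 < weight J h x := Real.exp_pos _
      have hb : 0 < weight J h (flip x i) := Real.exp_pos _
      have e1 : F x + F (flip x i) = weight J h x * weight J h (flip x i) *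
          (φ x - φ (flip x i)) ^ 2 / (weight J h x + weight J h (flip x i)) := by
        simp only [F, flip_flip, add_comm (weight J h (flip x i))]
        ring
      have hsp : (φ x - φ (flip x i)) ^ 2 = 4 * z i ^ 2 := by
        rw [hd]; ring_nf; rw [sq (spin (x i)), spin_mul_self]; ring
      rw [e1, hsp, div_le_iff₀ (add_pos ha hb)]
      nlinarith [mul_nonneg (sq_nonneg (z i)) (sq_nonneg (weight J h x - weight J h (flip x i)))]
    rw [← sum_add_distrib]
    refine (sum_le_sum fun x _ => hb x).trans (le_of_eq ?_)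
    rw [sum_add_distrib, sum_flip i fun x => z i ^ 2 * weight J h x, ← mul_sum]
    ring
  rw [sum_flip i F] at h2
  linarith

/-- Entropy is dominated by the single site entropies. -/
theorem entropy_factor {a lam : ℝ} (ha : 0 ≤ a) (hl : lam < 1)
    (hnorm : ∀ v : Fin n → ℝ, |∑ i, ∑ j, symJ J i j * v i * v j| ≤ a * ∑ i, v i ^ 2)
    (hlam : ∀ s ∈ Set.Icc (0 : ℝ) 1, ∀ v : Fin n → ℝ,
      ∑ i, ∑ j, tanhMat (fun i j => s * J i j) i j * v i * v j ≤ lam * ∑ i, v i ^ 2)
    (f : (Fin n → Bool) → ℝ) (hf : ∀ x, 0 ≤ f x) :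
    Real.exp (-(16 * (2 * a / (1 - lam)) + 2)) * ent (weight J h) f ≤ locEnt (weight J h) f := by
  classical
  set A : Matrix (Fin n) (Fin n) ℝ :=
    Matrix.of fun i j => (if i = j then a else 0) + symJ J i j with hA
  have quad : ∀ v : Fin n → ℝ, ∑ i, ∑ j, A i j * v i * v j
      = a * (∑ i, v i ^ 2) + ∑ i, ∑ j, symJ J i j * v i * v j := by
    intro v
    simp only [hA, Matrix.of_apply, add_mul, sum_add_distrib, ite_mul, zero_mul, sum_ite_eq,
      mem_univ, if_true, mul_sum]
    congr 1
    exact sum_congr rfl fun i _ => by ring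
  have hpsd : A.PosSemidef := by
    refine Matrix.PosSemidef.of_dotProduct_mulVec_nonneg ?_ fun v => ?_
    · ext i j
      simp only [Matrix.conjTranspose_apply, hA, Matrix.of_apply, star_trivial, symJ_comm J j i,
        eq_comm]
    · have e : dotProduct (star v) (Matrix.mulVec A v) = ∑ i, ∑ j, A i j * v i * v j := by
        simp only [dotProduct, Matrix.mulVec, star_trivial, mul_sum]
        exact sum_congr rfl fun i _ => sum_congr rfl fun j _ => by ring
      rw [e, quad]
      linarith [(abs_le.1 (hnorm v)).1]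
  obtain ⟨m, V, hV⟩ := Matrix.posSemidef_iff_eq_sum_vecMulVec.1 hpsd
  have sq_sum : ∀ v : Fin n → ℝ, ∑ k, (∑ i, V k i * v i) ^ 2
      = a * (∑ i, v i ^ 2) + ∑ i, ∑ j, symJ J i j * v i * v j := by
    intro v
    rw [← quad v]
    simp only [hV, Matrix.sum_apply, Matrix.vecMulVec_apply, star_trivial, sq, sum_mul_sum]
    rw [sum_comm]
    refine sum_congr rfl fun i _ => ?_
    rw [sum_comm]
    refine sum_congr rfl fun j _ => ?_
    simp only [sum_mul]
    exact sum_congr rfl fun k _ => by ring
  set T : Fin m → (Fin n → Bool) → ℝ := fun k x => ∑ i, V k i * spin (x i) with hT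
  have spin2 : ∀ x : Fin n → Bool, ∑ i, spin (x i) ^ 2 = (n : ℝ) := by
    intro x; simp [sq, spin_mul_self]
  set base : (Fin n → Bool) → ℝ :=
    fun x => Real.exp (-(a * n) / 2) * ∏ i, Real.exp (h i * spin (x i)) with hbase
  have hbpos : ∀ x, 0 < base x := fun x =>
    mul_pos (Real.exp_pos _) (prod_pos fun i _ => Real.exp_pos _)
  have hlevel : ∀ (s : ℝ) (y : Fin m → ℝ) (x : Fin n → Bool),
      base x * Real.exp (∑ k, y k * T k x) * Real.exp (s / 2 * ∑ k, T k x ^ 2)
        = Real.exp (-(a * n) / 2 * (1 - s)) *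
          weight (fun i j => s * J i j) (fun i => h i + ∑ k, y k * V k i) x := by
    intro s y x
    have e1 : ∑ k, T k x ^ 2 = a * n + 2 * ∑ i, ∑ j, (if i < j then J i j * spin (x i) * spin (x j) else 0) := by
      simp only [hT]
      rw [sq_sum, spin2, energy_eq]; ring
    have e2 : ∑ k, y k * T k x = ∑ i, (∑ k, y k * V k i) * spin (x i) := by
      simp only [hT, mul_sum, sum_mul]
      rw [sum_comm]
      exact sum_congr rfl fun i _ => sum_congr rfl fun k _ => by ring
    have e3 : ∑ i, ∑ j, (if i < j then s * J i j * spin (x i) * spin (x j) else 0)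
        = s * ∑ i, ∑ j, (if i < j then J i j * spin (x i) * spin (x j) else 0) := by
      simp only [mul_sum, mul_ite, mul_zero, mul_assoc]
    simp only [hbase, weight, ← Real.exp_sum, ← Real.exp_add, e1, e2, e3, add_mul, sum_add_distrib]
    congr 1
    ring
  have hw : weight J h = fun x => base x * Real.exp ((∑ k, T k x ^ 2) / 2) := by
    funext x
    have := hlevel 1 (fun _ => 0) x
    simp only [zero_mul, sum_const_zero, Real.exp_zero, mul_one, sub_self, mul_zero, one_mul,
      add_zero] at this
    rw [← this]; ring_nf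
  rw [hw]
  have hK : 0 ≤ 2 * a / (1 - lam) := div_nonneg (by linarith) (by linarith)
  refine localise base hbpos T _ hK (fun w => locEnt w f) f hf
    (fun v w hv hsum => locEnt_superadd v w f hf hv hsum) (fun c w hc => locEnt_smul w f hc.ne')
    (fun w hw => locEnt_continuousAt f w hw hf) (fun y => ?_) (fun s hs y c => ?_)
  · have e : (fun x => base x * Real.exp (∑ k, y k * T k x)) = fun x : Fin n → Bool =>
        Real.exp (-(a * n) / 2) * ∏ i, Real.exp ((h i + ∑ k, y k * V k i) * spin (x i)) := by
      funext x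
      simp only [hbase, hT, ← Real.exp_sum, ← Real.exp_add, add_mul, sum_add_distrib, mul_sum, sum_mul]
      rw [sum_comm]
      ring_nf
    rw [e, ent_smul _ _ (Real.exp_pos _).ne', locEnt_smul _ _ (Real.exp_pos _).ne']
    exact mul_le_mul_of_nonneg_left (ent_prod_le (fun i b => Real.exp ((h i + ∑ k, y k * V k i) * spin b))
      (fun i b => Real.exp_pos _) f hf) (Real.exp_pos _).le
  · set z : Fin n → ℝ := fun i => ∑ k, c k * V k i with hz
    have eφ : (fun x : Fin n → Bool => ∑ k, c k * T k x) = fun x => ∑ i, z i * spin (x i) := by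
      funext x
      simp only [hT, hz, mul_sum, sum_mul]
      rw [sum_comm]
      exact sum_congr rfl fun i _ => sum_congr rfl fun k _ => by ring
    simp only [hlevel, eφ]
    set J' := fun i j => s * J i j
    set h' := fun i => h i + ∑ k, y k * V k i
    have hg := gap_of_tanh J' h' (hlam s hs) hl (fun x => ∑ i, z i * spin (x i))
    rw [variance_eq_vari] at hg
    have hd := dirichlet_linear_le J' h' z
    have hscale : vari (fun x => Real.exp (-(a * n) / 2 * (1 - s)) * weight J' h' x)
        (fun x => ∑ i, z i * spin (x i)) = vari (weight J' h') (fun x => ∑ i, z i * spin (x i)) := by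
      simp only [vari, mul_assoc, ← mul_sum, mul_div_mul_left _ _ (Real.exp_pos _).ne']
    rw [hscale]
    have hzz : ∑ i, z i ^ 2 ≤ 2 * a * ∑ k, c k ^ 2 := by
      have e : ∑ i, z i ^ 2 = ∑ k, c k * ∑ i, V k i * z i := by
        simp only [sq, hz, mul_sum, sum_mul]
        rw [sum_comm]
        exact sum_congr rfl fun k _ => sum_congr rfl fun i _ => sum_congr rfl fun l _ => by ring
      have cs := sum_mul_sq_le_sq_mul_sq univ c fun k => ∑ i, V k i * z i
      rw [← e, sq_sum z] at cs
      have h1 := (abs_le.1 (hnorm z)).2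
      have hc0 : 0 ≤ ∑ k, c k ^ 2 := sum_nonneg fun k _ => sq_nonneg _
      have hz0 : 0 ≤ ∑ i, z i ^ 2 := sum_nonneg fun i _ => sq_nonneg _
      rcases hz0.eq_or_lt with h0 | h0
      · rw [← h0]; positivity
      · nlinarith [mul_le_mul_of_nonneg_left h1 hc0]
    rw [div_mul_eq_mul_div, le_div_iff₀ (by linarith)]
    linarith

end Vale.Agent.P150
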