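import Vale.Agent.P150.Step

/-! Iterating the channel and passing to the limit. -/

namespace Vale.Agent.P150

open Finset Filter
open scoped Topology

variable {Ω : Type*} [Fintype Ω] {m : ℕ}

/-- Weight of a node after the remaining `j` steps. -/
noncomputable def layer (base : Ω → ℝ) (T : Fin m → Ω → ℝ) (η : ℝ) (j : ℕ) (y : Fin m → ℝ)
    (x : Ω) : ℝ :=
  base x * Real.exp (∑ k, y k * T k x) * (∏ k, Real.cosh (η * T k x)) ^ j

theorem one_add_sq_le_cosh (u : ℝ) : 1 + u ^ 2 / 2 ≤ Real.cosh u := by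
  have h1 : |u / 2| ≤ |Real.sinh (u / 2)| := by
    rcases le_total 0 (u / 2) with h | h
    · rw [abs_of_nonneg h, abs_of_nonneg (Real.sinh_nonneg_iff.2 h)]
      exact Real.self_le_sinh_iff.2 h
    · rw [abs_of_nonpos h, abs_of_nonpos (Real.sinh_nonpos_iff.2 h)]
      have := Real.sinh_le_self_iff.2 h
      linarith
  have h2 : (u / 2) ^ 2 ≤ Real.sinh (u / 2) ^ 2 := sq_le_sq.2 h1
  have h3 := Real.cosh_two_mul (u / 2)
  rw [Real.cosh_sq] at h3
  rw [show 2 * (u / 2) = u by ring] at h3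
  linarith

theorem exp_quartic_le_cosh (u : ℝ) : Real.exp (u ^ 2 / 2 - u ^ 4 / 8) ≤ Real.cosh u := by
  refine le_trans ?_ (one_add_sq_le_cosh u)
  have hz : 0 ≤ u ^ 2 / 2 := by positivity
  rw [← Real.le_log_iff_exp_le (by linarith)]
  refine le_trans ?_ (Real.le_log_one_add_of_nonneg hz)
  rw [le_div_iff₀ (by linarith)]
  nlinarith [pow_nonneg hz 3]

theorem layer_child (base : Ω → ℝ) (T : Fin m → Ω → ℝ) (η : ℝ) (j : ℕ) (y : Fin m → ℝ)
    (σ : Fin m → Bool) (x : Ω) :
    layer base T η (j + 1) y x * lik T η σ x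
      = layer base T η j (fun k => y k + η * spin (σ k)) x := by
  have e : ∏ k, Real.cosh (η * T k x) * (1 + spin (σ k) * Real.tanh (η * T k x))
      = Real.exp (∑ k, η * spin (σ k) * T k x) := by
    rw [Real.exp_sum]
    refine Finset.prod_congr rfl fun k _ => ?_
    rw [Real.tanh_eq_sinh_div_cosh, mul_add, mul_one, ← mul_assoc, mul_comm _ (spin (σ k)),
      mul_assoc, mul_div_cancel₀ _ (Real.cosh_pos _).ne']
    cases σ k
    · simp only [spin, Bool.false_eq_true, if_false]
      rw [show η * -1 * T k x = -(η * T k x) by ring, ← Real.cosh_sub_sinh]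
      ring
    · simp only [spin, if_true]
      rw [show η * 1 * T k x = η * T k x by ring, ← Real.cosh_add_sinh]
      ring
  rw [Finset.prod_mul_distrib] at e
  unfold layer lik
  simp only [add_mul, Finset.sum_add_distrib, Real.exp_add, ← e, pow_succ]
  ring

theorem layer_pos (base : Ω → ℝ) (hb : ∀ x, 0 < base x) (T : Fin m → Ω → ℝ) (η : ℝ) (j : ℕ)
    (y : Fin m → ℝ) (x : Ω) : 0 < layer base T η j y x :=
  mul_pos (mul_pos (hb x) (Real.exp_pos _))
    (pow_pos (Finset.prod_pos fun k _ => Real.cosh_pos _) j)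

/-- Entropy factorisation along the channel. -/
theorem iterate [Nonempty Ω] (base : Ω → ℝ) (hbase : ∀ x, 0 < base x) (T : Fin m → Ω → ℝ)
    (η K : ℝ) (N : ℕ) (Φ : (Ω → ℝ) → ℝ) (f : Ω → ℝ) (hf : ∀ x, 0 ≤ f x) (hK : 0 ≤ K)
    (hsup : ∀ (v : (Fin m → Bool) → Ω → ℝ) (w : Ω → ℝ), (∀ σ x, 0 < v σ x) →
      (∀ x, ∑ σ, v σ x = w x) → ∑ σ, Φ (v σ) ≤ Φ w)
    (hhom : ∀ (c : ℝ) (w : Ω → ℝ), 0 < c → Φ (fun x => c * w x) = c * Φ w)
    (hzero : ∀ y, ent (layer base T η 0 y) f ≤ Φ (layer base T η 0 y))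
    (hlik : ∀ σ x, 0 < lik T η σ x) (hfac : 0 ≤ 1 - η ^ 2 * (8 * K + 2))
    (hstep : ∀ w : Ω → ℝ, (∀ x, 0 < w x) →
      (∀ (c : Fin m → ℝ) (t : ℝ), vari (fun x => w x * Real.exp (t * ∑ k, c k * T k x))
          (fun x => ∑ k, c k * T k x) ≤ K * ∑ k, c k ^ 2) →
      (1 - η ^ 2 * (8 * K + 2)) * ent w f
        ≤ ∑ σ, ent (fun x => (1 / 2 : ℝ) ^ m * (w x * lik T η σ x)) f)
    (hV : ∀ j, j ≤ N → ∀ y (c : Fin m → ℝ), vari (layer base T η j y)
      (fun x => ∑ k, c k * T k x) ≤ K * ∑ k, c k ^ 2) :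
    ∀ j, j ≤ N → ∀ y,
      (1 - η ^ 2 * (8 * K + 2)) ^ j * ent (layer base T η j y) f ≤ Φ (layer base T η j y) := by
  intro j
  induction j with
  | zero => intro _ y; simpa using hzero y
  | succ j ih =>
    intro hj y
    have hp : (0 : ℝ) < (1 / 2) ^ m := by positivity
    have hpos := layer_pos base hbase T η (j + 1) y
    have h1 := hstep _ hpos fun c t => by
      refine le_trans (le_of_eq ?_) (hV (j + 1) hj (fun k => y k + t * c k) c)
      congr 1
      funext x
      simp only [layer, add_mul, Finset.sum_add_distrib, Real.exp_add, Finset.mul_sum, mul_assoc]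
      ring
    rw [pow_succ, mul_assoc]
    refine (mul_le_mul_of_nonneg_left h1 (pow_nonneg hfac j)).trans ?_
    rw [Finset.mul_sum]
    refine le_trans (Finset.sum_le_sum fun σ _ => ?_)
      (hsup (fun σ x => (1 / 2 : ℝ) ^ m * (layer base T η (j + 1) y x * lik T η σ x)) _
        (fun σ x => mul_pos hp (mul_pos (hpos x) (hlik σ x))) fun x => ?_)
    · simp only [layer_child]
      rw [ent_smul _ _ hp.ne', hhom _ _ hp, ← mul_assoc, mul_comm _ ((1 / 2 : ℝ) ^ m), mul_assoc]
      exact mul_le_mul_of_nonneg_left (ih (by omega) _) hp.le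
    · simp only [← Finset.mul_sum, sum_lik]
      rw [mul_comm (layer base T η (j + 1) y x), ← mul_assoc, ← mul_pow]
      norm_num

/-- Stochastic localisation by binary channels, in the limit. -/
theorem localise [Nonempty Ω] (base : Ω → ℝ) (hbase : ∀ x, 0 < base x) (T : Fin m → Ω → ℝ)
    (K : ℝ) (hK : 0 ≤ K) (Φ : (Ω → ℝ) → ℝ) (f : Ω → ℝ) (hf : ∀ x, 0 ≤ f x)
    (hsup : ∀ (v : (Fin m → Bool) → Ω → ℝ) (w : Ω → ℝ), (∀ σ x, 0 < v σ x) →
      (∀ x, ∑ σ, v σ x = w x) → ∑ σ, Φ (v σ) ≤ Φ w)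
    (hhom : ∀ (c : ℝ) (w : Ω → ℝ), 0 < c → Φ (fun x => c * w x) = c * Φ w)
    (hcont : ∀ w : Ω → ℝ, (∀ x, 0 < w x) → ContinuousAt Φ w)
    (hzero : ∀ y : Fin m → ℝ, ent (fun x => base x * Real.exp (∑ k, y k * T k x)) f
      ≤ Φ (fun x => base x * Real.exp (∑ k, y k * T k x)))
    (hV : ∀ s ∈ Set.Icc (0 : ℝ) 1, ∀ y c : Fin m → ℝ,
      vari (fun x => base x * Real.exp (∑ k, y k * T k x) * Real.exp (s / 2 * ∑ k, T k x ^ 2))
        (fun x => ∑ k, c k * T k x) ≤ K * ∑ k, c k ^ 2) :
    Real.exp (-(16 * K + 2)) * ent (fun x => base x * Real.exp ((∑ k, T k x ^ 2) / 2)) f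
      ≤ Φ (fun x => base x * Real.exp ((∑ k, T k x ^ 2) / 2)) := by
  set η : ℕ → ℝ := fun N => 1 / Real.sqrt N with hη
  have hη2 : ∀ N, 0 < N → η N ^ 2 = 1 / N := fun N hN => by
    simp only [hη, div_pow, one_pow, Real.sq_sqrt (Nat.cast_nonneg N)]
  have ht : Tendsto η atTop (𝓝[>] (0 : ℝ)) := by
    refine tendsto_nhdsWithin_iff.2 ⟨?_, ?_⟩
    · simp only [hη, one_div]
      exact tendsto_inv_atTop_zero.comp (Real.tendsto_sqrt_atTop.comp tendsto_natCast_atTop_atTop)
    · filter_upwards [eventually_gt_atTop 0] with N hN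
      simp only [hη, Set.mem_Ioi]; positivity
  set err : Ω → ℝ := fun x => (∑ k, T k x ^ 4) / 8 with herr
  have sandwich : ∀ N : ℕ, 0 < N → ∀ j, j ≤ N → ∀ x,
      Real.exp ((j : ℝ) / N / 2 * (∑ k, T k x ^ 2)) * Real.exp (-(err x / N))
        ≤ (∏ k, Real.cosh (η N * T k x)) ^ j ∧
      (∏ k, Real.cosh (η N * T k x)) ^ j ≤ Real.exp ((j : ℝ) / N / 2 * (∑ k, T k x ^ 2)) := by
    intro N hN j hj x
    have hN' : (0 : ℝ) < N := by exact_mod_cast hN
    have e2 : ∀ k, (η N * T k x) ^ 2 = T k x ^ 2 / N := fun k => by rw [mul_pow, hη2 N hN]; ring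
    have e4 : ∀ k, (η N * T k x) ^ 4 = T k x ^ 4 / (N : ℝ) ^ 2 := fun k => by
      rw [mul_pow, show η N ^ 4 = (η N ^ 2) ^ 2 by ring, hη2 N hN]; ring
    constructor
    · refine le_trans ?_ (pow_le_pow_left₀ (Finset.prod_nonneg fun k _ => (Real.exp_pos _).le)
        (Finset.prod_le_prod (fun k _ => (Real.exp_pos _).le)
          (fun k _ => exp_quartic_le_cosh (η N * T k x))) j)
      rw [← Real.exp_sum, ← Real.exp_nat_mul, ← Real.exp_add, Real.exp_le_exp]
      simp only [e2, e4, Finset.sum_sub_distrib, ← Finset.sum_div, herr]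
      have hj' : (j : ℝ) ≤ N := by exact_mod_cast hj
      have h4 : 0 ≤ ∑ k, T k x ^ 4 := Finset.sum_nonneg fun k _ => by positivity
      have hb : (j : ℝ) * ((∑ k, T k x ^ 4) / (N : ℝ) ^ 2 / 8) ≤ (∑ k, T k x ^ 4) / 8 / N := by
        calc _ ≤ (N : ℝ) * ((∑ k, T k x ^ 4) / (N : ℝ) ^ 2 / 8) :=
              mul_le_mul_of_nonneg_right hj' (by positivity)
          _ = _ := by field_simp
      have : (j : ℝ) * ((∑ k, T k x ^ 2) / N / 2) = (j : ℝ) / N / 2 * ∑ k, T k x ^ 2 := by ring
      linarith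
    · refine (pow_le_pow_left₀ (Finset.prod_nonneg fun k _ => (Real.cosh_pos _).le)
        (Finset.prod_le_prod (fun k _ => (Real.cosh_pos _).le)
          (fun k _ => Real.cosh_le_exp_half_sq (η N * T k x))) j).trans (le_of_eq ?_)
      rw [← Real.exp_sum, ← Real.exp_nat_mul]
      simp only [e2, ← Finset.sum_div]
      congr 1; ring
  have herrlim : ∀ x, Tendsto (fun N : ℕ => Real.exp (-(err x / N))) atTop (𝓝 1) := fun x => by
    simpa [Function.comp_def] using (Real.continuous_exp.tendsto 0).comp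
      (by simpa using (tendsto_const_div_atTop_nhds_zero_nat (err x)).neg)
  have hhalf : ∀ᶠ N : ℕ in atTop, ∀ x, (1 / 2 : ℝ) ≤ Real.exp (-(err x / N)) :=
    eventually_all.2 fun x => (herrlim x).eventually_const_le (by norm_num)
  set target : Ω → ℝ := fun x => base x * Real.exp ((∑ k, T k x ^ 2) / 2) with htarget
  have htpos : ∀ x, 0 < target x := fun x => mul_pos (hbase x) (Real.exp_pos _)
  have hlim : Tendsto (fun N : ℕ => layer base T (η N) N 0) atTop (𝓝 target) := by
    refine tendsto_pi_nhds.2 fun x => ?_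
    have hlo : Tendsto (fun N : ℕ => base x * (Real.exp ((∑ k, T k x ^ 2) / 2) *
        Real.exp (-(err x / N)))) atTop (𝓝 (target x)) := by
      simpa [htarget] using ((herrlim x).const_mul (Real.exp ((∑ k, T k x ^ 2) / 2))).const_mul
        (base x)
    refine tendsto_of_tendsto_of_tendsto_of_le_of_le' hlo tendsto_const_nhds ?_ ?_ <;>
      filter_upwards [eventually_gt_atTop 0] with N hN <;>
      simp only [layer, Pi.zero_apply, zero_mul, Finset.sum_const_zero, Real.exp_zero, mul_one,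
        htarget] <;>
      refine mul_le_mul_of_nonneg_left ?_ (hbase x).le <;>
      have hN' : ((N : ℝ) / N / 2 * ∑ k, T k x ^ 2) = (∑ k, T k x ^ 2) / 2 := by
        rw [div_self (by exact_mod_cast hN.ne' : (N : ℝ) ≠ 0)]; ring
    · rw [← hN']; exact (sandwich N hN N le_rfl x).1
    · rw [← hN']; exact (sandwich N hN N le_rfl x).2
  have hent : ContinuousAt (fun w : Ω → ℝ => ent w f) target := by
    have hne : (∑ x, target x) ≠ 0 :=
      (Finset.sum_pos (fun x _ => htpos x) Finset.univ_nonempty).ne'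
    have e : ∀ᶠ w in 𝓝 target, ∀ x, w x ≠ 0 := eventually_all.2 fun x =>
      (continuous_apply x).continuousAt.eventually_ne (htpos x).ne'
    have hc : ∀ᶠ w in 𝓝 target, ent w f
        = (∑ x, w x * f x * Real.log (f x)) - rel (∑ x, w x * f x) (∑ x, w x) := by
      filter_upwards [e] with w hw
      simp only [ent, rel, mul_div_cancel_left₀ _ (hw _)]
    refine ContinuousAt.congr ?_ (hc.mono fun w hw => hw.symm)
    refine ContinuousAt.sub
      (continuous_finsetSum _ fun x _ => ((continuous_apply x).mul continuous_const).mul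
        continuous_const).continuousAt ?_
    rcases eq_or_ne (∑ x, target x * f x) 0 with h0 | h0
    · have hfz : ∀ x, f x = 0 := fun x => by
        have := (Finset.sum_eq_zero_iff_of_nonneg fun x _ => mul_nonneg (htpos x).le (hf x)).1 h0 x
          (Finset.mem_univ x)
        exact (mul_eq_zero.1 this).resolve_left (htpos x).ne'
      simp only [hfz, mul_zero, Finset.sum_const_zero, rel, zero_mul]
      exact continuousAt_const
    · unfold rel
      have hs : ContinuousAt (fun w : Ω → ℝ => ∑ x, w x * f x) target :=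
        (continuous_finsetSum _ fun x _ => (continuous_apply x).mul continuous_const).continuousAt
      exact ContinuousAt.mul hs (ContinuousAt.log
        (ContinuousAt.div hs (continuous_finsetSum _ fun x _ => continuous_apply x).continuousAt hne)
        (div_ne_zero h0 hne))
  have hpow : Tendsto (fun N : ℕ => (1 - η N ^ 2 * (8 * (2 * K) + 2)) ^ N) atTop
      (𝓝 (Real.exp (-(16 * K + 2)))) := by
    refine (Real.tendsto_one_add_div_pow_exp (-(16 * K + 2))).congr' ?_
    filter_upwards [eventually_gt_atTop 0] with N hN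
    rw [hη2 N hN]; ring_nf
  refine le_of_tendsto_of_tendsto (hpow.mul (hent.tendsto.comp hlim))
    ((hcont target htpos).tendsto.comp hlim) ?_
  have hsmall : ∀ᶠ N : ℕ in atTop, 0 ≤ 1 - η N ^ 2 * (8 * (2 * K) + 2) := by
    have : Tendsto (fun N : ℕ => (8 * (2 * K) + 2) / (N : ℝ)) atTop (𝓝 0) :=
      tendsto_const_div_atTop_nhds_zero_nat _
    filter_upwards [this.eventually_le_const (zero_lt_one' ℝ), eventually_gt_atTop 0] with N h hN
    rw [hη2 N hN, one_div_mul_eq_div]; linarith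
  filter_upwards [ht.eventually (step T), ht.eventually (lik_expand T one_half_pos), hsmall, hhalf,
    eventually_gt_atTop 0] with N hst hlk hfac hh hN
  refine iterate base hbase T (η N) (2 * K) N Φ f hf (by linarith) hsup hhom ?_
    (fun σ x => by linarith [(hlk σ x).2]) hfac (fun w hw hv => hst w f (2 * K) hw hf (by linarith) hv)
    ?_ N le_rfl 0
  · intro y
    have : layer base T (η N) 0 y = fun x => base x * Real.exp (∑ k, y k * T k x) := by
      funext x; simp [layer]
    rw [this]; exact hzero y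
  · intro j hj y c
    set s : ℝ := (j : ℝ) / N
    have hs : s ∈ Set.Icc (0 : ℝ) 1 := ⟨by positivity, div_le_one_of_le₀ (by exact_mod_cast hj)
      (Nat.cast_nonneg N)⟩
    have hv := hV s hs y c
    have hw : ∀ x, 0 < base x * Real.exp (∑ k, y k * T k x) * Real.exp (s / 2 * ∑ k, T k x ^ 2) :=
      fun x => mul_pos (mul_pos (hbase x) (Real.exp_pos _)) (Real.exp_pos _)
    refine (vari_le_of_compare _ (layer base T (η N) j y) _ (c₁ := 1 / 2) (c₂ := 1) one_half_pos hw
      (fun x => ?_) fun x => ?_).trans ?_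
    · unfold layer
      have h := le_trans (mul_le_mul_of_nonneg_left (hh x) (Real.exp_pos _).le)
        (sandwich N hN j hj x).1
      calc _ = base x * Real.exp (∑ k, y k * T k x)
            * (Real.exp (s / 2 * ∑ k, T k x ^ 2) * (1 / 2)) := by ring
        _ ≤ _ := mul_le_mul_of_nonneg_left h (mul_pos (hbase x) (Real.exp_pos _)).le
    · rw [one_mul]
      exact mul_le_mul_of_nonneg_left (sandwich N hN j hj x).2
        (mul_pos (hbase x) (Real.exp_pos _)).le
    · norm_num
      linarith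

end Vale.Agent.P150
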