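import Mathlib
import Vale.Agent.P150.Poly

/-!
The trace of an even power of the Gaussian symmetric matrix is at most `n (4 r) ^ k` in expectation,
for any `r > 1`, as long as the power grows slowly with `n`.
-/

namespace Vale.Agent.P150

open Finset MvPolynomial

variable {n : ℕ}

lemma T_zero : T n 0 = C (n : ℝ) := by
  simp [T, Matrix.trace_one]

/-- The product of the scaled bounds. -/
def Bd (n : ℕ) (a : ℕ → ℝ) (L : List ℕ) : ℝ := (L.map fun l ↦ (n : ℝ) * a l).prod

lemma Bd_cons (a : ℕ → ℝ) (l : ℕ) (L : List ℕ) : Bd n a (l :: L) = n * a l * Bd n a L := by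
  simp [Bd]

lemma Bd_append (a : ℕ → ℝ) (L M : List ℕ) : Bd n a (L ++ M) = Bd n a L * Bd n a M := by
  simp [Bd]

lemma Bd_nonneg {a : ℕ → ℝ} (ha : ∀ l, 0 ≤ a l) (L : List ℕ) : 0 ≤ Bd n a L := by
  induction L with
  | nil => simp [Bd]
  | cons l L ih => rw [Bd_cons]; exact mul_nonneg (mul_nonneg (Nat.cast_nonneg n) (ha l)) ih

lemma Dl_bound (hn : 0 < n) {a : ℕ → ℝ} (ha : ∀ l, 0 ≤ a l) {p s : ℕ} {c : ℝ}
    (hcq : ∀ q, 1 ≤ q → p + 1 + q ≤ s → a (p + (q - 1)) ≤ c * a q)
    (ih : ∀ L : List ℕ, L.sum < s → |E (Phi n L)| ≤ Bd n a L) :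
    ∀ L M : List ℕ, p + 1 + L.sum + M.sum ≤ s →
      |E (Dl n p L * Phi n M)| ≤ 2 * L.sum * c / n * Bd n a (L ++ M) := by
  intro L
  induction L with
  | nil => intro M _; simp [Dl_nil, E]
  | cons q L ihL =>
    intro M hs
    rw [List.sum_cons] at hs
    have e : Dl n p (q :: L) * Phi n M =
        MvPolynomial.C (2 * q / (n : ℝ)) * Phi n ((p + (q - 1)) :: (L ++ M)) + Dl n p L * Phi n (q :: M) := by
      rw [Dl_cons, Phi_cons, Phi_cons, Phi_append]
      ring
    rw [e, E_add, E_C_mul]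
    refine (abs_add_le _ _).trans ?_
    have h2 := ihL (q :: M) (by rw [List.sum_cons]; omega)
    have e2 : Bd n a (L ++ q :: M) = Bd n a (q :: L ++ M) := by
      simp only [List.cons_append, Bd_append, Bd_cons]; ring
    rw [e2] at h2
    have hB := Bd_nonneg (n := n) ha (q :: L ++ M)
    rw [List.sum_cons, Nat.cast_add]
    have h1 : |2 * q / (n : ℝ) * E (Phi n ((p + (q - 1)) :: (L ++ M)))| ≤
        2 * q * c / n * Bd n a (q :: L ++ M) := by
      rw [abs_mul, abs_of_nonneg (by positivity : (0:ℝ) ≤ 2 * q / n)]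
      rcases Nat.eq_zero_or_pos q with hq | hq
      · subst hq; simp
      · have h := ih ((p + (q - 1)) :: (L ++ M)) (by simp [List.sum_append]; omega)
        rw [Bd_cons] at h
        rw [List.cons_append, Bd_cons]
        calc 2 * (q : ℝ) / n * |E (Phi n ((p + (q - 1)) :: (L ++ M)))|
            ≤ 2 * q / n * (n * (c * a q) * Bd n a (L ++ M)) := by
              refine mul_le_mul_of_nonneg_left (h.trans ?_) (by positivity)
              exact mul_le_mul_of_nonneg_right (mul_le_mul_of_nonneg_left (hcq q hq (by omega))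
                (Nat.cast_nonneg n)) (Bd_nonneg ha _)
          _ = _ := by ring
    calc _ ≤ 2 * q * c / n * Bd n a (q :: L ++ M) + 2 * L.sum * c / n * Bd n a (q :: L ++ M) :=
          add_le_add h1 h2
      _ = _ := by ring

/-- A supersolution of the recursion bounds all joint moments. -/
lemma moment_abs (hn : 0 < n) {a : ℕ → ℝ} (ha : ∀ l, 0 ≤ a l) (ha0 : a 0 = 1) {N : ℕ}
    (step : ∀ p, p + 1 ≤ N → ∃ c, 0 ≤ c ∧ (∀ q, 1 ≤ q → p + 1 + q ≤ N → a (p + (q - 1)) ≤ c * a q) ∧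
      ∑ l ∈ range p, a l * a (p - 1 - l) + p / (n : ℝ) * a (p - 1) + 2 * N * c / (n : ℝ) ^ 2 ≤
        a (p + 1)) :
    ∀ L : List ℕ, L.sum ≤ N → |E (Phi n L)| ≤ Bd n a L := by
  suffices ∀ s, ∀ L : List ℕ, L.sum = s → s ≤ N → |E (Phi n L)| ≤ Bd n a L from
    fun L hL ↦ this L.sum L rfl hL
  intro s
  induction s using Nat.strong_induction_on with
  | _ s IH =>
    intro L
    induction L with
    | nil => intro _ _; simp [Phi_nil, E_one, Bd]
    | cons l L ihL =>
      intro hs hsN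
      rw [List.sum_cons] at hs
      rw [Bd_cons, Phi_cons]
      rcases Nat.eq_zero_or_pos l with hl | hl
      · subst hl
        rw [T_zero, E_C_mul, abs_mul, Nat.abs_cast, ha0, mul_one]
        exact mul_le_mul_of_nonneg_left (ihL (by omega) hsN) (Nat.cast_nonneg n)
      · obtain ⟨p, rfl⟩ : ∃ p, l = p + 1 := ⟨l - 1, by omega⟩
        obtain ⟨c, hc, hcq, hineq⟩ := step p (by omega)
        have ih : ∀ L : List ℕ, L.sum < s → |E (Phi n L)| ≤ Bd n a L :=
          fun L hL ↦ IH L.sum hL L rfl (by omega)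
        set B := Bd n a L
        have hB : 0 ≤ B := Bd_nonneg ha L
        have h1 : ∀ i ∈ range p, |E (T n i * T n (p - 1 - i) * Phi n L)| ≤
            n ^ 2 * (a i * a (p - 1 - i)) * B := by
          intro i hi
          have := Finset.mem_range.1 hi
          have h := ih (i :: (p - 1 - i) :: L) (by simp; omega)
          rw [Phi_cons, Phi_cons, Bd_cons, Bd_cons, ← mul_assoc] at h
          exact h.trans_eq (by ring)
        have h2 : |(p : ℝ) * E (T n (p - 1) * Phi n L)| ≤ p * (n * a (p - 1) * B) := by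
          rw [abs_mul, Nat.abs_cast]
          refine mul_le_mul_of_nonneg_left ?_ (Nat.cast_nonneg p)
          have h := ih ((p - 1) :: L) (by simp; omega)
          rwa [Phi_cons, Bd_cons] at h
        have h3 := Dl_bound hn ha (fun q hq h ↦ hcq q hq (h.trans hsN)) ih L [] (by simp; omega)
        rw [Phi_nil, mul_one, List.append_nil] at h3
        have hLN : (L.sum : ℝ) ≤ N := by exact_mod_cast (by omega : L.sum ≤ N)
        have h3' : |E (Dl n p L)| ≤ 2 * N * c / n * B :=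
          h3.trans (mul_le_mul_of_nonneg_right (by gcongr) hB)
        rw [E_succ]
        refine (abs_add_le _ _).trans ((add_le_add ((abs_mul _ _).le.trans
          (mul_le_mul_of_nonneg_left ((abs_add_le _ _).trans (add_le_add
            ((abs_sum_le_sum_abs _ _).trans (sum_le_sum h1)) h2)) (abs_nonneg _))) h3').trans ?_)
        rw [abs_of_nonneg (by positivity : (0:ℝ) ≤ 1 / n), ← sum_mul, ← mul_sum]
        have hn' : (0:ℝ) < n := by exact_mod_cast hn
        calc _ = (∑ i ∈ range p, a i * a (p - 1 - i) + p / (n : ℝ) * a (p - 1) +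
              2 * N * c / (n : ℝ) ^ 2) * (n * B) := by field_simp
          _ ≤ a (p + 1) * (n * B) := mul_le_mul_of_nonneg_right hineq (by positivity)
          _ = _ := by ring

/-! ### The supersolution -/

/-- The exponential majorant. -/
noncomputable def U (r : ℝ) (l : ℕ) : ℝ := (4 * r) ^ (l / 2)

/-- The supersolution. -/
noncomputable def sup' (n : ℕ) (r : ℝ) (l : ℕ) : ℝ :=
  if Even l then (catalan (l / 2) : ℝ) * r ^ (l / 2) else (√(n : ℝ))⁻¹ * U r l

lemma sup_even (r : ℝ) (k : ℕ) : sup' n r (2 * k) = (catalan k : ℝ) * r ^ k := by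
  simp [sup']

lemma sup_odd (r : ℝ) (k : ℕ) : sup' n r (2 * k + 1) = (√(n : ℝ))⁻¹ * (4 * r) ^ k := by
  simp [sup', U, show (2 * k + 1) / 2 = k by omega]

lemma catalan_le (k : ℕ) : (catalan k : ℝ) ≤ 4 ^ k := by
  have h1 : catalan k ≤ k.centralBinom := by
    rw [← succ_mul_catalan_eq_centralBinom]; exact Nat.le_mul_of_pos_left _ k.succ_pos
  exact_mod_cast h1.trans (Nat.centralBinom_le_four_pow k)

lemma four_pow_le_catalan {k N : ℕ} (h : k ≤ N) :
    (4 : ℝ) ^ k ≤ 2 * ((N : ℝ) + 1) ^ 2 * catalan k := by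
  have hN : (k : ℝ) ≤ N := by exact_mod_cast h
  rcases Nat.eq_zero_or_pos k with rfl | hk
  · simp only [pow_zero, catalan_zero, Nat.cast_one, mul_one]
    nlinarith [Nat.cast_nonneg (α := ℝ) N]
  · have h1 := Nat.four_pow_le_two_mul_self_mul_centralBinom k hk
    rw [← succ_mul_catalan_eq_centralBinom] at h1
    have h2 : (4 : ℝ) ^ k ≤ 2 * k * ((k + 1) * catalan k) := by exact_mod_cast h1
    refine h2.trans (le_of_eq_of_le (b := 2 * ((k : ℝ) * (k + 1)) * catalan k) (by ring) ?_)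
    gcongr
    nlinarith [Nat.cast_nonneg (α := ℝ) k]

lemma catalan_partial : ∀ k : ℕ,
    ∑ i ∈ range k, (catalan i : ℝ) / 4 ^ i = 2 - 2 * (k.centralBinom : ℝ) / 4 ^ k := by
  intro k
  induction k with
  | zero => simp
  | succ k ih =>
    have h1 : ((k : ℝ) + 1) * catalan k = k.centralBinom := by
      exact_mod_cast succ_mul_catalan_eq_centralBinom k
    have h2 : ((k : ℝ) + 1) * (k + 1).centralBinom = 2 * (2 * k + 1) * k.centralBinom := by
      exact_mod_cast Nat.succ_mul_centralBinom_succ k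
    rw [sum_range_succ, ih, pow_succ]
    have hk : (0:ℝ) < k + 1 := by positivity
    field_simp
    refine mul_left_cancel₀ hk.ne' ?_
    linear_combination 4 * h1 + 2 * h2

lemma sum_range_two_mul {f : ℕ → ℝ} : ∀ k : ℕ,
    ∑ l ∈ range (2 * k), f l = ∑ i ∈ range k, f (2 * i) + ∑ i ∈ range k, f (2 * i + 1) := by
  intro k
  induction k with
  | zero => simp
  | succ k ih =>
    rw [show 2 * (k + 1) = 2 * k + 1 + 1 by ring, sum_range_succ, sum_range_succ, ih,
      sum_range_succ, sum_range_succ]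
    ring

section Sup

variable {r : ℝ} (hr : 1 ≤ r)
include hr

lemma U_pos (l : ℕ) : 0 < U r l := by unfold U; positivity

lemma U_mono {i j : ℕ} (h : i ≤ j) : U r i ≤ U r j :=
  pow_le_pow_right₀ (by linarith) (Nat.div_le_div_right h)

lemma U_mul (i j : ℕ) : U r i * U r j ≤ U r (i + j) := by
  rw [U, U, U, ← pow_add]
  exact pow_le_pow_right₀ (by linarith) (by omega)

lemma U_add (i j : ℕ) : U r (i + j) ≤ 4 * r * U r i * U r j := by
  rw [U, U, U, mul_assoc, ← pow_add, ← pow_succ']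
  exact pow_le_pow_right₀ (by linarith) (by omega)

lemma sup_nonneg (l : ℕ) : 0 ≤ sup' n r l := by
  unfold sup'
  split_ifs
  · positivity
  · exact mul_nonneg (by positivity) (U_pos hr l).le

lemma sup_le_U (hn : 0 < n) (l : ℕ) : sup' n r l ≤ U r l := by
  unfold sup' U
  split_ifs
  · rw [mul_pow]
    exact mul_le_mul_of_nonneg_right (catalan_le _) (by positivity)
  · refine mul_le_of_le_one_left (U_pos hr l).le ?_
    exact inv_le_one_of_one_le₀ (Real.one_le_sqrt.2 (by exact_mod_cast hn))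

lemma U_le_sup_even {l N : ℕ} (hl : Even l) (h : l ≤ N) :
    U r l ≤ 2 * ((N : ℝ) + 1) ^ 2 * sup' n r l := by
  rw [sup', if_pos hl, U, mul_pow, ← mul_assoc]
  exact mul_le_mul_of_nonneg_right (four_pow_le_catalan (by omega)) (by positivity)

lemma sup_step_zero {N : ℕ} (hn : 0 < n)
    (hsmall : 20 * r * (2 * ((N : ℝ) + 1) ^ 2) ^ 2 * N / n ≤ r - 1) (hp : 0 + 1 ≤ N) :
    ∃ c, 0 ≤ c ∧ (∀ q, 1 ≤ q → (0) + 1 + q ≤ N → sup' n r ((0) + (q - 1)) ≤ c * sup' n r q) ∧
      ∑ l ∈ range (0), sup' n r l * sup' n r ((0) - 1 - l) + ((0 : ℕ) : ℝ) / (n : ℝ) * sup' n r ((0) - 1) +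
        2 * N * c / (n : ℝ) ^ 2 ≤ sup' n r ((0) + 1) := by
  set Q : ℝ := 2 * ((N : ℝ) + 1) ^ 2 with hQ
  set η : ℝ := (√(n : ℝ))⁻¹ with hη
  have hn' : (1:ℝ) ≤ n := by exact_mod_cast hn
  have hs : (1:ℝ) ≤ √(n : ℝ) := Real.one_le_sqrt.2 hn'
  have hη0 : 0 < η := by positivity
  have hη1 : η ≤ 1 := inv_le_one_of_one_le₀ hs
  have hη2 : η * η = 1 / n := by
    rw [hη, ← mul_inv, Real.mul_self_sqrt (by linarith), one_div]
  have hQ1 : 1 ≤ Q := by nlinarith [Nat.cast_nonneg (α := ℝ) N]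
  have hN1 : (1:ℝ) ≤ N := by exact_mod_cast (show 1 ≤ N by omega)
  rw [div_le_iff₀ (by linarith)] at hsmall
  have hbig : 20 * Q ^ 2 * N ≤ n := by
    refine le_of_mul_le_mul_left ?_ (by linarith : (0:ℝ) < r)
    nlinarith
  have hQN : N * Q ≤ Q ^ 2 * N := by nlinarith [mul_nonneg (by linarith : (0:ℝ) ≤ N) (by linarith : (0:ℝ) ≤ Q)]
  -- how shifting compares with the supersolution
  have hodd : ∀ q, ¬ Even q → sup' n r q = η * U r q := fun q hq ↦ if_neg hq
  refine ⟨η * Q + η⁻¹, by positivity, fun q hq hqN ↦ ?_, ?_⟩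
  · rw [zero_add, add_mul]
    rcases Nat.even_or_odd q with he | ho
    · have ho' : ¬ Even (q - 1) := by
        obtain ⟨j, hj⟩ := he
        rw [Nat.not_even_iff_odd]; exact ⟨j - 1, by omega⟩
      rw [hodd _ ho']
      refine le_add_of_le_of_nonneg ?_ (mul_nonneg (by positivity) (sup_nonneg hr q))
      rw [mul_assoc]
      exact mul_le_mul_of_nonneg_left ((U_mono hr (Nat.sub_le q 1)).trans
        (U_le_sup_even hr he (by omega))) hη0.le
    · refine le_add_of_nonneg_of_le (mul_nonneg (by positivity) (sup_nonneg hr q)) ?_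
      rw [hodd q (Nat.not_even_iff_odd.2 ho), ← mul_assoc, inv_mul_cancel₀ hη0.ne', one_mul]
      exact (sup_le_U hr hn _).trans (U_mono hr (Nat.sub_le q 1))
  · have hp' : sup' n r 1 = η := by simp [sup', U, hη]
    simp only [range_zero, sum_empty, Nat.cast_zero, zero_div, zero_mul, zero_add, hp']
    rw [div_le_iff₀ (by positivity)]
    have e : η⁻¹ = η * n := by
      refine inv_eq_of_mul_eq_one_right ?_
      rw [← mul_assoc, hη2, one_div, inv_mul_cancel₀ (by linarith)]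
    rw [e]
    have h1 : 2 * (N : ℝ) * (Q + n) ≤ (n : ℝ) ^ 2 := by
      have h2 : 4 * ((N : ℝ) * Q) ≤ n := by linarith
      have h3 : 4 * (N : ℝ) ≤ n := le_trans (by nlinarith) h2
      nlinarith [mul_le_mul_of_nonneg_right h3 (by linarith : (0:ℝ) ≤ n)]
    nlinarith [mul_le_mul_of_nonneg_left h1 hη0.le]

lemma sup_step_even {N : ℕ} (hn : 0 < n)
    (hsmall : 20 * r * (2 * ((N : ℝ) + 1) ^ 2) ^ 2 * N / n ≤ r - 1) {k : ℕ} (hp : 2 * k + 1 + 1 ≤ N) :
    ∃ c, 0 ≤ c ∧ (∀ q, 1 ≤ q → (2 * k + 1) + 1 + q ≤ N → sup' n r ((2 * k + 1) + (q - 1)) ≤ c * sup' n r q) ∧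
      ∑ l ∈ range (2 * k + 1), sup' n r l * sup' n r ((2 * k + 1) - 1 - l) + ((2 * k + 1 : ℕ) : ℝ) / (n : ℝ) * sup' n r ((2 * k + 1) - 1) +
        2 * N * c / (n : ℝ) ^ 2 ≤ sup' n r ((2 * k + 1) + 1) := by
  set Q : ℝ := 2 * ((N : ℝ) + 1) ^ 2 with hQ
  set η : ℝ := (√(n : ℝ))⁻¹ with hη
  have hn' : (1:ℝ) ≤ n := by exact_mod_cast hn
  have hs : (1:ℝ) ≤ √(n : ℝ) := Real.one_le_sqrt.2 hn'
  have hη0 : 0 < η := by positivity
  have hη1 : η ≤ 1 := inv_le_one_of_one_le₀ hs
  have hη2 : η * η = 1 / n := by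
    rw [hη, ← mul_inv, Real.mul_self_sqrt (by linarith), one_div]
  have hQ1 : 1 ≤ Q := by nlinarith [Nat.cast_nonneg (α := ℝ) N]
  have hN1 : (1:ℝ) ≤ N := by exact_mod_cast (show 1 ≤ N by omega)
  rw [div_le_iff₀ (by linarith)] at hsmall
  have hbig : 20 * Q ^ 2 * N ≤ n := by
    refine le_of_mul_le_mul_left ?_ (by linarith : (0:ℝ) < r)
    nlinarith
  have hQN : N * Q ≤ Q ^ 2 * N := by nlinarith [mul_nonneg (by linarith : (0:ℝ) ≤ N) (by linarith : (0:ℝ) ≤ Q)]
  -- how shifting compares with the supersolution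
  have hodd : ∀ q, ¬ Even q → sup' n r q = η * U r q := fun q hq ↦ if_neg hq
  have hpN : ((2 * k + 1 : ℕ) : ℝ) ≤ N := by exact_mod_cast (show 2 * k + 1 ≤ N by omega)
  have hUm := U_pos hr (2 * k)
  have hUadd : ∀ q, U r (2 * k + q) ≤ 4 * r * U r (2 * k) * U r q := U_add hr _
  have hmq : ∀ q, 1 ≤ q → 2 * k + 1 + (q - 1) = 2 * k + q := fun q _ ↦ by omega
  refine ⟨4 * r * Q * U r (2 * k), by positivity, fun q hq hqN ↦ ?_, ?_⟩
  · rw [hmq q hq]
    rcases Nat.even_or_odd q with he | ho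
    · refine ((sup_le_U hr hn _).trans (hUadd q)).trans ?_
      calc 4 * r * U r (2 * k) * U r q ≤ 4 * r * U r (2 * k) * (Q * sup' n r q) :=
            mul_le_mul_of_nonneg_left (U_le_sup_even hr he (by omega)) (by positivity)
        _ = _ := by ring
    · have ho' : ¬ Even (2 * k + q) := by
        rw [Nat.not_even_iff_odd]; obtain ⟨j, rfl⟩ := ho; exact ⟨k + j, by omega⟩
      rw [hodd _ ho', hodd q (Nat.not_even_iff_odd.2 ho)]
      calc η * U r (2 * k + q) ≤ η * (4 * r * U r (2 * k) * U r q) :=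
            mul_le_mul_of_nonneg_left (hUadd q) hη0.le
        _ = 1 * (4 * r * U r (2 * k) * (η * U r q)) := by ring
        _ ≤ Q * (4 * r * U r (2 * k) * (η * U r q)) :=
            mul_le_mul_of_nonneg_right hQ1 (by have := U_pos hr q; positivity)
        _ = _ := by ring
  · rw [show 2 * k + 1 + 1 = 2 * (k + 1) by ring, sup_even, Nat.add_sub_cancel]
    have hs1 : ∑ l ∈ range (2 * k + 1), sup' n r l * sup' n r (2 * k - l) ≤
        (catalan (k + 1) : ℝ) * r ^ k + N * (η * η) * U r (2 * k) := by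
      rw [sum_range_succ, sum_range_two_mul, add_right_comm]
      refine add_le_add (le_of_eq ?_) ?_
      · rw [catalan_succ', Nat.sum_antidiagonal_eq_sum_range_succ (fun i j ↦ catalan i * catalan j),
          Nat.cast_sum, sum_mul, sum_range_succ]
        congr 1
        · refine sum_congr rfl fun i hi ↦ ?_
          have := Finset.mem_range.1 hi
          rw [show 2 * k - 2 * i = 2 * (k - i) by omega, sup_even, sup_even, Nat.cast_mul]
          rw [show (r:ℝ) ^ k = r ^ i * r ^ (k - i) by rw [← pow_add]; congr 1; omega]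
          ring
        · rw [Nat.sub_self, show (0:ℕ) = 2 * 0 from rfl, sup_even, sup_even, Nat.cast_mul]
          simp
      · calc ∑ i ∈ range k, sup' n r (2 * i + 1) * sup' n r (2 * k - (2 * i + 1))
            ≤ ∑ _i ∈ range k, (η * η) * U r (2 * k) := by
              refine sum_le_sum fun i hi ↦ ?_
              have := Finset.mem_range.1 hi
              rw [hodd _ (Nat.not_even_iff_odd.2 ⟨i, by omega⟩),
                hodd _ (Nat.not_even_iff_odd.2 ⟨k - i - 1, by omega⟩), mul_mul_mul_comm]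
              refine mul_le_mul_of_nonneg_left ((U_mul hr _ _).trans (U_mono hr (by omega))) ?_
              positivity
          _ ≤ _ := by
              rw [sum_const, card_range, nsmul_eq_mul, ← mul_assoc]
              gcongr
              omega
    have hlin : ((2 * k + 1 : ℕ) : ℝ) / n * sup' n r (2 * k) ≤ N / n * U r (2 * k) :=
      mul_le_mul (by gcongr) (sup_le_U hr hn _) (sup_nonneg hr _) (by positivity)
    refine (add_le_add (add_le_add hs1 hlin) le_rfl).trans ?_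
    rw [hη2]
    have hmain : U r (2 * k) ≤ Q * ((catalan (k + 1) : ℝ) * r ^ k) / 4 := by
      rw [U, show 2 * k / 2 = k by omega, mul_pow, le_div_iff₀ (by norm_num : (0:ℝ) < 4)]
      calc 4 ^ k * r ^ k * 4 = 4 ^ (k + 1) * r ^ k := by ring
        _ ≤ (Q * catalan (k + 1)) * r ^ k :=
          mul_le_mul_of_nonneg_right (four_pow_le_catalan (by omega)) (by positivity)
        _ = _ := by ring
    set X := (catalan (k + 1) : ℝ) * r ^ k
    have hX : 0 ≤ X := by positivity
    have herr : (2 + 8 * r * Q / n) * N * Q / (4 * n) ≤ r - 1 := by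
      rw [div_le_iff₀ (by positivity)]
      have h1 : 8 * r * Q / n ≤ 8 * r * Q := div_le_self (by positivity) hn'
      have h2 : (2 + 8 * r * Q / n) * N * Q ≤ (2 + 8 * r * Q) * N * Q := by gcongr
      have h3 : 1 ≤ r * Q := one_le_mul_of_one_le_of_one_le hr hQ1
      have h4 : 2 * (N * Q) ≤ 2 * (r * Q) * (N * Q) := by nlinarith [mul_nonneg (show (0:ℝ) ≤ N by linarith) (show (0:ℝ) ≤ Q by linarith)]
      nlinarith [hsmall]
    calc _ = X + (2 + 8 * r * Q / n) * N / n * U r (2 * k) := by ring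
      _ ≤ X + (2 + 8 * r * Q / n) * N / n * (Q * X / 4) := by gcongr
      _ = X + (2 + 8 * r * Q / n) * N * Q / (4 * n) * X := by ring
      _ ≤ X + (r - 1) * X := by gcongr
      _ = _ := by simp only [X]; ring

lemma sup_step_odd {N : ℕ} (hn : 0 < n)
    (hsmall : 20 * r * (2 * ((N : ℝ) + 1) ^ 2) ^ 2 * N / n ≤ r - 1) {k : ℕ} (hp : 2 * k + 1 + 1 + 1 ≤ N) :
    ∃ c, 0 ≤ c ∧ (∀ q, 1 ≤ q → (2 * k + 1 + 1) + 1 + q ≤ N → sup' n r ((2 * k + 1 + 1) + (q - 1)) ≤ c * sup' n r q) ∧
      ∑ l ∈ range (2 * k + 1 + 1), sup' n r l * sup' n r ((2 * k + 1 + 1) - 1 - l) + ((2 * k + 1 + 1 : ℕ) : ℝ) / (n : ℝ) * sup' n r ((2 * k + 1 + 1) - 1) +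
        2 * N * c / (n : ℝ) ^ 2 ≤ sup' n r ((2 * k + 1 + 1) + 1) := by
  set Q : ℝ := 2 * ((N : ℝ) + 1) ^ 2 with hQ
  set η : ℝ := (√(n : ℝ))⁻¹ with hη
  have hn' : (1:ℝ) ≤ n := by exact_mod_cast hn
  have hs : (1:ℝ) ≤ √(n : ℝ) := Real.one_le_sqrt.2 hn'
  have hη0 : 0 < η := by positivity
  have hη1 : η ≤ 1 := inv_le_one_of_one_le₀ hs
  have hη2 : η * η = 1 / n := by
    rw [hη, ← mul_inv, Real.mul_self_sqrt (by linarith), one_div]
  have hQ1 : 1 ≤ Q := by nlinarith [Nat.cast_nonneg (α := ℝ) N]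
  have hN1 : (1:ℝ) ≤ N := by exact_mod_cast (show 1 ≤ N by omega)
  rw [div_le_iff₀ (by linarith)] at hsmall
  have hbig : 20 * Q ^ 2 * N ≤ n := by
    refine le_of_mul_le_mul_left ?_ (by linarith : (0:ℝ) < r)
    nlinarith
  have hQN : N * Q ≤ Q ^ 2 * N := by nlinarith [mul_nonneg (by linarith : (0:ℝ) ≤ N) (by linarith : (0:ℝ) ≤ Q)]
  -- how shifting compares with the supersolution
  have hodd : ∀ q, ¬ Even q → sup' n r q = η * U r q := fun q hq ↦ if_neg hq
  have hpN : ((2 * k + 1 + 1 : ℕ) : ℝ) ≤ N := by exact_mod_cast (show 2 * k + 1 + 1 ≤ N by omega)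
  have hUm := U_pos hr (2 * k + 1)
  have hUadd : ∀ q, U r (2 * k + 1 + q) ≤ 4 * r * U r (2 * k + 1) * U r q := U_add hr _
  have hmq : ∀ q, 1 ≤ q → 2 * k + 1 + 1 + (q - 1) = 2 * k + 1 + q := fun q _ ↦ by omega
  refine ⟨4 * r * U r (2 * k + 1) * (η * Q + η⁻¹), by positivity, fun q hq hqN ↦ ?_, ?_⟩
  · rw [hmq q hq]
    rcases Nat.even_or_odd q with he | ho
    · have ho' : ¬ Even (2 * k + 1 + q) := by
        rw [Nat.not_even_iff_odd]; obtain ⟨j, rfl⟩ := he; exact ⟨k + j, by omega⟩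
      rw [hodd _ ho', mul_add, add_mul]
      refine le_add_of_le_of_nonneg ?_ (mul_nonneg (by positivity) (sup_nonneg hr q))
      calc η * U r (2 * k + 1 + q) ≤ η * (4 * r * U r (2 * k + 1) * (Q * sup' n r q)) := by
            refine mul_le_mul_of_nonneg_left ((hUadd q).trans ?_) hη0.le
            exact mul_le_mul_of_nonneg_left (U_le_sup_even hr he (by omega)) (by positivity)
        _ = _ := by ring
    · rw [mul_add, add_mul]
      refine le_add_of_nonneg_of_le (mul_nonneg (by positivity) (sup_nonneg hr q)) ?_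
      rw [hodd q (Nat.not_even_iff_odd.2 ho), mul_assoc _ η⁻¹, ← mul_assoc η⁻¹,
        inv_mul_cancel₀ hη0.ne', one_mul]
      exact (sup_le_U hr hn _).trans (hUadd q)
  · rw [show 2 * k + 1 + 1 + 1 = 2 * (k + 1) + 1 by ring, sup_odd, Nat.add_sub_cancel]
    have hs1 : ∑ l ∈ range (2 * k + 1 + 1), sup' n r l * sup' n r (2 * k + 1 - l) ≤
        4 * (η * (4 * r) ^ k) := by
      rw [show 2 * k + 1 + 1 = 2 * (k + 1) by ring, sum_range_two_mul]
      have e1 : ∀ i ∈ range (k + 1), sup' n r (2 * i) * sup' n r (2 * k + 1 - 2 * i) =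
          η * (4 * r) ^ k * ((catalan i : ℝ) / 4 ^ i) := by
        intro i hi
        have := Finset.mem_range.1 hi
        rw [show 2 * k + 1 - 2 * i = 2 * (k - i) + 1 by omega, sup_even, sup_odd,
          show (4 * r) ^ k = (4 * r) ^ i * (4 * r) ^ (k - i) by rw [← pow_add]; congr 1; omega,
          mul_pow 4 r i]
        field_simp
        rw [hη]
        field_simp
      have e2 : ∑ i ∈ range (k + 1), sup' n r (2 * i + 1) * sup' n r (2 * k + 1 - (2 * i + 1)) =
          ∑ i ∈ range (k + 1), sup' n r (2 * i) * sup' n r (2 * k + 1 - 2 * i) := by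
        rw [← sum_range_reflect]
        refine sum_congr rfl fun i hi ↦ ?_
        have := Finset.mem_range.1 hi
        rw [mul_comm]
        congr 2 <;> omega
      rw [e2, ← two_mul, sum_congr rfl e1, ← mul_sum, catalan_partial]
      have : 0 ≤ 2 * ((k + 1).centralBinom : ℝ) / 4 ^ (k + 1) := by positivity
      nlinarith [mul_nonneg hη0.le (pow_nonneg (by linarith : (0:ℝ) ≤ 4 * r) k)]
    have hlin : ((2 * k + 1 + 1 : ℕ) : ℝ) / n * sup' n r (2 * k + 1) ≤
        N / n * (η * (4 * r) ^ k) := by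
      rw [sup_odd]; gcongr
    refine (add_le_add (add_le_add hs1 hlin) le_rfl).trans ?_
    have e : η⁻¹ = η * n := by
      refine inv_eq_of_mul_eq_one_right ?_
      rw [← mul_assoc, hη2, one_div, inv_mul_cancel₀ (by linarith)]
    rw [e, U, show (2 * k + 1) / 2 = k by omega, ← hη]
    set X := η * (4 * r) ^ k
    have hX : 0 ≤ X := by positivity
    have herr : (N : ℝ) / n + 8 * r * N * (Q + n) / n ^ 2 ≤ 4 * (r - 1) := by
      have h1 : Q + n ≤ 2 * Q * n := by
        nlinarith only [hQ1, hn', mul_le_mul hQ1 hn' zero_le_one (by linarith only [hQ1])]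
      have h2 : 8 * r * N * (Q + n) / n ^ 2 ≤ 16 * r * (Q * N) / n := by
        rw [div_le_div_iff₀ (by positivity) (by linarith only [hn'])]
        calc 8 * r * N * (Q + n) * n ≤ 8 * r * N * (2 * Q * n) * n := by gcongr
          _ = _ := by ring
      have h3 : (N : ℝ) / n ≤ r * (Q * N) / n := by
        gcongr
        nlinarith only [mul_le_mul hr hQ1 zero_le_one (by linarith only [hr]), hN1]
      have h4 : 17 * r * (Q * N) / n ≤ r - 1 := by
        rw [div_le_iff₀ (by linarith only [hn'])]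
        nlinarith only [hsmall, hQN, hr, mul_le_mul_of_nonneg_left hQN (by linarith only [hr] : (0:ℝ) ≤ r), mul_nonneg (mul_nonneg (by linarith only [hr] : (0:ℝ) ≤ r) (sq_nonneg Q)) (by linarith only [hN1] : (0:ℝ) ≤ N)]
      have e : 16 * r * (Q * N) / (n : ℝ) + r * (Q * N) / n = 17 * r * (Q * N) / n := by ring
      linarith
    calc _ = 4 * X + ((N : ℝ) / n + 8 * r * N * (Q + n) / n ^ 2) * X := by
          simp only [X]; ring
      _ ≤ 4 * X + 4 * (r - 1) * X := by gcongr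
      _ = _ := by simp only [X]; ring

/-- The supersolution satisfies the recursion with room to spare. -/
lemma sup_step {N : ℕ} (hn : 0 < n)
    (hsmall : 20 * r * (2 * ((N : ℝ) + 1) ^ 2) ^ 2 * N / n ≤ r - 1) {p : ℕ} (hp : p + 1 ≤ N) :
    ∃ c, 0 ≤ c ∧ (∀ q, 1 ≤ q → p + 1 + q ≤ N → sup' n r (p + (q - 1)) ≤ c * sup' n r q) ∧
      ∑ l ∈ range p, sup' n r l * sup' n r (p - 1 - l) + p / (n : ℝ) * sup' n r (p - 1) +
        2 * N * c / (n : ℝ) ^ 2 ≤ sup' n r (p + 1) := by
  rcases Nat.eq_zero_or_pos p with rfl | hp0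
  · exact sup_step_zero hr hn hsmall hp
  obtain ⟨m, rfl⟩ : ∃ m, p = m + 1 := ⟨p - 1, by omega⟩
  rcases Nat.even_or_odd' m with ⟨k, rfl | rfl⟩
  · exact sup_step_even hr hn hsmall hp
  · exact sup_step_odd hr hn hsmall hp

end Sup

/-- The expected trace of a power `2 k`. -/
lemma E_trace_le {r : ℝ} (hr : 1 ≤ r) {k : ℕ} (hn : 0 < n)
    (hsmall : 20 * r * (2 * (((2 * k : ℕ) : ℝ) + 1) ^ 2) ^ 2 * (2 * k : ℕ) / n ≤ r - 1) :
    |E (T n (2 * k))| ≤ n * (4 * r) ^ k := by
  have h := moment_abs hn (sup_nonneg (n := n) hr) (by simp [sup'])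
    (fun p hp ↦ sup_step hr hn hsmall hp) [2 * k] (by simp)
  rw [Phi_cons, Phi_nil, mul_one, Bd_cons, sup_even] at h
  simp only [Bd, List.map_nil, List.prod_nil, mul_one] at h
  refine h.trans ?_
  rw [mul_pow]
  gcongr
  exact catalan_le k

end Vale.Agent.P150
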