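import Mathlib
import Vale.Agent.P150.Gap
import Vale.Agent.P150.Moments

/-!
For the Sherrington–Kirkpatrick couplings the quadratic forms of the coupling matrix and of its
entrywise `tanh` are at most `2 β + ε` with probability tending to one.
-/

namespace Vale.Agent.P150

open Finset MeasureTheory ProbabilityTheory Filter Matrix MvPolynomial
open scoped Topology

variable {n : ℕ}

/-- The quadratic form of a matrix. -/
def qf (M : Matrix (Fin n) (Fin n) ℝ) (v : Fin n → ℝ) : ℝ := ∑ i, ∑ j, M i j * v i * v j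

/-- The Gaussian matrix at the sample `g`. -/
noncomputable def Mg (g : Fin n × Fin n → ℝ) : Matrix (Fin n) (Fin n) ℝ := (W n).map (eval g)

lemma qf_mul_self (A : Matrix (Fin n) (Fin n) ℝ) (hA : A.IsSymm) (v : Fin n → ℝ) :
    qf (A * A) v = ∑ k, (∑ i, A k i * v i) ^ 2 := by
  simp only [qf, Matrix.mul_apply, sum_mul, sq, mul_sum]
  rw [sum_congr rfl fun i _ ↦ sum_comm, sum_comm]
  refine sum_congr rfl fun k _ ↦ ?_
  rw [sum_comm]
  exact sum_congr rfl fun j _ ↦ sum_congr rfl fun i _ ↦ by rw [hA.apply k i]; ring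

lemma qf_sq_le (A : Matrix (Fin n) (Fin n) ℝ) (hA : A.IsSymm) (v : Fin n → ℝ) :
    qf A v ^ 2 ≤ (∑ i, v i ^ 2) * qf (A * A) v := by
  rw [qf_mul_self A hA]
  have e : qf A v = ∑ k, v k * ∑ i, A k i * v i := by
    simp only [qf, mul_sum]
    exact sum_congr rfl fun k _ ↦ sum_congr rfl fun i _ ↦ by ring
  rw [e]
  exact sum_mul_sq_le_sq_mul_sq univ _ _

lemma trace_mul_self (A : Matrix (Fin n) (Fin n) ℝ) (hA : A.IsSymm) :
    Matrix.trace (A * A) = ∑ i, ∑ j, A i j ^ 2 := by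
  simp only [Matrix.trace, Matrix.diag, Matrix.mul_apply, sq]
  exact sum_congr rfl fun i _ ↦ sum_congr rfl fun j _ ↦ by rw [hA.apply i j]

lemma qf_sq_le_trace (A : Matrix (Fin n) (Fin n) ℝ) (hA : A.IsSymm) (v : Fin n → ℝ) :
    qf A v ^ 2 ≤ (∑ i, v i ^ 2) ^ 2 * Matrix.trace (A * A) := by
  rw [trace_mul_self A hA]
  have h := sum_mul_sq_le_sq_mul_sq (univ : Finset (Fin n × Fin n)) (fun z ↦ v z.1 * v z.2)
    (fun z ↦ A z.1 z.2)
  simp only [Fintype.sum_prod_type, mul_pow] at h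
  refine le_of_eq_of_le ?_ (h.trans_eq ?_)
  · simp only [qf]
    congr 1
    exact sum_congr rfl fun i _ ↦ sum_congr rfl fun j _ ↦ by ring
  · simp only [← mul_sum, ← sum_mul, sq (∑ i, v i ^ 2)]

lemma qf_pow_le (M : Matrix (Fin n) (Fin n) ℝ) (hM : M.IsSymm) (v : Fin n → ℝ) (j : ℕ) :
    qf M v ^ (2 * 2 ^ j) ≤ (∑ i, v i ^ 2) ^ (2 * 2 ^ j) * Matrix.trace (M ^ (2 * 2 ^ j)) := by
  set N := ∑ i, v i ^ 2 with hN
  have hN0 : 0 ≤ N := sum_nonneg fun i _ ↦ sq_nonneg _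
  have key : ∀ j, qf M v ^ (2 ^ j) ≤ N ^ (2 ^ j - 1) * |qf (M ^ 2 ^ j) v| := by
    intro j
    induction j with
    | zero => simpa using le_abs_self (qf M v)
    | succ j ih =>
      rcases Nat.eq_zero_or_pos j with rfl | hj
      · simp only [zero_add, pow_one, Nat.add_one_sub_one]
        rw [sq M]
        exact (qf_sq_le M hM v).trans (mul_le_mul_of_nonneg_left (le_abs_self _) hN0)
      · have h0 : 0 ≤ qf M v ^ (2 ^ j) :=
          (Nat.even_pow.2 ⟨even_two, hj.ne'⟩).pow_nonneg _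
        rw [pow_succ 2 j, pow_mul]
        refine (pow_le_pow_left₀ h0 ih 2).trans ?_
        rw [mul_pow, sq_abs, pow_mul M]
        refine (mul_le_mul_of_nonneg_left (qf_sq_le _ (hM.pow _) v) (by positivity)).trans ?_
        rw [← hN, ← mul_assoc, ← pow_mul, ← pow_succ, sq (M ^ 2 ^ j)]
        refine (mul_le_mul_of_nonneg_left (le_abs_self _) (by positivity)).trans (le_of_eq ?_)
        congr 2
        have : 1 ≤ 2 ^ j := Nat.one_le_two_pow
        omega
  have h := key j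
  rcases Nat.eq_zero_or_pos j with rfl | hj
  · simpa [sq, hN] using qf_sq_le_trace M hM v
  · have h0 : 0 ≤ qf M v ^ (2 ^ j) := (Nat.even_pow.2 ⟨even_two, hj.ne'⟩).pow_nonneg _
    rw [mul_comm 2 (2 ^ j), pow_mul, pow_mul N, pow_mul M, sq (M ^ 2 ^ j)]
    refine (pow_le_pow_left₀ h0 h 2).trans ?_
    rw [mul_pow, sq_abs]
    refine (mul_le_mul_of_nonneg_left (qf_sq_le_trace _ (hM.pow _) v) (by positivity)).trans
      (le_of_eq ?_)
    rw [← hN, ← mul_assoc, ← mul_pow, ← pow_succ]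
    congr 3
    exact Nat.sub_add_cancel Nat.one_le_two_pow

lemma Mg_symm (g : Fin n × Fin n → ℝ) : (Mg g).IsSymm := by
  ext i j
  simp only [Mg, Matrix.transpose_apply, Matrix.map_apply, W_symm.apply i j]

lemma trace_Mg_pow (g : Fin n × Fin n → ℝ) (k : ℕ) :
    Matrix.trace (Mg g ^ k) = eval g (T n k) := by
  have e : Mg g ^ k = (W n ^ k).map (eval g) :=
    (map_pow (RingHom.mapMatrix (eval g)) (W n) k).symm
  simp [e, T, Matrix.trace, Matrix.diag]

lemma trace_Mg_nonneg (g : Fin n × Fin n → ℝ) (k : ℕ) : 0 ≤ eval g (T n (2 * k)) := by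
  rw [← trace_Mg_pow, two_mul, pow_add, trace_mul_self _ ((Mg_symm g).pow k)]
  exact sum_nonneg fun i _ ↦ sum_nonneg fun j _ ↦ sq_nonneg _

/-- Powers of two slowly tending to infinity. -/
def kk (n : ℕ) : ℕ := 2 ^ (Nat.log 2 n / 10)

lemma kk_pow_le {n : ℕ} (hn : 0 < n) : kk n ^ 10 ≤ n :=
  calc kk n ^ 10 = 2 ^ (Nat.log 2 n / 10 * 10) := (pow_mul _ _ _).symm
    _ ≤ 2 ^ Nat.log 2 n := Nat.pow_le_pow_right (by norm_num) (Nat.div_mul_le_self _ _)
    _ ≤ n := Nat.pow_log_le_self 2 hn.ne'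

lemma lt_kk_pow (n : ℕ) : n ≤ 2 ^ 10 * kk n ^ 10 := by
  refine (Nat.lt_pow_succ_log_self (by norm_num : 1 < 2) n).le.trans ?_
  rw [kk, ← pow_mul, ← pow_add]
  exact Nat.pow_le_pow_right (by norm_num) (by omega)

lemma tendsto_kk : Tendsto kk atTop atTop := by
  refine tendsto_atTop.2 fun b ↦ eventually_atTop.2 ⟨2 ^ 10 * b ^ 10, fun n hn ↦ ?_⟩
  have h := hn.trans (lt_kk_pow n)
  exact (Nat.pow_le_pow_iff_left (by norm_num : (10 : ℕ) ≠ 0)).1
    (Nat.le_of_mul_le_mul_left h (by norm_num))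

/-- Large traces are unlikely. -/
lemma tendsto_bad_trace {t : ℝ} (ht : 2 < t) :
    Tendsto (fun n ↦ (disorder n).real {g | t ^ (2 * kk n) ≤ eval g (T n (2 * kk n))})
      atTop (𝓝 0) := by
  set r : ℝ := ((t / 2) ^ 2 + 1) / 2 with hr
  have hr1 : 1 < r := by nlinarith
  set θ : ℝ := 4 * r / t ^ 2 with hθ
  have hθ0 : 0 ≤ θ := by positivity
  have hθ1 : θ < 1 := by rw [hθ, div_lt_one (by positivity)]; nlinarith
  have hlim : Tendsto (fun n ↦ (2 : ℝ) ^ 10 * ((kk n : ℝ) ^ 10 * θ ^ kk n)) atTop (𝓝 0) := by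
    simpa using ((tendsto_pow_const_mul_const_pow_of_abs_lt_one 10
      (abs_lt.2 ⟨by linarith, hθ1⟩)).comp tendsto_kk).const_mul ((2 : ℝ) ^ 10)
  refine tendsto_of_tendsto_of_tendsto_of_le_of_le' tendsto_const_nhds hlim
    (.of_forall fun _ ↦ measureReal_nonneg) ?_
  have hev : ∀ᶠ n in atTop, 20 * r * (2 * 3 ^ 2) ^ 2 * 2 ≤ (r - 1) * (kk n : ℝ) ^ 5 := by
    have : Tendsto (fun n ↦ (r - 1) * (kk n : ℝ) ^ 5) atTop atTop :=
      ((tendsto_pow_atTop (by norm_num)).comp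
        (tendsto_natCast_atTop_atTop.comp tendsto_kk)).const_mul_atTop (by linarith)
    exact this.eventually_ge_atTop _
  filter_upwards [hev, eventually_gt_atTop 0] with n hk hn
  set k := kk n
  have hk1 : (1 : ℝ) ≤ k := by exact_mod_cast Nat.one_le_two_pow
  have hn' : (0:ℝ) < n := by exact_mod_cast hn
  have hkn : (k : ℝ) ^ 10 ≤ n := by exact_mod_cast kk_pow_le hn
  have hsmall : 20 * r * (2 * (((2 * k : ℕ) : ℝ) + 1) ^ 2) ^ 2 * (2 * k : ℕ) / n ≤ r - 1 := by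
    rw [div_le_iff₀ hn']
    push_cast
    calc 20 * r * (2 * (2 * (k : ℝ) + 1) ^ 2) ^ 2 * (2 * k)
        ≤ 20 * r * (2 * (3 * (k : ℝ)) ^ 2) ^ 2 * (2 * k) := by gcongr; linarith
      _ = 20 * r * (2 * 3 ^ 2) ^ 2 * 2 * (k : ℝ) ^ 5 := by ring
      _ ≤ (r - 1) * (k : ℝ) ^ 5 * (k : ℝ) ^ 5 := by gcongr
      _ = (r - 1) * (k : ℝ) ^ 10 := by ring
      _ ≤ (r - 1) * n := mul_le_mul_of_nonneg_left hkn (by linarith)
  have hE : E (T n (2 * k)) ≤ n * (4 * r) ^ k := le_of_abs_le (E_trace_le hr1.le hn hsmall)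
  have hM := mul_meas_ge_le_integral_of_nonneg (μ := disorder n)
    (.of_forall fun g ↦ trace_Mg_nonneg g k) (integrable_eval (T n (2 * k))) (t ^ (2 * k))
  have hn2 : (n : ℝ) ≤ 2 ^ 10 * (k : ℝ) ^ 10 := by exact_mod_cast lt_kk_pow n
  have hpos : 0 < t ^ (2 * k) := by positivity
  refine le_of_mul_le_mul_left ((hM.trans hE).trans ?_) hpos
  calc (n : ℝ) * (4 * r) ^ k ≤ 2 ^ 10 * (k : ℝ) ^ 10 * (4 * r) ^ k := by gcongr
    _ = _ := by rw [hθ, div_pow, ← pow_mul]; field_simp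

/-- Large entries are unlikely. -/
lemma tendsto_bad_entry :
    Tendsto (fun n ↦ (disorder n).real {g | ∃ z, (n : ℝ) ^ 3 ≤ g z ^ 24}) atTop (𝓝 0) := by
  refine tendsto_of_tendsto_of_tendsto_of_le_of_le' tendsto_const_nhds
    (tendsto_const_div_atTop_nhds_zero_nat (gm 24)) (.of_forall fun _ ↦ measureReal_nonneg) ?_
  filter_upwards [eventually_gt_atTop 0] with n hn
  have hn' : (0:ℝ) < n := by exact_mod_cast hn
  have h1 : ∀ z : Fin n × Fin n,
      (disorder n).real {g | (n : ℝ) ^ 3 ≤ g z ^ 24} ≤ gm 24 / (n : ℝ) ^ 3 := by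
    intro z
    rw [le_div_iff₀' (by positivity)]
    have e : E (MvPolynomial.X z ^ 24 : MvPolynomial (Fin n × Fin n) ℝ) = gm 24 := by
      rw [X_pow_eq_monomial, E_monomial, one_mul, Finset.prod_eq_single z]
      · simp
      · intro w _ hw
        rw [Finsupp.single_eq_of_ne hw]
        simp [gm]
      · simp
    refine le_trans ?_ e.le
    refine le_trans ?_ (mul_meas_ge_le_integral_of_nonneg
      (.of_forall fun g ↦ ?_) (integrable_eval _) ((n : ℝ) ^ 3))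
    · simp [disorder, gam]
    · simp only [map_pow, eval_X]
      exact Even.pow_nonneg (by decide) _
  have e : {g : Fin n × Fin n → ℝ | ∃ z, (n : ℝ) ^ 3 ≤ g z ^ 24} =
      ⋃ z, {g | (n : ℝ) ^ 3 ≤ g z ^ 24} := by ext; simp
  rw [e]
  refine (measureReal_iUnion_fintype_le _).trans ((sum_le_sum fun z _ ↦ h1 z).trans (le_of_eq ?_))
  rw [sum_const, Finset.card_univ, Fintype.card_prod, Fintype.card_fin, nsmul_eq_mul, Nat.cast_mul]
  field_simp

lemma tanh_le_self {t : ℝ} (ht : 0 ≤ t) : Real.tanh t ≤ t := by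
  have hmono : MonotoneOn (fun s ↦ s * Real.cosh s - Real.sinh s) (Set.Ici 0) := by
    refine monotoneOn_of_deriv_nonneg (convex_Ici 0) (by fun_prop) (by fun_prop) fun s hs ↦ ?_
    rw [interior_Ici] at hs
    have hd : HasDerivAt (fun s ↦ s * Real.cosh s - Real.sinh s) (s * Real.sinh s) s := by
      have := ((hasDerivAt_id' s).fun_mul (Real.hasDerivAt_cosh s)).fun_sub (Real.hasDerivAt_sinh s)
      simpa using this
    rw [hd.deriv]
    exact mul_nonneg (le_of_lt hs) (Real.sinh_nonneg_iff.2 (le_of_lt hs))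
  have h := hmono Set.self_mem_Ici ht ht
  simp only [zero_mul, Real.sinh_zero, sub_zero] at h
  rw [Real.tanh_eq_sinh_div_cosh, div_le_iff₀ (Real.cosh_pos t)]
  linarith

lemma sub_tanh_le {t : ℝ} (ht : 0 ≤ t) : t - Real.tanh t ≤ t ^ 3 := by
  rw [Real.tanh_eq_sinh_div_cosh]
  have h1 : t ≤ Real.sinh t := Real.self_le_sinh_iff.2 ht
  have h2 : t * Real.exp (-(t ^ 2 / 2)) ≤ Real.sinh t / Real.cosh t := by
    rw [le_div_iff₀ (Real.cosh_pos t)]
    calc t * Real.exp (-(t ^ 2 / 2)) * Real.cosh t ≤ t * Real.exp (-(t ^ 2 / 2)) * Real.exp (t ^ 2 / 2) :=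
          mul_le_mul_of_nonneg_left (Real.cosh_le_exp_half_sq t) (by positivity)
      _ = t := by rw [mul_assoc, ← Real.exp_add, neg_add_cancel, Real.exp_zero, mul_one]
      _ ≤ _ := h1
  have h3 := Real.add_one_le_exp (-(t ^ 2 / 2))
  nlinarith [mul_le_mul_of_nonneg_left h3 ht, pow_nonneg ht 3]

lemma abs_tanh_sub (t : ℝ) : |Real.tanh t - t| ≤ |t| ^ 3 := by
  rcases le_total 0 t with h | h
  · rw [abs_of_nonpos (by linarith [tanh_le_self h]), abs_of_nonneg h]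
    linarith [sub_tanh_le h]
  · have h' := neg_nonneg.2 h
    have a := tanh_le_self h'
    have b := sub_tanh_le h'
    rw [Real.tanh_neg] at a b
    rw [abs_of_nonneg (by linarith), abs_of_nonpos h]
    linarith

/-- The deterministic content: bounded Gaussian matrix and bounded entries control both forms. -/
lemma forms_le (hn : 0 < n) {β t η : ℝ} (hb : 0 ≤ β) (hη : 0 ≤ η)
    {g : Fin n × Fin n → ℝ} (hM : ∀ v, |qf (Mg g) v| ≤ t * ∑ i, v i ^ 2)
    (h1 : ∀ z, |g z| / √(n : ℝ) ≤ η) (h3 : ∀ z, |g z| ^ 3 / √(n : ℝ) ≤ η)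
    (v : Fin n → ℝ) :
    |qf (symJ (skJ n β g)) v| ≤ β * (t + 2 * η) * ∑ i, v i ^ 2 ∧
      ∀ s ∈ Set.Icc (0:ℝ) 1, qf (tanhMat fun i j ↦ s * skJ n β g i j) v ≤
        (β * (t + 2 * η) + β ^ 3 * η) * ∑ i, v i ^ 2 := by
  set S := ∑ i, v i ^ 2
  have hS : 0 ≤ S := sum_nonneg fun i _ ↦ sq_nonneg _
  have hsq : (0:ℝ) < √(n : ℝ) := Real.sqrt_pos.2 (by exact_mod_cast hn)
  have hA : ∀ i j, symJ (skJ n β g) i j =
      β * (Mg g i j - if i = j then √2 / √(n : ℝ) * g (i, i) else 0) := by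
    intro i j
    simp only [Mg, W, Matrix.map_apply, Matrix.of_apply, map_mul, eval_C, eval_X, sc, vi, symJ, skJ]
    rcases lt_trichotomy i j with h | h | h
    · simp [h, h.ne, h.le]; ring
    · subst h; simp
    · simp [h, h.ne', h.asymm, not_le.2 h]; ring
  have hq : qf (symJ (skJ n β g)) v =
      β * (qf (Mg g) v - ∑ i, √2 / √(n : ℝ) * g (i, i) * v i ^ 2) := by
    simp only [qf, hA, mul_sub, sub_mul, sum_sub_distrib, mul_sum, ite_mul, mul_ite, zero_mul,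
      mul_zero, sum_ite_eq, mem_univ, if_true]
    congr 1 <;> refine sum_congr rfl fun i _ ↦ ?_
    · exact sum_congr rfl fun j _ ↦ by ring
    · ring
  have hdiag : |∑ i, √2 / √(n : ℝ) * g (i, i) * v i ^ 2| ≤ 2 * η * S := by
    refine (abs_sum_le_sum_abs _ _).trans ?_
    rw [mul_sum]
    refine sum_le_sum fun i _ ↦ ?_
    rw [abs_mul, abs_mul, abs_of_nonneg (sq_nonneg (v i)), abs_of_nonneg (by positivity : 0 ≤ √2 / √(n:ℝ))]
    refine mul_le_mul_of_nonneg_right ?_ (sq_nonneg _)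
    rw [div_mul_eq_mul_div, mul_div_assoc]
    refine mul_le_mul ?_ (h1 (i, i)) (by positivity) (by norm_num)
    rw [Real.sqrt_le_iff]; norm_num
  have hJ : |qf (symJ (skJ n β g)) v| ≤ β * (t + 2 * η) * S := by
    rw [hq, abs_mul, abs_of_nonneg hb, mul_assoc]
    refine mul_le_mul_of_nonneg_left ?_ hb
    refine (abs_sub _ _).trans ?_
    linarith [hM v]
  refine ⟨hJ, fun s hs ↦ ?_⟩
  have hcube : ∀ i j, |symJ (skJ n β g) i j| ^ 3 ≤ β ^ 3 * η / n := by
    intro i j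
    have hk : ∀ z, |β / √(n : ℝ) * g z| ^ 3 ≤ β ^ 3 * η / n := by
      intro z
      rw [abs_mul, abs_div, abs_of_nonneg hb, abs_of_pos hsq]
      calc (β / √(n:ℝ) * |g z|) ^ 3 = β ^ 3 * (|g z| ^ 3 / √(n:ℝ)) / (√(n:ℝ) * √(n:ℝ)) := by ring
        _ ≤ β ^ 3 * η / (√(n:ℝ) * √(n:ℝ)) := by gcongr; exact h3 z
        _ = _ := by rw [Real.mul_self_sqrt (Nat.cast_nonneg n)]
    simp only [symJ, skJ]
    split_ifs
    · exact hk _
    · exact hk _
    · simp; positivity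
  have he : ∀ i j, tanhMat (fun i j ↦ s * skJ n β g i j) i j * v i * v j ≤
      s * (symJ (skJ n β g) i j * v i * v j) + β ^ 3 * η / n * ((v i ^ 2 + v j ^ 2) / 2) := by
    intro i j
    set a := symJ (skJ n β g) i j with ha
    have e : symJ (fun i j ↦ s * skJ n β g i j) i j = s * a := by
      simp only [ha, symJ]; split_ifs <;> simp
    rw [tanhMat_eq, e]
    have h2 : |Real.tanh (s * a) - s * a| ≤ β ^ 3 * η / n := by
      refine (abs_tanh_sub _).trans (le_trans ?_ (hcube i j))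
      rw [abs_mul, abs_of_nonneg hs.1, mul_pow]
      exact mul_le_of_le_one_left (by positivity) (pow_le_one₀ hs.1 hs.2)
    have h4 : |v i * v j| ≤ (v i ^ 2 + v j ^ 2) / 2 := by
      rw [abs_mul, ← sq_abs (v i), ← sq_abs (v j)]
      nlinarith [sq_nonneg (|v i| - |v j|)]
    have h5 := (le_abs_self _).trans ((abs_mul _ _).le.trans
      (mul_le_mul h2 h4 (abs_nonneg _) ((abs_nonneg _).trans h2)))
    linarith
  refine (sum_le_sum fun i _ ↦ sum_le_sum fun j _ ↦ he i j).trans ?_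
  simp only [sum_add_distrib, ← mul_sum]
  have e1 : s * qf (symJ (skJ n β g)) v ≤ β * (t + 2 * η) * S :=
    (mul_le_mul_of_nonneg_left (le_abs_self _) hs.1).trans
      ((mul_le_of_le_one_left (abs_nonneg _) hs.2).trans hJ)
  have e2 : ∑ i : Fin n, ∑ j : Fin n, (v i ^ 2 + v j ^ 2) / 2 = (n : ℝ) * S := by
    simp only [add_div, sum_add_distrib, sum_const, card_univ, Fintype.card_fin, nsmul_eq_mul,
      ← mul_sum, ← sum_div, S]
    ring
  rw [e2]
  have : β ^ 3 * η / n * ((n : ℝ) * S) = β ^ 3 * η * S := by field_simp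
  rw [this]
  unfold qf at e1
  linarith

/-- With high probability both quadratic forms are at most `2 β + ε`. -/
theorem sk_norm {β : ℝ} (hb : 0 ≤ β) {ε : ℝ} (he : 0 < ε) :
    Tendsto (fun n ↦ disorder n {g | ∀ v : Fin n → ℝ,
      |∑ i, ∑ j, symJ (skJ n β g) i j * v i * v j| ≤ (2 * β + ε) * ∑ i, v i ^ 2 ∧
      ∀ s ∈ Set.Icc (0:ℝ) 1, ∑ i, ∑ j, tanhMat (fun i j ↦ s * skJ n β g i j) i j * v i * v j ≤
        (2 * β + ε) * ∑ i, v i ^ 2}) atTop (𝓝 1) := by
  set δ : ℝ := ε / (3 * β + β ^ 3 + 1) with hδ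
  have hden : 0 < 3 * β + β ^ 3 + 1 := by positivity
  have hδ0 : 0 < δ := div_pos he hden
  have hδe : β * (2 + δ + 2 * δ) + β ^ 3 * δ ≤ 2 * β + ε := by
    have : δ * (3 * β + β ^ 3 + 1) = ε := div_mul_cancel₀ _ hden.ne'
    nlinarith
  have hbad : Tendsto (fun n ↦ (disorder n).real
      ({g | (2 + δ) ^ (2 * kk n) ≤ eval g (T n (2 * kk n))} ∪
        {g | ∃ z, (n : ℝ) ^ 3 ≤ g z ^ 24})) atTop (𝓝 0) := by
    refine tendsto_of_tendsto_of_tendsto_of_le_of_le tendsto_const_nhds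
      (g := fun n ↦ (0:ℝ)) (h := fun n ↦
        (disorder n).real {g | (2 + δ) ^ (2 * kk n) ≤ eval g (T n (2 * kk n))} +
          (disorder n).real {g | ∃ z, (n : ℝ) ^ 3 ≤ g z ^ 24})
      ?_ (fun n ↦ measureReal_nonneg) fun n ↦ measureReal_union_le _ _
    simpa using (tendsto_bad_trace (by linarith : 2 < 2 + δ)).add tendsto_bad_entry
  have hb' : Tendsto (fun n ↦ disorder n
      ({g | (2 + δ) ^ (2 * kk n) ≤ eval g (T n (2 * kk n))} ∪
        {g | ∃ z, (n : ℝ) ^ 3 ≤ g z ^ 24})) atTop (𝓝 0) := by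
    have h := (ENNReal.tendsto_ofReal hbad)
    rw [ENNReal.ofReal_zero] at h
    refine h.congr fun n ↦ ?_
    have : IsProbabilityMeasure (disorder n) := by unfold disorder; infer_instance
    exact ofReal_measureReal
  have hlow := ENNReal.Tendsto.sub (tendsto_const_nhds (x := (1 : ENNReal))) hb' (Or.inl ENNReal.one_ne_top)
  rw [tsub_zero] at hlow
  refine tendsto_of_tendsto_of_tendsto_of_le_of_le' hlow tendsto_const_nhds ?_
    (.of_forall fun n ↦ by
      have : IsProbabilityMeasure (disorder n) := by unfold disorder; infer_instance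
      exact prob_le_one)
  have hη : ∀ᶠ n : ℕ in atTop, 1 ≤ δ ^ 24 * (n : ℝ) ∧ 1 ≤ δ ^ 8 * (n : ℝ) :=
    ((tendsto_natCast_atTop_atTop.const_mul_atTop (by positivity)).eventually_ge_atTop 1).and
      ((tendsto_natCast_atTop_atTop.const_mul_atTop (by positivity)).eventually_ge_atTop 1)
  filter_upwards [hη, eventually_gt_atTop 0] with n ⟨hn24, hn8⟩ hn
  have hP : IsProbabilityMeasure (disorder n) := by unfold disorder; infer_instance
  rw [tsub_le_iff_right, ← hP.measure_univ]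
  refine (measure_mono fun g _ ↦ ?_).trans (measure_union_le _ _)
  by_cases hg : g ∈ ({g | (2 + δ) ^ (2 * kk n) ≤ eval g (T n (2 * kk n))} ∪
      {g | ∃ z, (n : ℝ) ^ 3 ≤ g z ^ 24} : Set (Fin n × Fin n → ℝ))
  · exact Or.inr hg
  left
  simp only [Set.mem_union, Set.mem_setOf_eq, not_or, not_le, not_exists] at hg
  obtain ⟨htr, hent⟩ := hg
  have hn' : (1:ℝ) ≤ n := by exact_mod_cast hn
  have hsq : 0 < √(n : ℝ) := Real.sqrt_pos.2 (by linarith)
  have hs2 : √(n : ℝ) ^ 2 = n := Real.sq_sqrt (by linarith)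
  have hM : ∀ v, |qf (Mg g) v| ≤ (2 + δ) * ∑ i, v i ^ 2 := by
    intro v
    refine (pow_le_pow_iff_left₀ (abs_nonneg _) (mul_nonneg (by positivity)
      (sum_nonneg fun i _ ↦ sq_nonneg _)) (by have : 0 < kk n := Nat.two_pow_pos _; omega :
        2 * kk n ≠ 0)).1 ?_
    rw [(even_two_mul _).pow_abs, mul_pow, mul_comm ((2 + δ) ^ (2 * kk n))]
    refine (qf_pow_le _ (Mg_symm g) v _).trans (mul_le_mul_of_nonneg_left ?_ ?_)
    · rw [trace_Mg_pow]; exact htr.le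
    · exact pow_nonneg (sum_nonneg fun i _ ↦ sq_nonneg _) _
  have h1 : ∀ z, |g z| / √(n : ℝ) ≤ δ := by
    intro z
    refine (pow_le_pow_iff_left₀ (by positivity) hδ0.le (by norm_num : (24:ℕ) ≠ 0)).1 ?_
    rw [div_pow, (show Even 24 by decide).pow_abs, show √(n : ℝ) ^ 24 = (√(n : ℝ) ^ 2) ^ 12 by ring,
      hs2, div_le_iff₀ (by positivity)]
    calc g z ^ 24 ≤ (n : ℝ) ^ 3 := (hent z).le
      _ ≤ 1 * (n : ℝ) ^ 11 := by rw [one_mul]; exact pow_le_pow_right₀ hn' (by norm_num)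
      _ ≤ δ ^ 24 * n * (n : ℝ) ^ 11 := by gcongr
      _ = _ := by ring
  have h3 : ∀ z, |g z| ^ 3 / √(n : ℝ) ≤ δ := by
    intro z
    refine (pow_le_pow_iff_left₀ (by positivity) hδ0.le (by norm_num : (8:ℕ) ≠ 0)).1 ?_
    rw [div_pow, ← pow_mul, (show Even (3 * 8) by decide).pow_abs,
      show √(n : ℝ) ^ 8 = (√(n : ℝ) ^ 2) ^ 4 by ring, hs2, div_le_iff₀ (by positivity)]
    calc g z ^ (3 * 8) ≤ 1 * (n : ℝ) ^ 3 := by rw [one_mul]; exact (hent z).le
      _ ≤ δ ^ 8 * n * (n : ℝ) ^ 3 := by gcongr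
      _ = _ := by ring
  intro v
  obtain ⟨f1, f2⟩ := forms_le hn hb hδ0.le hM h1 h3 v
  have hS : 0 ≤ ∑ i, v i ^ 2 := sum_nonneg fun i _ ↦ sq_nonneg _
  refine ⟨f1.trans (mul_le_mul_of_nonneg_right ?_ hS),
    fun s hs ↦ (f2 s hs).trans (mul_le_mul_of_nonneg_right hδe hS)⟩
  nlinarith [mul_nonneg (pow_nonneg hb 3) hδ0.le]

end Vale.Agent.P150
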