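import Vale.Agent.P150.Factor
import Vale.Agent.P150.ChainDefs

/-! From entropy factorisation to mixing in continuous time. -/

namespace Vale.Agent.P150

open Finset
open scoped Matrix.Norms.Operator

variable {n : ℕ} (J : Fin n → Fin n → ℝ) (h : Fin n → ℝ)

theorem weight_pos (x : Fin n → Bool) : 0 < weight J h x := Real.exp_pos _

theorem Z_pos : 0 < ∑ y, weight J h y := sum_pos (fun x _ => weight_pos J h x) univ_nonempty

/-- Matrix multiplication by the generator. -/
theorem generator_mulVec (φ : (Fin n → Bool) → ℝ) (x : Fin n → Bool) :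
    ∑ y, generator J h x y * φ y = ∑ i, (condExp J h i φ x - φ x) := by
  simp only [generator, Matrix.of_apply, sum_mul]
  rw [sum_comm]
  refine sum_congr rfl fun i _ => ?_
  simp only [sub_mul, sum_sub_distrib, condExp, div_mul_eq_mul_div, ← sum_div, add_mul,
    sum_add_distrib, mul_assoc, ite_mul, one_mul, zero_mul, mul_ite, mul_zero, sum_ite_eq,
    mem_univ, if_true]

theorem generator_reversible (x y : Fin n → Bool) :
    weight J h x * generator J h x y = weight J h y * generator J h y x := by
  simp only [generator, Matrix.of_apply, mul_sum]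
  refine sum_congr rfl fun i _ => ?_
  unfold condExp
  by_cases hxy : x = y
  · subst hxy; rfl
  have h' : y ≠ x := Ne.symm hxy
  simp only [if_neg hxy, if_neg h', mul_zero, zero_add, sub_zero]
  by_cases hf : flip x i = y
  · have hf' : flip y i = x := by rw [← hf, flip_flip]
    rw [if_pos hf, if_pos hf', hf, hf', add_comm (weight J h y)]
    ring
  · have hf' : ¬ flip y i = x := fun e => hf (by rw [← e, flip_flip])
    rw [if_neg hf, if_neg hf']; ring

theorem kernel_nonneg {t : ℝ} (ht : 0 ≤ t) (x y : Fin n → Bool) : 0 ≤ kernel J h t x y := by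
  set L := generator J h
  set M : Matrix (Fin n → Bool) (Fin n → Bool) ℝ := t • L + (t * n) • 1 with hM
  have hMnn : ∀ a b, 0 ≤ M a b := by
    intro a b
    simp only [hM, L, Matrix.add_apply, Matrix.smul_apply, smul_eq_mul, generator, Matrix.of_apply,
      sum_sub_distrib, sum_const, card_univ, Fintype.card_fin, nsmul_eq_mul, Matrix.one_apply]
    have hs : 0 ≤ ∑ i, condExp J h i (fun z => if z = b then (1 : ℝ) else 0) a := by
      refine sum_nonneg fun i _ => div_nonneg (add_nonneg ?_ ?_)
        (add_pos (weight_pos J h _) (weight_pos J h _)).le <;>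
        exact mul_nonneg (weight_pos J h _).le (by simp only; split_ifs <;> norm_num)
    have := mul_nonneg ht hs
    linarith
  have hpow : ∀ k : ℕ, ∀ a b, 0 ≤ (M ^ k) a b := by
    intro k
    induction k with
    | zero => intro a b; simp only [pow_zero, Matrix.one_apply]; split_ifs <;> norm_num
    | succ k ih =>
      intro a b
      rw [pow_succ, Matrix.mul_apply]
      exact sum_nonneg fun c _ => mul_nonneg (ih a c) (hMnn c b)
  have hexp : ∀ a b, 0 ≤ NormedSpace.exp M a b := by
    intro a b
    have hs := NormedSpace.exp_series_hasSum_exp' (𝕂 := ℝ) M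
    have hs' := hs.map ((Matrix.entryLinearMap ℝ ℝ a b)) (continuous_id.matrix_elem a b)
    exact hs'.nonneg fun k => by
      simpa using mul_nonneg (inv_nonneg.2 (Nat.cast_nonneg _)) (hpow k a b)
  have e : NormedSpace.exp M = Real.exp (t * n) • kernel J h t := by
    rw [hM, Matrix.exp_add_of_commute _ _ ((Commute.one_right (t • L)).smul_right _),
      ← Algebra.algebraMap_eq_smul_one]
    erw [← NormedSpace.algebraMap_exp_comm (𝕂 := ℝ) (t * n)]
    rw [← Real.exp_eq_exp_ℝ, ← Algebra.commutes, ← Algebra.smul_def]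
    rfl
  have := hexp x y
  rw [e, Matrix.smul_apply, smul_eq_mul] at this
  exact nonneg_of_mul_nonneg_right (by linarith) (Real.exp_pos _)

/-- One edge: entropy is at most the entropy production. -/
theorem ent_edge_le (w w' g g' : ℝ) (hw : 0 < w) (hw' : 0 < w') (hg : 0 < g) (hg' : 0 < g') :
    ent (fun b : Bool => if b then w else w') (fun b => if b then g else g')
      ≤ w * w' / (w + w') * ((g - g') * (Real.log g - Real.log g')) := by
  have hW : 0 < w + w' := add_pos hw hw'
  have hc := strictConcaveOn_log_Ioi.concaveOn.2 (Set.mem_Ioi.2 hg) (Set.mem_Ioi.2 hg')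
    (div_nonneg hw.le hW.le) (div_nonneg hw'.le hW.le) (by rw [← add_div, div_self hW.ne'])
  simp only [smul_eq_mul] at hc
  rw [show w / (w + w') * g + w' / (w + w') * g' = (w * g + w' * g') / (w + w') by ring] at hc
  have hm := mul_le_mul_of_nonneg_left hc (add_pos (mul_pos hw hg) (mul_pos hw' hg')).le
  simp only [ent, rel, Fintype.sum_bool, if_true, Bool.false_eq_true, if_false,
    mul_div_cancel_left₀ _ hw.ne', mul_div_cancel_left₀ _ hw'.ne']
  refine (sub_le_sub_left hm _).trans (le_of_eq ?_)
  field_simp
  ring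

theorem locEnt_le_production (g : (Fin n → Bool) → ℝ) (hg : ∀ x, 0 < g x) :
    locEnt (weight J h) g
      ≤ -∑ x, weight J h x * Real.log (g x) * ∑ i, (condExp J h i g x - g x) := by
  simp only [mul_sum]
  rw [sum_comm, ← sum_neg_distrib]
  unfold locEnt
  refine sum_le_sum fun i _ => ?_
  set F : (Fin n → Bool) → ℝ := fun x => -(weight J h x * Real.log (g x) * (condExp J h i g x - g x))
  have h2 : ∀ x, ent (edge (weight J h) i x) (edge g i x) ≤ F x + F (flip x i) := by
    intro x
    refine (ent_edge_le _ _ _ _ (weight_pos J h x) (weight_pos J h (flip x i)) (hg x)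
      (hg (flip x i))).trans (le_of_eq ?_)
    simp only [F, condExp, flip_flip]
    have := add_pos (weight_pos J h x) (weight_pos J h (flip x i))
    rw [add_comm (weight J h (flip x i)) (weight J h x)]
    field_simp
    ring
  have h3 := sum_le_sum fun x (_ : x ∈ (univ : Finset (Fin n → Bool))) => h2 x
  rw [sum_add_distrib, sum_flip i F] at h3
  rw [← sum_neg_distrib, ← sum_div]
  show _ ≤ ∑ x, F x
  linarith

/-- Distance to the reference law controlled by entropy. -/
theorem abs_dist_sq_le {Ω : Type*} [Fintype Ω] [Nonempty Ω] (w g : Ω → ℝ) (hw : ∀ y, 0 < w y)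
    (hg : ∀ y, 0 ≤ g y) (hS : ∑ y, w y * g y = ∑ y, w y) :
    (∑ y, |w y / (∑ z, w z) * (g y - 1)|) ^ 2 ≤ 2 * 1 * (ent w g / ∑ z, w z) := by
  set Z := ∑ z, w z
  have hZ : 0 < Z := sum_pos (fun y _ => hw y) univ_nonempty
  set φ : Ω → ℝ := fun y => if 1 ≤ g y then 1 else -1
  have hφ2 : ∀ y, φ y ^ 2 = 1 := fun y => by simp only [φ]; split_ifs <;> norm_num
  have tr := transport w g φ hw hg (by rw [hS]; exact hZ) 1 fun r =>
    (vari_le_second _ _).trans (le_of_eq (by
      simp only [hφ2, mul_one]
      exact div_self (sum_pos (fun y _ => mul_pos (hw y) (Real.exp_pos _)) univ_nonempty).ne'))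
  rw [hS] at tr
  have e : (∑ y, w y * g y * φ y) / Z - (∑ y, w y * φ y) / Z = ∑ y, |w y / Z * (g y - 1)| := by
    rw [sum_div, sum_div, ← sum_sub_distrib]
    refine sum_congr rfl fun y _ => ?_
    have := hw y
    rw [abs_mul, abs_of_pos (div_pos this hZ)]
    simp only [φ]
    split_ifs with h1
    · rw [abs_of_nonneg (by linarith : (0 : ℝ) ≤ g y - 1)]; ring
    · rw [abs_of_neg (by linarith : g y - 1 < 0)]; ring
  rw [e] at tr
  exact tr

/-- Exponential entropy decay gives mixing. -/
theorem tv_le_of_factor {c : ℝ}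
    (hfac : ∀ f : (Fin n → Bool) → ℝ, (∀ x, 0 ≤ f x) →
      c * ent (weight J h) f ≤ locEnt (weight J h) f)
    (x : Fin n → Bool) {t : ℝ} (ht : 0 ≤ t) :
    tvGibbs J h t x ^ 2
      ≤ 2 * Real.exp (-c * t) * Real.log (1 + (∑ y, weight J h y) / weight J h x) := by
  set w := weight J h with hwdef
  set Z := ∑ y, w y with hZdef
  have hZ : 0 < Z := Z_pos J h
  have hw : ∀ y, 0 < w y := weight_pos J h
  set g : ℝ → (Fin n → Bool) → ℝ := fun s y => (kernel J h s x y * Z / w y + 1) / 2 with hgdef
  have hg : ∀ s, 0 ≤ s → ∀ y, 0 < g s y := fun s hs y => by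
    have := div_nonneg (mul_nonneg (kernel_nonneg J h hs x y) hZ.le) (hw y).le
    simp only [hgdef]; linarith
  have hone : ∀ y, ∑ i, (condExp J h i (fun _ => (1 : ℝ)) y - 1) = 0 := fun y => by
    refine sum_eq_zero fun i _ => ?_
    unfold condExp
    rw [mul_one, mul_one, div_self (add_pos (weight_pos J h _) (weight_pos J h _)).ne', sub_self]
  have dK : ∀ s y, HasDerivAt (fun r => kernel J h r x y)
      ((kernel J h s * generator J h) x y) s := by
    intro s y
    have hd := hasDerivAt_exp_smul_const (generator J h) s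
    exact (((Matrix.entryLinearMap ℝ ℝ x y).toContinuousLinearMap).hasFDerivAt.comp_hasDerivAt s hd)
  have dg : ∀ s y, HasDerivAt (fun r => g r y) (∑ i, (condExp J h i (g s) y - g s y)) s := by
    intro s y
    refine ((((dK s y).mul_const Z).div_const (w y)).add_const 1 |>.div_const 2).congr_deriv ?_
    rw [← generator_mulVec]
    simp only [hgdef, Matrix.mul_apply, sum_mul, sum_div, mul_add, add_div, sum_add_distrib]
    have : ∑ z, generator J h y z * (1 / 2) = 0 := by
      have := generator_mulVec J h (fun _ => (1 : ℝ)) y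
      simp only [mul_one, hone] at this
      rw [← sum_mul, this, zero_mul]
    rw [this, add_zero]
    refine sum_congr rfl fun z _ => ?_
    have hr := generator_reversible J h z y
    have hy := (hw y).ne'
    have hz := (hw z).ne'
    rw [← hwdef] at hr
    field_simp
    linear_combination (kernel J h s x z) * hr
  have hmass : ∀ φ : (Fin n → Bool) → ℝ, ∑ y, w y * ∑ i, (condExp J h i φ y - φ y) = 0 := by
    intro φ
    simp only [← generator_mulVec, mul_sum]
    rw [sum_comm]
    refine sum_eq_zero fun z _ => ?_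
    calc ∑ y, w y * (generator J h y z * φ z) = (∑ y, w z * generator J h z y * 1) * φ z := by
          rw [sum_mul]
          exact sum_congr rfl fun y _ => by rw [← mul_assoc, generator_reversible J h y z, mul_one]
      _ = 0 := by
          simp only [mul_assoc, ← mul_sum, generator_mulVec, hone, mul_zero, zero_mul]
  set S : ℝ → ℝ := fun s => ∑ y, w y * g s y with hS
  have hSconst : ∀ s, S s = S 0 := fun s => by
    have d : ∀ r, HasDerivAt S 0 r := fun r =>
      (HasDerivAt.fun_sum fun y _ => (dg r y).const_mul (w y)).congr_deriv (hmass (g r))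
    exact is_const_of_deriv_eq_zero (fun r => (d r).differentiableAt) (fun r => (d r).deriv) s 0
  have hS0 : S 0 = Z := by
    simp only [hS, hgdef, kernel, zero_smul, NormedSpace.exp_zero, Matrix.one_apply]
    have e : ∀ y, w y * (((if x = y then (1 : ℝ) else 0) * Z / w y + 1) / 2)
        = (if x = y then Z / 2 else 0) + w y / 2 := fun y => by
      have := (hw y).ne'
      split_ifs <;> field_simp <;> ring
    simp only [e, sum_add_distrib, sum_ite_eq, mem_univ, if_true, ← sum_div, ← hZdef]
    ring
  set En : ℝ → ℝ := fun s => ent w (g s) with hEn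
  have eEn : ∀ s, En s = ∑ y, w y * g s y * Real.log (g s y) := fun s => by
    have hs : ∑ y, w y * g s y = Z := (hSconst s).trans hS0
    simp only [hEn, ent, rel, hs, ← hZdef, div_self hZ.ne', Real.log_one, mul_zero, sub_zero,
      mul_div_cancel_left₀ _ (hw _).ne']
  have dEn : ∀ s, 0 ≤ s → HasDerivAt En
      (∑ y, w y * Real.log (g s y) * ∑ i, (condExp J h i (g s) y - g s y)) s := by
    intro s hs
    rw [funext eEn]
    refine (HasDerivAt.fun_sum fun y _ =>
      ((dg s y).const_mul (w y)).mul ((dg s y).log (hg s hs y).ne')).congr_deriv ?_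
    have := hmass (g s)
    calc _ = ∑ y, (w y * Real.log (g s y) * (∑ i, (condExp J h i (g s) y - g s y))
          + w y * (∑ i, (condExp J h i (g s) y - g s y))) := by
          refine sum_congr rfl fun y _ => ?_
          have := (hg s hs y).ne'
          field_simp
      _ = _ := by rw [sum_add_distrib, this, add_zero]
  have hdecay : En t * Real.exp (c * t) ≤ En 0 := by
    have key : AntitoneOn (fun s => En s * Real.exp (c * s)) (Set.Ici 0) := by
      refine antitoneOn_of_deriv_nonpos (convex_Ici 0) ?_ ?_ ?_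
      · exact fun s hs => ((dEn s hs).continuousAt.mul (by fun_prop)).continuousWithinAt
      · exact fun s hs => ((dEn s (interior_subset hs)).differentiableAt.mul
          (by fun_prop)).differentiableWithinAt
      · intro s hs
        have hs0 : 0 ≤ s := Set.mem_Ici.1 (interior_subset hs)
        have hd : HasDerivAt (fun r => En r * Real.exp (c * r))
            ((∑ y, w y * Real.log (g s y) * ∑ i, (condExp J h i (g s) y - g s y))
              * Real.exp (c * s) + En s * (Real.exp (c * s) * (c * 1))) s :=
          (dEn s hs0).mul (((hasDerivAt_id s).const_mul c).exp)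
        rw [hd.deriv]
        have h1 := (hfac (g s) fun y => (hg s hs0 y).le).trans
          (locEnt_le_production J h (g s) (hg s hs0))
        have he := Real.exp_pos (c * s)
        simp only [id_eq, mul_one]
        have h2 : (∑ y, w y * Real.log (g s y) * ∑ i, (condExp J h i (g s) y - g s y)) + c * En s ≤ 0 := by
          simp only [hEn, hwdef] at h1 ⊢
          linarith
        nlinarith
    simpa using key Set.self_mem_Ici ht ht
  have hEn0 : En 0 ≤ Z * Real.log (1 + Z / w x) := by
    have hlog : ∀ y, Real.log (g 0 y) ≤ Real.log (1 + Z / w x) := by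
      intro y
      refine Real.log_le_log (hg 0 le_rfl y) ?_
      have hp : 0 ≤ Z / w x := div_nonneg hZ.le (hw x).le
      simp only [hgdef, kernel, zero_smul, NormedSpace.exp_zero, Matrix.one_apply]
      split_ifs with hxy
      · rw [← hxy, one_mul]; linarith
      · rw [zero_mul, zero_div]; linarith
    rw [eEn]
    refine (sum_le_sum fun y _ => mul_le_mul_of_nonneg_left (hlog y)
      (mul_pos (hw y) (hg 0 le_rfl y)).le).trans (le_of_eq ?_)
    rw [← sum_mul]
    exact congrArg (· * _) hS0
  have hSt : ∑ y, w y * g t y = Z := (hSconst t).trans hS0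
  have tr := abs_dist_sq_le w (g t) hw (fun y => (hg t ht y).le) hSt
  have eTV : (∑ y, |w y / Z * (g t y - 1)|) = tvGibbs J h t x := by
    rw [tvGibbs, mul_sum]
    refine sum_congr rfl fun y _ => ?_
    have hy := (hw y).ne'
    have e1 : kernel J h t x y - gibbs J h y = 2 * (w y / Z * (g t y - 1)) := by
      simp only [hgdef, gibbs, ← hwdef, ← hZdef]
      field_simp
      ring
    rw [e1, abs_mul 2, abs_two]
    ring
  rw [eTV] at tr
  have hlast : ent w (g t) / Z ≤ Real.exp (-c * t) * Real.log (1 + Z / w x) := by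
    rw [div_le_iff₀ hZ]
    calc ent w (g t) = En t * Real.exp (c * t) * Real.exp (-c * t) := by
          rw [mul_assoc, ← Real.exp_add]; simp [hEn]
      _ ≤ Z * Real.log (1 + Z / w x) * Real.exp (-c * t) :=
          mul_le_mul_of_nonneg_right (hdecay.trans hEn0) (Real.exp_pos _).le
      _ = _ := by ring
  calc tvGibbs J h t x ^ 2 ≤ 2 * 1 * (ent w (g t) / Z) := tr
    _ ≤ 2 * (Real.exp (-c * t) * Real.log (1 + Z / w x)) := by linarith
    _ = _ := by ring

/-- The Gibbs law has no atom smaller than exponential. -/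
theorem log_inv_atom_le {a : ℝ}
    (hnorm : ∀ v : Fin n → ℝ, |∑ i, ∑ j, symJ J i j * v i * v j| ≤ a * ∑ i, v i ^ 2)
    (x : Fin n → Bool) :
    Real.log (1 + (∑ y, weight J 0 y) / weight J 0 x) ≤ (n + 1) + a * n := by
  have hq : ∀ y : Fin n → Bool, weight J 0 y ≤ Real.exp (a * n / 2) ∧ Real.exp (-(a * n / 2)) ≤ weight J 0 y := by
    intro y
    have h1 := hnorm fun i => spin (y i)
    rw [show ∑ i, spin (y i) ^ 2 = (n : ℝ) by simp [sq, spin_mul_self]] at h1
    simp only [weight, Pi.zero_apply, zero_mul, sum_const_zero, add_zero, energy_eq, Real.exp_le_exp]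
    constructor <;> linarith [abs_le.1 h1 |>.1, abs_le.1 h1 |>.2]
  have han : 0 ≤ a * n := by
    have := (hq x).1; have h2 := (hq x).2
    have := Real.exp_le_exp.1 (h2.trans this)
    linarith
  have hsum : ∑ y, weight J 0 y ≤ (2 : ℝ) ^ n * Real.exp (a * n / 2) := by
    refine (sum_le_sum fun y _ => (hq y).1).trans (le_of_eq ?_)
    simp
  have hratio : (∑ y, weight J 0 y) / weight J 0 x ≤ Real.exp ((n : ℝ) + a * n) := by
    rw [div_le_iff₀ (weight_pos J 0 x)]
    refine hsum.trans (le_trans ?_ (mul_le_mul_of_nonneg_left (hq x).2 (Real.exp_pos _).le))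
    rw [← Real.exp_add, show (n : ℝ) + a * n + -(a * n / 2) = n + a * n / 2 by ring, Real.exp_add]
    refine mul_le_mul_of_nonneg_right ?_ (Real.exp_pos _).le
    rw [← mul_one (n : ℝ), Real.exp_nat_mul]
    exact pow_le_pow_left₀ two_pos.le (by linarith [Real.add_one_le_exp (1 : ℝ)]) n
  have hn : (0 : ℝ) ≤ n := Nat.cast_nonneg n
  have h2 : 1 + (∑ y, weight J 0 y) / weight J 0 x ≤ Real.exp ((n + 1) + a * n) := by
    rw [show (n : ℝ) + 1 + a * n = (n + a * n) + 1 by ring, Real.exp_add]
    have h1 := Real.one_le_exp (show 0 ≤ (n : ℝ) + a * n by linarith)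
    have := mul_le_mul_of_nonneg_left (show (2 : ℝ) ≤ Real.exp 1 by linarith [Real.add_one_le_exp (1 : ℝ)])
      (Real.exp_pos ((n : ℝ) + a * n)).le
    linarith
  have hp : 0 < 1 + (∑ y, weight J 0 y) / weight J 0 x :=
    add_pos one_pos (div_pos (Z_pos J 0) (weight_pos J 0 x))
  exact (Real.log_le_iff_le_exp hp).2 h2

end Vale.Agent.P150
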