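import Vale.Agent.P150.Mixing

/-!
A large squared overlap forces slow heat-bath dynamics: linear test functions have large variance
and small Dirichlet form, and variance cannot fall faster than twice the initial Dirichlet form.
-/

namespace Vale.Agent.P150.Slow

open Finset
open scoped Matrix.Norms.Operator

variable {n : ℕ} (J : Fin n → Fin n → ℝ)

/-- The squared overlap of two replicas. -/
noncomputable def ov (x y : Fin n → Bool) : ℝ := ((∑ i, spin (x i) * spin (y i)) / n) ^ 2

/-- Mean squared overlap under two independent copies of the zero-field Gibbs law. -/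
noncomputable def q2 : ℝ := ∑ x, ∑ y, gibbs J 0 x * gibbs J 0 y * ov x y

lemma gibbs_pos (x : Fin n → Bool) : 0 < gibbs J 0 x := div_pos (weight_pos J 0 x) (Z_pos J 0)

lemma gibbs_sum : ∑ x, gibbs J 0 x = 1 := by
  simp only [gibbs, ← sum_div]; exact div_self (Z_pos J 0).ne'

lemma abs_spin_sum_le (x y : Fin n → Bool) : |∑ i, spin (x i) * spin (y i)| ≤ n := by
  refine (abs_sum_le_sum_abs _ _).trans (le_of_eq ?_)
  have h : ∀ i, |spin (x i) * spin (y i)| = 1 := fun i => by
    cases x i <;> cases y i <;> simp [spin]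
  simp [h]

lemma ov_nonneg (x y : Fin n → Bool) : 0 ≤ ov x y := sq_nonneg _

lemma ov_le_one (x y : Fin n → Bool) : ov x y ≤ 1 := by
  unfold ov
  rw [sq_le_one_iff_abs_le_one, abs_div, Nat.abs_cast]
  exact div_le_one_of_le₀ (abs_spin_sum_le x y) (Nat.cast_nonneg n)

lemma q2_nonneg : 0 ≤ q2 J :=
  sum_nonneg fun x _ => sum_nonneg fun y _ =>
    mul_nonneg (mul_nonneg (gibbs_pos J x).le (gibbs_pos J y).le) (ov_nonneg x y)

lemma q2_le_one : q2 J ≤ 1 :=
  calc q2 J ≤ ∑ x, ∑ y, gibbs J 0 x * gibbs J 0 y * 1 :=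
        sum_le_sum fun x _ => sum_le_sum fun y _ =>
          mul_le_mul_of_nonneg_left (ov_le_one x y) (mul_nonneg (gibbs_pos J x).le (gibbs_pos J y).le)
    _ = 1 := by simp only [mul_one, ← mul_sum, gibbs_sum]

/-- The linear test function pointing at `y`. -/
def lin (y x : Fin n → Bool) : ℝ := ∑ i, spin (y i) * spin (x i)

lemma mean_lin (y : Fin n → Bool) : ∑ x, gibbs J 0 x * lin y x = 0 := by
  let e : (Fin n → Bool) ≃ (Fin n → Bool) :=
    ⟨fun x i => !x i, fun x i => !x i, fun x => by simp, fun x => by simp⟩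
  have hw : ∀ x, gibbs J 0 (e x) = gibbs J 0 x := fun x => by
    simp only [gibbs, weight, e, Equiv.coe_fn_mk, spin_not, Pi.zero_apply, zero_mul, mul_neg,
      neg_mul, neg_neg, neg_zero]
  have h := Equiv.sum_comp e (fun x => gibbs J 0 x * lin y x)
  have h2 : ∑ x, gibbs J 0 (e x) * lin y (e x) = -∑ x, gibbs J 0 x * lin y x := by
    rw [← sum_neg_distrib]
    refine sum_congr rfl fun x _ => ?_
    rw [hw]
    simp [e, lin, spin_not]
  linarith

/-- Some linear test function has second moment at least `n² q2`. -/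
lemma exists_lin (hn : 0 < n) :
    ∃ y, (n : ℝ) ^ 2 * q2 J ≤ ∑ x, gibbs J 0 x * lin y x ^ 2 := by
  by_contra hh
  push Not at hh
  have hlt : ∑ y, gibbs J 0 y * (∑ x, gibbs J 0 x * lin y x ^ 2) <
      ∑ y, gibbs J 0 y * ((n : ℝ) ^ 2 * q2 J) :=
    sum_lt_sum_of_nonempty univ_nonempty fun y _ => mul_lt_mul_of_pos_left (hh y) (gibbs_pos J y)
  rw [← sum_mul, gibbs_sum, one_mul] at hlt
  refine hlt.ne ?_
  have hn' : (n : ℝ) ≠ 0 := by exact_mod_cast hn.ne'
  simp only [q2, ov, lin, mul_sum]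
  refine sum_congr rfl fun y _ => sum_congr rfl fun x _ => ?_
  field_simp

lemma dirichlet_lin (y : Fin n → Bool) : dirichlet J 0 (lin y) ≤ n := by
  refine (dirichlet_linear_le J 0 (fun i => spin (y i))).trans (le_of_eq ?_)
  simp [sq, spin_mul_self]

/-- A large overlap makes the gap of order at most one over `n`. -/
theorem gap_le (hn : 0 < n) {γ : ℝ} (hγ : 0 ≤ γ) (hg : GapAtLeast J 0 γ) :
    γ * (n * q2 J) ≤ 1 := by
  obtain ⟨y, hy⟩ := exists_lin J hn
  have hv : variance J 0 (lin y) = ∑ x, gibbs J 0 x * lin y x ^ 2 := by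
    simp [variance, mean, mean_lin]
  have h1 := (hg (lin y)).trans (dirichlet_lin J y)
  rw [hv] at h1
  have h2 := (mul_le_mul_of_nonneg_left hy hγ).trans h1
  have hn' : (0 : ℝ) < n := by exact_mod_cast hn
  refine le_of_mul_le_mul_left (a := (n : ℝ)) ?_ hn'
  linarith

/-- The generator applied to a function. -/
noncomputable def Lap (φ : (Fin n → Bool) → ℝ) (x : Fin n → Bool) : ℝ :=
  ∑ y, generator J 0 x y * φ y

/-- The semigroup applied to a function. -/
noncomputable def sg (f : (Fin n → Bool) → ℝ) (r : ℝ) (x : Fin n → Bool) : ℝ :=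
  ∑ y, kernel J 0 r x y * f y

lemma lap_symm (φ ψ : (Fin n → Bool) → ℝ) :
    ∑ x, gibbs J 0 x * φ x * Lap J ψ x = ∑ x, gibbs J 0 x * ψ x * Lap J φ x := by
  simp only [Lap, mul_sum]
  rw [sum_comm]
  refine sum_congr rfl fun y _ => sum_congr rfl fun x _ => ?_
  simp only [gibbs]
  have := generator_reversible J 0 x y
  linear_combination (φ x * ψ y / ∑ z, weight J 0 z) * this

lemma lap_one (x : Fin n → Bool) : Lap J (fun _ => 1) x = 0 := by
  rw [Lap, generator_mulVec J 0 (fun _ => (1 : ℝ)) x]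
  exact sum_eq_zero fun i _ => by
    rw [condExp, mul_one, mul_one]
    rw [div_self (add_pos (weight_pos J 0 x) (weight_pos J 0 _)).ne', sub_self]

lemma lap_mean (φ : (Fin n → Bool) → ℝ) : ∑ x, gibbs J 0 x * Lap J φ x = 0 := by
  have h := lap_symm J (fun _ => 1) φ
  simpa [lap_one] using h

lemma dirichlet_eq (φ : (Fin n → Bool) → ℝ) :
    dirichlet J 0 φ = -∑ x, gibbs J 0 x * φ x * Lap J φ x := by
  rw [← sum_neg_distrib]
  refine sum_congr rfl fun x _ => ?_
  rw [Lap, generator_mulVec, ← mul_neg, ← sum_neg_distrib]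
  simp

lemma hasDerivAt_sg (f : (Fin n → Bool) → ℝ) (r : ℝ) (x : Fin n → Bool) :
    HasDerivAt (fun s => sg J f s x) (Lap J (sg J f r) x) r := by
  have hd := hasDerivAt_exp_smul_const' (generator J 0) r
  have he : ∀ y, HasDerivAt (fun s => kernel J 0 s x y)
      ((generator J 0 * kernel J 0 r) x y) r := fun y =>
    ((Matrix.entryLinearMap ℝ ℝ x y).toContinuousLinearMap).hasFDerivAt.comp_hasDerivAt r hd
  refine (HasDerivAt.fun_sum fun y _ => (he y).mul_const (f y)).congr_deriv ?_
  simp only [Lap, sg, Matrix.mul_apply, sum_mul, mul_sum]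
  rw [sum_comm]
  exact sum_congr rfl fun _ _ => sum_congr rfl fun _ _ => by ring

lemma sg_zero (f : (Fin n → Bool) → ℝ) : sg J f 0 = f := by
  funext x
  simp [sg, kernel, Matrix.one_apply]

lemma sg_add (f : (Fin n → Bool) → ℝ) (s t : ℝ) : sg J f (s + t) = sg J (sg J f t) s := by
  funext x
  have he : kernel J 0 (s + t) = kernel J 0 s * kernel J 0 t := by
    simp only [kernel, add_smul]
    exact Matrix.exp_add_of_commute _ _ (((Commute.refl _).smul_left s).smul_right t)
  simp only [sg, he, Matrix.mul_apply, sum_mul, mul_sum]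
  rw [sum_comm]
  exact sum_congr rfl fun _ _ => sum_congr rfl fun _ _ => by ring

lemma sg_mean (f : (Fin n → Bool) → ℝ) (r : ℝ) :
    ∑ x, gibbs J 0 x * sg J f r x = ∑ x, gibbs J 0 x * f x := by
  have d : ∀ s, HasDerivAt (fun s => ∑ x, gibbs J 0 x * sg J f s x) 0 s := fun s =>
    (HasDerivAt.fun_sum fun x _ => (hasDerivAt_sg J f s x).const_mul (gibbs J 0 x)).congr_deriv
      (lap_mean J _)
  have h := is_const_of_deriv_eq_zero (fun s => (d s).differentiableAt) (fun s => (d s).deriv) r 0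
  simpa [sg_zero] using h

/-- Variance decays at most at rate twice the initial Dirichlet form. -/
theorem second_moment_ge (f : (Fin n → Bool) → ℝ) {t : ℝ} (ht : 0 ≤ t) :
    ∑ x, gibbs J 0 x * f x ^ 2 - 2 * t * dirichlet J 0 f
      ≤ ∑ x, gibbs J 0 x * sg J f t x ^ 2 := by
  set V : ℝ → ℝ := fun r => ∑ x, gibbs J 0 x * sg J f r x ^ 2 with hV
  set E : ℝ → ℝ := fun r => ∑ x, gibbs J 0 x * sg J f r x * Lap J (sg J f r) x with hE
  have dV : ∀ r, HasDerivAt V (2 * E r) r := fun r => by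
    refine (HasDerivAt.fun_sum fun x _ =>
      ((hasDerivAt_sg J f r x).pow 2).const_mul (gibbs J 0 x)).congr_deriv ?_
    simp only [hE, mul_sum]
    exact sum_congr rfl fun x _ => by norm_num; ring
  have dE : ∀ r, HasDerivAt E (2 * ∑ x, gibbs J 0 x * Lap J (sg J f r) x ^ 2) r := fun r => by
    have dL : ∀ x, HasDerivAt (fun s => Lap J (sg J f s) x)
        (Lap J (Lap J (sg J f r)) x) r := fun x =>
      HasDerivAt.fun_sum fun y _ => (hasDerivAt_sg J f r y).const_mul (generator J 0 x y)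
    refine (HasDerivAt.fun_sum fun x _ =>
      ((hasDerivAt_sg J f r x).const_mul (gibbs J 0 x)).mul (dL x)).congr_deriv ?_
    rw [sum_add_distrib, lap_symm J (sg J f r) (Lap J (sg J f r)), ← sum_add_distrib, mul_sum]
    exact sum_congr rfl fun x _ => by ring
  have hEm : Monotone E := monotone_of_deriv_nonneg (fun r => (dE r).differentiableAt) fun r => by
    rw [(dE r).deriv]
    exact mul_nonneg zero_le_two (sum_nonneg fun x _ => mul_nonneg (gibbs_pos J x).le (sq_nonneg _))
  have dV' : ∀ r, HasDerivAt (fun r => V r - 2 * E 0 * r) (2 * E r - 2 * E 0) r := fun r => by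
    simpa using (dV r).fun_sub ((hasDerivAt_id r).const_mul (2 * E 0))
  have hmono : MonotoneOn (fun r => V r - 2 * E 0 * r) (Set.Ici 0) := by
    refine monotoneOn_of_deriv_nonneg (convex_Ici 0)
      (fun r _ => (dV' r).continuousAt.continuousWithinAt)
      (fun r _ => (dV' r).differentiableAt.differentiableWithinAt) fun r hr => ?_
    rw [(dV' r).deriv]
    have := hEm (Set.mem_Ici.1 (interior_subset hr))
    linarith
  have h := hmono Set.self_mem_Ici ht ht
  have hD : E 0 = -dirichlet J 0 f := by simp [hE, sg_zero, dirichlet_eq]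
  have h0 : V 0 = ∑ x, gibbs J 0 x * f x ^ 2 := by simp [hV, sg_zero]
  simp only [mul_zero, sub_zero, h0, hD] at h
  linarith

lemma abs_sg_le {t : ℝ} (hmix : ∀ x, tvGibbs J 0 t x ≤ 1 / 4) {φ : (Fin n → Bool) → ℝ}
    (hφ : ∑ x, gibbs J 0 x * φ x = 0) {M : ℝ} (hM : 0 ≤ M) (hb : ∀ x, |φ x| ≤ M)
    (x : Fin n → Bool) : |sg J φ t x| ≤ M / 2 := by
  have e : sg J φ t x = ∑ y, (kernel J 0 t x y - gibbs J 0 y) * φ y := by
    simp [sg, sub_mul, sum_sub_distrib, hφ]
  rw [e]
  calc |∑ y, (kernel J 0 t x y - gibbs J 0 y) * φ y|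
      ≤ ∑ y, |kernel J 0 t x y - gibbs J 0 y| * M := by
        refine (abs_sum_le_sum_abs _ _).trans (sum_le_sum fun y _ => ?_)
        rw [abs_mul]
        exact mul_le_mul_of_nonneg_left (hb y) (abs_nonneg _)
    _ ≤ M / 2 := by
        rw [← sum_mul]
        have h := hmix x
        unfold tvGibbs at h
        nlinarith

/-- If the overlap is at least `δ` then no time up to a multiple of `δ n` mixes. -/
theorem not_mixed (hn : 0 < n) {δ : ℝ} (hq : δ ≤ q2 J) {k : ℕ}
    (hk : (1 / 2 : ℝ) ^ k < δ / 2) {t : ℝ} (ht : 0 ≤ t) (htn : 4 * k * t ≤ δ * n) :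
    ∃ x, 1 / 4 < tvGibbs J 0 t x := by
  by_contra hh
  push Not at hh
  obtain ⟨y, hy⟩ := exists_lin J hn
  set f := lin y with hf
  have hiter : ∀ m : ℕ, ∀ x, |sg J f (m * t) x| ≤ n * (1 / 2 : ℝ) ^ m := by
    intro m
    induction m with
    | zero => intro x; simpa [sg_zero, hf, lin] using abs_spin_sum_le y x
    | succ m ih =>
      intro x
      rw [Nat.cast_succ, add_mul, one_mul, add_comm, sg_add]
      refine (abs_sg_le J hh (M := n * (1 / 2 : ℝ) ^ m) ?_ (by positivity) ih x).trans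
        (le_of_eq (by rw [pow_succ]; ring))
      rw [sg_mean, hf, mean_lin]
  have hup : ∑ x, gibbs J 0 x * sg J f (k * t) x ^ 2 ≤ (n : ℝ) ^ 2 * (1 / 2 : ℝ) ^ k := by
    calc _ ≤ ∑ x, gibbs J 0 x * ((n : ℝ) ^ 2 * (1 / 2 : ℝ) ^ k) := by
          refine sum_le_sum fun x _ => mul_le_mul_of_nonneg_left ?_ (gibbs_pos J x).le
          have h1 := pow_le_pow_left₀ (abs_nonneg _) (hiter k x) 2
          rw [sq_abs, mul_pow] at h1
          refine h1.trans (mul_le_mul_of_nonneg_left ?_ (sq_nonneg _))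
          rw [← pow_mul]
          exact pow_le_pow_of_le_one (by norm_num) (by norm_num) (by omega)
      _ = _ := by rw [← sum_mul, gibbs_sum, one_mul]
  have hlow := second_moment_ge J f (t := k * t) (by positivity)
  have hD := mul_le_mul_of_nonneg_left (dirichlet_lin J y) (show 0 ≤ 2 * (k * t) by positivity)
  rw [← hf] at hD
  have hn' : (0 : ℝ) < n := by exact_mod_cast hn
  have h4 := mul_lt_mul_of_pos_left hk (show (0 : ℝ) < (n : ℝ) ^ 2 by positivity)
  have h5 := mul_le_mul_of_nonneg_left hq (sq_nonneg (n : ℝ))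
  have h6 := mul_le_mul_of_nonneg_right htn hn'.le
  nlinarith [hup, hlow, hD, h4, h5, h6, hy]

end Vale.Agent.P150.Slow
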