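import Vale.Agent.P150.SlowIBP

/-! The expected log cosh of a centred Gaussian, to third order in the variance. -/

namespace Vale.Agent.P150.Slow

open MeasureTheory ProbabilityTheory Real Filter

lemma hasDerivAt_tanh' (x : ℝ) : HasDerivAt Real.tanh (1 - Real.tanh x ^ 2) x := by
  have e : Real.tanh = fun y => Real.sinh y / Real.cosh y := funext Real.tanh_eq_sinh_div_cosh
  have hc := (Real.cosh_pos x).ne'
  rw [Real.tanh_eq_sinh_div_cosh, e]
  refine ((Real.hasDerivAt_sinh x).div (Real.hasDerivAt_cosh x) hc).congr_deriv ?_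
  field_simp

lemma mono_aux (f f' : ℝ → ℝ) (hf : ∀ x, HasDerivAt f (f' x) x) (h0 : f 0 = 0)
    (hnn : ∀ x, 0 < x → 0 ≤ f' x) {x : ℝ} (hx : 0 ≤ x) : 0 ≤ f x := by
  have hm : MonotoneOn f (Set.Ici 0) := by
    refine monotoneOn_of_deriv_nonneg (convex_Ici 0)
      (fun r _ => (hf r).continuousAt.continuousWithinAt)
      (fun r _ => (hf r).differentiableAt.differentiableWithinAt) fun r hr => ?_
    rw [interior_Ici] at hr
    rw [(hf r).deriv]; exact hnn r hr
  have := hm Set.self_mem_Ici hx hx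
  rwa [h0] at this

lemma tanh_nonneg' {x : ℝ} (hx : 0 ≤ x) : 0 ≤ Real.tanh x := by
  rw [Real.tanh_eq_sinh_div_cosh]
  exact div_nonneg (Real.sinh_nonneg_iff.2 hx) (Real.cosh_pos x).le

lemma tanh_le_id {x : ℝ} (hx : 0 ≤ x) : Real.tanh x ≤ x := by
  have h := mono_aux (fun y => y - Real.tanh y) (fun y => Real.tanh y ^ 2)
    (fun y => ((hasDerivAt_id y).sub (hasDerivAt_tanh' y)).congr_deriv (by ring)) (by simp)
    (fun y _ => sq_nonneg _) hx
  linarith

lemma id_sub_le_tanh {x : ℝ} (hx : 0 ≤ x) : x - x ^ 3 / 3 ≤ Real.tanh x := by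
  have h := mono_aux (fun y => Real.tanh y - (y - y ^ 3 / 3))
    (fun y => y ^ 2 - Real.tanh y ^ 2)
    (fun y => ((hasDerivAt_tanh' y).sub ((hasDerivAt_id y).sub
      ((hasDerivAt_pow 3 y).div_const 3))).congr_deriv (by norm_num)) (by simp)
    (fun y hy => by nlinarith [tanh_le_id hy.le, tanh_nonneg' hy.le]) hx
  linarith

lemma tanh_le_quintic {x : ℝ} (hx : 0 ≤ x) :
    Real.tanh x ≤ x - x ^ 3 / 3 + 2 * x ^ 5 / 15 := by
  have h := mono_aux (fun y => y - y ^ 3 / 3 + 2 * y ^ 5 / 15 - Real.tanh y)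
    (fun y => Real.tanh y ^ 2 - y ^ 2 + 2 * y ^ 4 / 3)
    (fun y => ((((hasDerivAt_id y).sub ((hasDerivAt_pow 3 y).div_const 3)).add
      (((hasDerivAt_pow 5 y).const_mul 2).div_const 15)).sub (hasDerivAt_tanh' y)).congr_deriv
        (by norm_num; ring)) (by simp)
    (fun y hy => by
      rcases le_or_gt (y ^ 2) 3 with h3 | h3
      · have h1 := id_sub_le_tanh hy.le
        have h2 : 0 ≤ y - y ^ 3 / 3 := by nlinarith [mul_nonneg hy.le (sub_nonneg.2 h3)]
        nlinarith [pow_le_pow_left₀ h2 h1 2, sq_nonneg (y ^ 3)]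
      · nlinarith [sq_nonneg (Real.tanh y)]) hx
  linarith

lemma log_cosh_le (x : ℝ) :
    Real.log (Real.cosh x) ≤ x ^ 2 / 2 - x ^ 4 / 12 + x ^ 6 / 45 := by
  have key : ∀ {y : ℝ}, 0 ≤ y → Real.log (Real.cosh y) ≤ y ^ 2 / 2 - y ^ 4 / 12 + y ^ 6 / 45 := by
    intro y hy
    have h := mono_aux (fun y => y ^ 2 / 2 - y ^ 4 / 12 + y ^ 6 / 45 - Real.log (Real.cosh y))
      (fun y => y - y ^ 3 / 3 + 2 * y ^ 5 / 15 - Real.tanh y)
      (fun y => ((((hasDerivAt_pow 2 y).div_const 2).sub ((hasDerivAt_pow 4 y).div_const 12)).add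
        ((hasDerivAt_pow 6 y).div_const 45)).sub ((Real.hasDerivAt_cosh y).log
          (Real.cosh_pos y).ne') |>.congr_deriv
            (by rw [Real.tanh_eq_sinh_div_cosh]; norm_num; ring)) (by simp)
      (fun y hy => by linarith [tanh_le_quintic hy.le]) hy
    linarith
  have h := key (abs_nonneg x)
  rwa [Real.cosh_abs, sq_abs, Even.pow_abs (by decide : Even 4), Even.pow_abs (by decide : Even 6)]
    at h

lemma integrable_pow_gauss (k : ℕ) : Integrable (fun x : ℝ => x ^ k) (gaussianReal 0 1) := by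
  rcases Nat.eq_zero_or_pos k with rfl | hk
  · simp
  · have h := (memLp_id_gaussianReal (μ := 0) (v := 1) k).integrable_norm_pow hk.ne'
    refine h.mono' (by fun_prop) (ae_of_all _ fun x => ?_)
    simp [norm_pow]

lemma integrable_pow_pdf (k : ℕ) : Integrable fun x : ℝ => x ^ k * gaussianPDFReal 0 1 x := by
  have h := integrable_rpow_mul_exp_neg_mul_sq (b := 1 / 2) (by norm_num) (s := (k : ℝ))
    (by linarith [(Nat.cast_nonneg k : (0 : ℝ) ≤ k)])
  refine (h.const_mul (√(2 * π))⁻¹).congr (ae_of_all _ fun x => ?_)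
  simp [gaussianPDFReal, Real.rpow_natCast]; ring_nf

lemma moment_succ (k : ℕ) :
    ∫ x, x ^ (k + 2) ∂gaussianReal 0 1 = (k + 1) * ∫ x, x ^ k ∂gaussianReal 0 1 := by
  rw [integral_gaussianReal_eq_integral_smul one_ne_zero,
    integral_gaussianReal_eq_integral_smul one_ne_zero]
  simp only [smul_eq_mul]
  have h := integral_mul_deriv_eq_deriv_mul_of_integrable (A := ℝ) (u := fun x => x ^ (k + 1))
    (v := fun x => -gaussianPDFReal 0 1 x) (u' := fun x => ((k : ℝ) + 1) * x ^ k)
    (v' := fun x => x * gaussianPDFReal 0 1 x)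
    (fun x _ => (hasDerivAt_pow (k + 1) x).congr_deriv (by simp))
    (fun x _ => (hasDerivAt_pdf x).neg.congr_deriv (by ring))
    ((integrable_pow_pdf (k + 2)).congr (ae_of_all _ fun x => by simp [pow_succ]; ring))
    (((integrable_pow_pdf k).const_mul (-((k : ℝ) + 1))).congr
      (ae_of_all _ fun x => by simp; ring))
    ((integrable_pow_pdf (k + 1)).neg.congr (ae_of_all _ fun x => by simp))
  calc ∫ x, gaussianPDFReal 0 1 x * x ^ (k + 2)
      = ∫ x, x ^ (k + 1) * (x * gaussianPDFReal 0 1 x) :=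
        integral_congr_ae (ae_of_all _ fun x => by simp [pow_succ]; ring)
    _ = _ := h
    _ = _ := by
        rw [← integral_neg, ← integral_const_mul]
        exact integral_congr_ae (ae_of_all _ fun x => by ring)

/-- The Gaussian average of `log cosh` at standard deviation `a`. -/
theorem integral_log_cosh_le (a : ℝ) :
    Integrable (fun x => Real.log (Real.cosh (a * x))) (gaussianReal 0 1) ∧
    ∫ x, Real.log (Real.cosh (a * x)) ∂gaussianReal 0 1
      ≤ a ^ 2 / 2 - a ^ 4 / 4 + a ^ 6 / 3 := by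
  have i : ∀ k : ℕ, Integrable (fun x : ℝ => x ^ k) (gaussianReal 0 1) := integrable_pow_gauss
  have hc : Continuous fun x => Real.log (Real.cosh (a * x)) :=
    Continuous.log (by fun_prop) fun x => (Real.cosh_pos _).ne'
  have hlc : Integrable (fun x => Real.log (Real.cosh (a * x))) (gaussianReal 0 1) := by
    refine ((i 2).const_mul (a ^ 2 / 2)).mono' hc.aestronglyMeasurable (ae_of_all _ fun x => ?_)
    rw [Real.norm_eq_abs, abs_of_nonneg (Real.log_nonneg (Real.one_le_cosh _))]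
    have h := Real.log_le_log (Real.cosh_pos _) (cosh_le_exp_half_sq (a * x))
    rw [Real.log_exp] at h
    linarith [mul_pow a x 2]
  refine ⟨hlc, ?_⟩
  have hp : ∀ x : ℝ, Real.log (Real.cosh (a * x)) ≤
      a ^ 2 / 2 * x ^ 2 - a ^ 4 / 12 * x ^ 4 + a ^ 6 / 45 * x ^ 6 := fun x =>
    (log_cosh_le (a * x)).trans (le_of_eq (by ring))
  refine (integral_mono hlc ((((i 2).const_mul _).sub ((i 4).const_mul _)).add
    ((i 6).const_mul _)) hp).trans (le_of_eq ?_)
  simp only [Pi.add_apply, Pi.sub_apply]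
  rw [integral_add (((i 2).const_mul _).sub' ((i 4).const_mul _)) ((i 6).const_mul _),
    integral_sub ((i 2).const_mul _) ((i 4).const_mul _)]
  simp only [integral_const_mul]
  have h2 := moment_succ 0
  have h4 := moment_succ 2
  have h6 := moment_succ 4
  simp only [pow_zero, integral_const, probReal_univ, one_smul] at h2
  norm_num at h2 h4 h6
  rw [h6, h4, h2]
  ring

end Vale.Agent.P150.Slow
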