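import Vale.Agent.P150.SlowGauss
import Vale.Agent.P150.SlowCosh

/-! Guerra's replica symmetric bound and the strict annealed gap above the critical temperature. -/

namespace Vale.Agent.P150.Slow

open Finset MeasureTheory ProbabilityTheory Real Filter
open scoped Topology

variable {n : ℕ}

/-- Sherrington–Kirkpatrick couplings as a Gaussian field. -/
noncomputable def cpl (n : ℕ) (β : ℝ) (e : Fin n × Fin n) (x : Fin n → Bool) : ℝ :=
  if e ∈ pairs n then β / √n * X e x else 0

/-- Expected log partition function. -/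
noncomputable def F (n : ℕ) (β : ℝ) : ℝ := ∫ g, lg (cpl n β) g ∂stdPi (Fin n × Fin n)

lemma en_cpl (β : ℝ) (g : Fin n × Fin n → ℝ) (x : Fin n → Bool) :
    en (cpl n β) g x = β / √n * H g x := by
  simp only [en, cpl, mul_ite, mul_zero, sum_ite_mem, univ_inter, H, mul_sum]
  exact sum_congr rfl fun e _ => by ring

/-- The interpolating field: rotation from independent spins to the model. -/
noncomputable def rs (n : ℕ) (β q θ : ℝ) : (Fin n × Fin n) ⊕ Fin n → (Fin n → Bool) → ℝ
  | Sum.inl e, x => Real.sin θ * cpl n β e x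
  | Sum.inr i, x => Real.cos θ * (β * √q * spin (x i))

/-- Its angular derivative. -/
noncomputable def rs' (n : ℕ) (β q θ : ℝ) : (Fin n × Fin n) ⊕ Fin n → (Fin n → Bool) → ℝ
  | Sum.inl e, x => Real.cos θ * cpl n β e x
  | Sum.inr i, x => -Real.sin θ * (β * √q * spin (x i))

lemma hasDeriv_rs (β q θ : ℝ) (k : (Fin n × Fin n) ⊕ Fin n) (x : Fin n → Bool) :
    HasDerivAt (fun s => rs n β q s k x) (rs' n β q θ k x) θ := by
  rcases k with e | i
  · exact (Real.hasDerivAt_sin θ).mul_const _
  · exact (Real.hasDerivAt_cos θ).mul_const _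

lemma hasDeriv_lg_rs (β q θ : ℝ) (g : (Fin n × Fin n) ⊕ Fin n → ℝ) :
    HasDerivAt (fun s => lg (rs n β q s) g) (av (rs n β q θ) g (en (rs' n β q θ) g)) θ := by
  have dE : ∀ x, HasDerivAt (fun s => en (rs n β q s) g x) (en (rs' n β q θ) g x) θ := fun x =>
    HasDerivAt.fun_sum fun k _ => (hasDeriv_rs β q θ k x).const_mul (g k)
  refine ((HasDerivAt.fun_sum fun x _ => (dE x).exp).log (part_pos _ g).ne').congr_deriv ?_
  rfl

lemma av_en {ι Ω : Type*} [Fintype ι] [Fintype Ω] (a b : ι → Ω → ℝ) (g : ι → ℝ) :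
    av a g (en b g) = ∑ k, g k * av a g (b k) := by
  simp only [av, en, mul_div_assoc', ← sum_div, mul_sum]
  rw [sum_comm]
  exact congrArg (· / _) (sum_congr rfl fun k _ => sum_congr rfl fun x _ => by ring)

lemma abs_rs' (β q θ : ℝ) (k : (Fin n × Fin n) ⊕ Fin n) (x : Fin n → Bool) :
    |rs' n β q θ k x| ≤ |rs' n β q 0 k x| + |rs' n β q (π / 2) k x| := by
  rcases k with e | i
  · simp only [rs', Real.cos_zero, one_mul, abs_mul]
    exact le_add_of_le_of_nonneg (mul_le_of_le_one_left (abs_nonneg _) (Real.abs_cos_le_one θ))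
      (by positivity)
  · simp only [rs', Real.sin_pi_div_two, neg_mul, one_mul, abs_neg]
    refine le_add_of_nonneg_of_le (abs_nonneg _) ?_
    rw [abs_mul]
    exact mul_le_of_le_one_left (abs_nonneg _) (Real.abs_sin_le_one θ)

lemma rs_cov (β : ℝ) {q : ℝ} (hq : 0 ≤ q) (θ : ℝ) (g : (Fin n × Fin n) ⊕ Fin n → ℝ) (hn : 0 < n)
    (hsc : 0 ≤ Real.sin θ * Real.cos θ) :
    ∑ k, (av (rs n β q θ) g (fun x => rs' n β q θ k x * rs n β q θ k x) -
        av (rs n β q θ) g (rs' n β q θ k) * av (rs n β q θ) g (rs n β q θ k))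
      ≤ Real.sin θ * Real.cos θ * (β ^ 2 * n / 2 * (1 - q) ^ 2) := by
  set a := rs n β q θ with ha
  set p : (Fin n → Bool) → ℝ := fun x => Real.exp (en a g x) / ∑ y, Real.exp (en a g y)
  have hp0 : ∀ x, 0 ≤ p x := fun x => (div_pos (Real.exp_pos _) (part_pos a g)).le
  have hp1 : ∑ x, p x = 1 := by simp only [p, ← sum_div]; exact div_self (part_pos a g).ne'
  have hav : ∀ f, av a g f = ∑ x, p x * f x := fun f => by
    simp only [av, p, div_mul_eq_mul_div, ← sum_div]
  set sc := Real.sin θ * Real.cos θ with hsc'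
  have hn' : (n : ℝ) ≠ 0 := by exact_mod_cast hn.ne'
  have hs : (√(n : ℝ)) ^ 2 = n := Real.sq_sqrt (Nat.cast_nonneg n)
  have hq2 : (√q) ^ 2 = q := Real.sq_sqrt hq
  -- one term
  have hX : ∀ (e : Fin n × Fin n) x, X e x * X e x = 1 := fun e x => by
    rw [← abs_mul_abs_self, abs_X, one_mul]
  have term : ∀ k, av a g (fun x => rs' n β q θ k x * a k x) - av a g (rs' n β q θ k) * av a g (a k) =
      ∑ x, ∑ y, p x * p y * (rs' n β q θ k x * a k x - rs' n β q θ k x * a k y) := by
    intro k
    simp only [hav, mul_sub, sum_sub_distrib, sum_mul_sum]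
    congr 1
    · refine sum_congr rfl fun x _ => ?_
      rw [← sum_mul, ← mul_sum, hp1, mul_one]
    · exact sum_congr rfl fun x _ => sum_congr rfl fun y _ => by ring
  simp only [term]
  rw [sum_comm]
  have inner : ∀ x y, ∑ k, p x * p y * (rs' n β q θ k x * a k x - rs' n β q θ k x * a k y) =
      p x * p y * (sc * (β ^ 2 / (2 * n) * ((n : ℝ) ^ 2 * (1 - q) ^ 2 -
        ((∑ i, spin (x i) * spin (y i)) - q * n) ^ 2))) := by
    intro x y
    rw [← mul_sum, Fintype.sum_sum_type]
    congr 1
    simp only [ha, rs, rs', cpl]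
    set S := ∑ i, spin (x i) * spin (y i) with hS
    have h1 : ∀ e, Real.cos θ * (if e ∈ pairs n then β / √n * X e x else 0) *
          (Real.sin θ * (if e ∈ pairs n then β / √n * X e x else 0)) -
        Real.cos θ * (if e ∈ pairs n then β / √n * X e x else 0) *
          (Real.sin θ * (if e ∈ pairs n then β / √n * X e y else 0)) =
        if e ∈ pairs n then sc * (β ^ 2 / n) * (1 - spin (x e.1) * spin (y e.1) *
          (spin (x e.2) * spin (y e.2))) else 0 := by
      intro e
      split_ifs
      · have h := hX e x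
        simp only [X] at h ⊢
        rw [hsc']
        field_simp
        rw [hs]
        linear_combination (β ^ 2 * n * Real.cos θ * Real.sin θ) * h
      · ring
    have h2 : ∀ i, -Real.sin θ * (β * √q * spin (x i)) * (Real.cos θ * (β * √q * spin (x i))) -
        -Real.sin θ * (β * √q * spin (x i)) * (Real.cos θ * (β * √q * spin (y i))) =
        sc * (β ^ 2 * q) * (spin (x i) * spin (y i) - 1) := by
      intro i
      rw [hsc']
      linear_combination (-Real.sin θ * Real.cos θ * β ^ 2 * (√q) ^ 2) * spin_mul_self (x i) +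
        (Real.sin θ * Real.cos θ * β ^ 2 * (spin (x i) * spin (y i) - 1)) * hq2
    simp only [h1, h2, sum_ite_mem, univ_inter, ← mul_sum, sum_sub_distrib, sum_const,
      nsmul_eq_mul, mul_one, card_univ, Fintype.card_fin, card_pairs]
    have h3 := pair_sum (fun i => spin (x i) * spin (y i))
    have hsq : ∀ i, (spin (x i) * spin (y i)) ^ 2 = 1 := fun i => by
      cases x i <;> cases y i <;> simp [spin]
    simp only [hsq, sum_const, card_univ, Fintype.card_fin, nsmul_eq_mul, mul_one, ← hS] at h3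
    rw [h3]
    field_simp
    ring
  have e : ∀ x, ∑ k, ∑ y, p x * p y * (rs' n β q θ k x * a k x - rs' n β q θ k x * a k y) =
      ∑ y, p x * p y * (sc * (β ^ 2 / (2 * n) * ((n : ℝ) ^ 2 * (1 - q) ^ 2 -
        ((∑ i, spin (x i) * spin (y i)) - q * n) ^ 2))) := fun x => by
    rw [sum_comm]; exact sum_congr rfl fun y _ => inner x y
  simp only [e]
  calc _ ≤ ∑ x, ∑ y, p x * p y * (sc * (β ^ 2 / (2 * n) * ((n : ℝ) ^ 2 * (1 - q) ^ 2))) := by
        refine sum_le_sum fun x _ => sum_le_sum fun y _ => ?_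
        refine mul_le_mul_of_nonneg_left ?_ (mul_nonneg (hp0 x) (hp0 y))
        refine mul_le_mul_of_nonneg_left ?_ hsc
        refine mul_le_mul_of_nonneg_left ?_ (by positivity)
        linarith [sq_nonneg ((∑ i, spin (x i) * spin (y i)) - q * n)]
    _ = _ := by
        simp only [← sum_mul, ← mul_sum, hp1, mul_one, one_mul]
        field_simp

/-- Guerra's bound by rotation. -/
theorem guerra (hn : 0 < n) (β : ℝ) {q : ℝ} (hq : 0 ≤ q) :
    F n β ≤ n * (Real.log 2 + β ^ 2 * (1 - q) ^ 2 / 4 +
      ∫ x, Real.log (Real.cosh (β * √q * x)) ∂gaussianReal 0 1) := by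
  set μ := stdPi ((Fin n × Fin n) ⊕ Fin n)
  set G : ℝ → ℝ := fun θ => ∫ g, lg (rs n β q θ) g ∂μ with hG
  set G' : ℝ → ℝ := fun θ => ∫ g, av (rs n β q θ) g (en (rs' n β q θ) g) ∂μ with hG'
  set bound : ((Fin n × Fin n) ⊕ Fin n → ℝ) → ℝ := fun g => ∑ x : Fin n → Bool, ∑ k, |g k| *
    (|rs' n β q 0 k x| + |rs' n β q (π / 2) k x|)
  have ib : Integrable bound μ := integrable_finsetSum _ fun x _ => integrable_finsetSum _ fun k _ =>
    (integrable_coord k).abs.mul_const _
  have hcont : ∀ θ, Continuous fun g => av (rs n β q θ) g (en (rs' n β q θ) g) := fun θ => by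
    simp only [av_en]
    exact continuous_finsetSum _ fun k _ => (continuous_apply k).mul (continuous_av _ _)
  have dG : ∀ θ, HasDerivAt G (G' θ) θ := fun θ =>
    (hasDerivAt_integral_of_dominated_loc_of_deriv_le (μ := μ) (s := Set.univ)
      (F := fun s g => lg (rs n β q s) g) (bound := bound) Filter.univ_mem
      (Eventually.of_forall fun s => (continuous_lg _).aestronglyMeasurable) (integrable_lg _)
      (F' := fun s g => av (rs n β q s) g (en (rs' n β q s) g)) (hcont θ).aestronglyMeasurable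
      (ae_of_all _ fun g s _ => by
        refine (abs_av_le _ g _).trans (sum_le_sum fun x _ => ?_)
        refine (abs_sum_le_sum_abs _ _).trans (sum_le_sum fun k _ => ?_)
        rw [abs_mul]
        exact mul_le_mul_of_nonneg_left (abs_rs' β q s k x) (abs_nonneg _))
      ib (ae_of_all _ fun g s _ => hasDeriv_lg_rs β q s g)).2
  set K := β ^ 2 * n / 2 * (1 - q) ^ 2 with hK
  have hle : ∀ θ ∈ Set.Ioo (0 : ℝ) (π / 2), G' θ ≤ Real.sin θ * Real.cos θ * K := by
    intro θ hθ
    have hsc : 0 ≤ Real.sin θ * Real.cos θ :=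
      mul_nonneg (Real.sin_nonneg_of_nonneg_of_le_pi hθ.1.le (by linarith [hθ.2, Real.pi_pos]))
        (Real.cos_nonneg_of_mem_Icc ⟨by linarith [hθ.1, Real.pi_pos], hθ.2.le⟩)
    simp only [hG', av_en]
    rw [integral_finsetSum _ fun k _ => integrable_coord_av _ k _]
    simp only [ibp_av]
    have icov : ∀ k, Integrable (fun g => av (rs n β q θ) g (fun x => rs' n β q θ k x * rs n β q θ k x)
        - av (rs n β q θ) g (rs' n β q θ k) * av (rs n β q θ) g (rs n β q θ k)) μ := fun k =>
      (integrable_av _ _).sub ((integrable_av _ _).mul_bdd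
        (c := ∑ x, |rs n β q θ k x|) (continuous_av _ _).aestronglyMeasurable
        (ae_of_all _ fun g => abs_av_le _ g _))
    rw [← integral_finsetSum _ fun k _ => icov k]
    refine (integral_mono (integrable_finsetSum _ fun k _ => icov k) (integrable_const _)
      fun g => rs_cov β hq θ g hn hsc).trans (le_of_eq ?_)
    rw [integral_const, probReal_univ, one_smul, hK]
  have hanti : AntitoneOn (fun θ => G θ - K / 2 * Real.sin θ ^ 2) (Set.Icc 0 (π / 2)) := by
    have d : ∀ θ, HasDerivAt (fun θ => G θ - K / 2 * Real.sin θ ^ 2)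
        (G' θ - Real.sin θ * Real.cos θ * K) θ := fun θ =>
      ((dG θ).sub (((Real.hasDerivAt_sin θ).pow 2).const_mul (K / 2))).congr_deriv
        (by norm_num; ring)
    refine antitoneOn_of_deriv_nonpos (convex_Icc _ _)
      (fun r _ => (d r).continuousAt.continuousWithinAt)
      (fun r _ => (d r).differentiableAt.differentiableWithinAt) fun r hr => ?_
    rw [interior_Icc] at hr
    rw [(d r).deriv]
    linarith [hle r hr]
  have hfin := hanti (Set.left_mem_Icc.2 (by positivity)) (Set.right_mem_Icc.2 (by positivity))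
    (by positivity)
  simp only [Real.sin_zero, Real.sin_pi_div_two] at hfin
  have hend : G (π / 2) = F n β := by
    simp only [hG, F]
    have e : ∀ g, lg (rs n β q (π / 2)) g = lg (cpl n β) (g ∘ Sum.inl) := fun g => by
      simp [lg, en, rs, Fintype.sum_sum_type]
    simp only [e]
    exact integral_comp_inj Sum.inl Sum.inl_injective (continuous_lg _)
  set I := ∫ x, Real.log (Real.cosh (β * √q * x)) ∂gaussianReal 0 1
  have hstart : G 0 = n * (Real.log 2 + I) := by
    simp only [hG]
    have e : ∀ g, lg (rs n β q 0) g =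
        ∑ i, (Real.log 2 + Real.log (Real.cosh (β * √q * g (Sum.inr i)))) := fun g => by
      simp only [lg, en, rs, Fintype.sum_sum_type, Real.sin_zero, Real.cos_zero, zero_mul, mul_zero,
        sum_const_zero, zero_add, one_mul, Real.exp_sum]
      rw [← Fintype.piFinset_univ, ← prod_univ_sum (fun _ : Fin n => (univ : Finset Bool))
        (fun i b => Real.exp (g (Sum.inr i) * (β * √q * spin b)))]
      have hb : ∀ i : Fin n, ∑ b : Bool, Real.exp (g (Sum.inr i) * (β * √q * spin b)) =
          2 * Real.cosh (β * √q * g (Sum.inr i)) := fun i => by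
        rw [Fintype.sum_bool, Real.cosh_eq]; simp [spin]; ring_nf
      simp only [hb]
      rw [Real.log_prod fun i _ => (mul_pos two_pos (Real.cosh_pos _)).ne']
      exact sum_congr rfl fun i _ => Real.log_mul two_ne_zero (Real.cosh_pos _).ne'
    simp only [e]
    have hlc := (integral_log_cosh_le (β * √q)).1
    have hmp : ∀ i : Fin n, MeasurePreserving (Function.eval (Sum.inr i)) μ (gaussianReal 0 1) :=
      fun i => measurePreserving_eval (fun _ : (Fin n × Fin n) ⊕ Fin n => gaussianReal 0 1) _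
    have hi : ∀ i : Fin n,
        Integrable (fun g => Real.log (Real.cosh (β * √q * g (Sum.inr i)))) μ := fun i =>
      (hmp i).integrable_comp_of_integrable
        (g := fun x => Real.log (Real.cosh (β * √q * x))) hlc
    have hv : ∀ i : Fin n, ∫ g, Real.log (Real.cosh (β * √q * g (Sum.inr i))) ∂μ = I := fun i => by
      have e1 := integral_map (μ := μ) (hmp i).measurable.aemeasurable
        (f := fun x => Real.log (Real.cosh (β * √q * x)))
        (Continuous.log (by fun_prop) fun x => (Real.cosh_pos _).ne').aestronglyMeasurable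
      rw [(hmp i).map_eq] at e1
      exact e1.symm
    have hii : ∀ i ∈ (univ : Finset (Fin n)), Integrable
        (fun g => Real.log 2 + Real.log (Real.cosh (β * √q * g (Sum.inr i)))) μ :=
      fun i _ => (integrable_const _).add (hi i)
    rw [integral_finsetSum _ hii]
    simp only [integral_add (integrable_const _) (hi _), hv, integral_const, probReal_univ,
      one_smul, sum_const, card_univ, Fintype.card_fin, nsmul_eq_mul]
  rw [hend, hstart] at hfin
  rw [hK] at hfin
  linarith

/-- Above the critical temperature the free energy is strictly below the annealed one. -/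
theorem annealed_gap {β : ℝ} (hβ : 1 < β) : ∃ φ : ℝ, 0 < φ ∧
    ∀ n : ℕ, 0 < n → F n β ≤ n * (Real.log 2 + β ^ 2 / 4 - φ) := by
  set D := β ^ 2 - 1 with hD
  have hD0 : 0 < D := by nlinarith
  set q := 3 * D / (8 * β ^ 4) with hq
  have hq0 : 0 < q := by positivity
  refine ⟨q ^ 2 * β ^ 2 * D / 8, by positivity, fun n hn => ?_⟩
  refine (guerra hn β hq0.le).trans (mul_le_mul_of_nonneg_left ?_ (Nat.cast_nonneg n))
  have h := (integral_log_cosh_le (β * √q)).2
  have e2 : (β * √q) ^ 2 = β ^ 2 * q := by rw [mul_pow, Real.sq_sqrt hq0.le]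
  rw [show (β * √q) ^ 4 = ((β * √q) ^ 2) ^ 2 by ring,
    show (β * √q) ^ 6 = ((β * √q) ^ 2) ^ 3 by ring, e2] at h
  have key : β ^ 4 * q = 3 * D / 8 := by rw [hq]; field_simp
  have hid : β ^ 2 * (1 - q) ^ 2 / 4 + (β ^ 2 * q / 2 - (β ^ 2 * q) ^ 2 / 4 + (β ^ 2 * q) ^ 3 / 3)
      = β ^ 2 / 4 - q ^ 2 * β ^ 2 * D / 8 := by
    rw [hD] at key ⊢
    linear_combination (q ^ 2 * β ^ 2 / 3) * key
  linarith

end Vale.Agent.P150.Slow
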