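import Mathlib

/-! Gaussian integration by parts in one coordinate of a product of standard normal laws. -/

namespace Vale.Agent.P150.Slow

open Finset MeasureTheory ProbabilityTheory Real Filter
open scoped Topology

lemma hasDerivAt_pdf (x : ℝ) :
    HasDerivAt (gaussianPDFReal 0 1) (-x * gaussianPDFReal 0 1 x) x := by
  have e : gaussianPDFReal 0 1 = fun x => (√(2 * π))⁻¹ * Real.exp (-x ^ 2 / 2) := by
    funext x; simp [gaussianPDFReal]
  rw [e]
  exact (((hasDerivAt_pow 2 x).neg.div_const 2).exp.const_mul (√(2 * π))⁻¹).congr_deriv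
    (by simp; ring)

/-- One variable Gaussian integration by parts. -/
theorem ibp_one (F F' : ℝ → ℝ) (hF : ∀ x, HasDerivAt F (F' x) x) {B : ℝ}
    (hB : ∀ x, |F x| ≤ B) (hB' : ∀ x, |F' x| ≤ B) :
    ∫ x, x * F x ∂gaussianReal 0 1 = ∫ x, F' x ∂gaussianReal 0 1 := by
  have hm : Measurable F' := by
    have : F' = deriv F := funext fun x => (hF x).deriv.symm
    rw [this]; exact measurable_deriv F
  have hc : Continuous F := continuous_iff_continuousAt.2 fun x => (hF x).continuousAt
  have hid : Integrable (fun x : ℝ => x) (gaussianReal 0 1) :=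
    (memLp_id_gaussianReal 1).integrable le_rfl
  have hi1 : Integrable (fun x => x * F x) (gaussianReal 0 1) :=
    hid.mul_bdd (c := B) hc.aestronglyMeasurable (ae_of_all _ hB)
  rw [integral_gaussianReal_eq_integral_smul one_ne_zero,
    integral_gaussianReal_eq_integral_smul one_ne_zero]
  simp only [smul_eq_mul]
  have p := integrable_gaussianPDFReal 0 1
  have hx : Integrable fun x : ℝ => x * gaussianPDFReal 0 1 x := by
    have h := integrable_mul_exp_neg_mul_sq (b := 1 / 2) (by norm_num)
    refine (h.const_mul (√(2 * π))⁻¹).congr (ae_of_all _ fun x => ?_)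
    simp [gaussianPDFReal]; ring_nf
  have h := integral_mul_deriv_eq_deriv_mul_of_integrable (A := ℝ) (u := F)
    (v := fun x => -gaussianPDFReal 0 1 x) (u' := F')
    (v' := fun x => x * gaussianPDFReal 0 1 x) (fun x _ => hF x)
    (fun x _ => (hasDerivAt_pdf x).neg.congr_deriv (by ring))
    (hx.bdd_mul (c := B) hc.aestronglyMeasurable (ae_of_all _ hB))
    (p.neg.bdd_mul (c := B) hm.aestronglyMeasurable (ae_of_all _ hB'))
    (p.neg.bdd_mul (c := B) hc.aestronglyMeasurable (ae_of_all _ hB))
  calc ∫ x, gaussianPDFReal 0 1 x * (x * F x)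
      = ∫ x, F x * (x * gaussianPDFReal 0 1 x) := integral_congr_ae (ae_of_all _ fun x => by ring)
    _ = _ := h
    _ = _ := by
        rw [← integral_neg]
        exact integral_congr_ae (ae_of_all _ fun x => by ring)

variable {ι : Type*} [Fintype ι] [DecidableEq ι]

/-- The product of standard normal laws. -/
noncomputable def stdPi (ι : Type*) [Fintype ι] : Measure (ι → ℝ) :=
  Measure.pi fun _ => gaussianReal 0 1

instance : IsProbabilityMeasure (stdPi ι) := by unfold stdPi; infer_instance

/-- Refreshing one coordinate preserves the law. -/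
lemma mp_update (e : ι) :
    MeasurePreserving (fun p : (ι → ℝ) × ℝ => Function.update p.1 e p.2)
      ((stdPi ι).prod (gaussianReal 0 1)) (stdPi ι) := by
  have hmeas : Measurable fun p : (ι → ℝ) × ℝ => Function.update p.1 e p.2 := measurable_update'
  refine ⟨hmeas, (Measure.pi_eq fun s hs => ?_).symm⟩
  rw [Measure.map_apply hmeas (MeasurableSet.univ_pi hs)]
  have hpre : (fun p : (ι → ℝ) × ℝ => Function.update p.1 e p.2) ⁻¹' Set.univ.pi s =
      (Set.univ.pi (Function.update s e Set.univ)) ×ˢ s e := by
    ext p
    simp only [Set.mem_preimage, Set.mem_pi, Set.mem_univ, true_implies, Set.mem_prod]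
    constructor
    · intro h
      refine ⟨fun i => ?_, by simpa using h e⟩
      by_cases hi : i = e
      · subst hi; simp
      · simpa [hi] using h i
    · rintro ⟨h1, h2⟩ i
      by_cases hi : i = e
      · subst hi; simpa using h2
      · simpa [hi] using h1 i
  rw [hpre, Measure.prod_prod, stdPi, Measure.pi_pi]
  rw [← prod_erase_mul univ _ (mem_univ e), ← prod_erase_mul univ (fun i => gaussianReal 0 1 (s i))
    (mem_univ e)]
  simp only [Function.update_self, measure_univ, mul_one]
  congr 1
  exact prod_congr rfl fun i hi => by rw [Function.update_of_ne (ne_of_mem_erase hi)]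

lemma integral_update (e : ι) {G : (ι → ℝ) → ℝ} (hG : Measurable G)
    (hi : Integrable G (stdPi ι)) :
    ∫ g, G g ∂stdPi ι = ∫ g, ∫ x, G (Function.update g e x) ∂gaussianReal 0 1 ∂stdPi ι := by
  have h := mp_update (ι := ι) e
  have e1 := integral_map (μ := (stdPi ι).prod (gaussianReal 0 1)) h.measurable.aemeasurable
    (f := G) hG.aestronglyMeasurable
  rw [h.map_eq] at e1
  rw [e1]
  exact integral_prod _ (h.integrable_comp_of_integrable hi)

lemma integrable_coord (e : ι) : Integrable (fun g => g e) (stdPi ι) := by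
  have h : MeasurePreserving (Function.eval e) (stdPi ι) (gaussianReal 0 1) :=
    measurePreserving_eval (fun _ : ι => gaussianReal 0 1) e
  exact h.integrable_comp_of_integrable (g := fun x : ℝ => x)
    ((memLp_id_gaussianReal 1).integrable le_rfl)

/-- Gaussian integration by parts in coordinate `e`. -/
theorem ibp (e : ι) (F F' : (ι → ℝ) → ℝ) (hF : Continuous F) (hF' : Continuous F')
    (hd : ∀ g x, HasDerivAt (fun y => F (Function.update g e y)) (F' (Function.update g e x)) x)
    {B : ℝ} (hB : ∀ g, |F g| ≤ B) (hB' : ∀ g, |F' g| ≤ B) :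
    ∫ g, g e * F g ∂stdPi ι = ∫ g, F' g ∂stdPi ι := by
  rw [integral_update e (G := fun g => g e * F g) ((measurable_pi_apply e).mul hF.measurable)
      ((integrable_coord e).mul_bdd (c := B) hF.aestronglyMeasurable (ae_of_all _ hB)),
    integral_update e hF'.measurable
      ((integrable_const B).mono' hF'.aestronglyMeasurable (ae_of_all _ hB'))]
  refine integral_congr_ae (ae_of_all _ fun g => ?_)
  simp only [Function.update_self]
  exact ibp_one _ _ (hd g) (fun x => hB _) (fun x => hB' _)

end Vale.Agent.P150.Slow
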