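import Vale.Agent.P150.SlowChain
import Vale.Agent.P150.SlowIBP

/-!
Gaussian integration by parts for the energy tilted by a slowly varying decreasing function of the
squared overlap, and the annealed bound on the same quantity.
-/

namespace Vale.Agent.P150.Slow

open Finset MeasureTheory ProbabilityTheory Real

variable {n : ℕ}

/-- The index pairs carrying disorder. -/
def pairs (n : ℕ) : Finset (Fin n × Fin n) := univ.filter fun e => e.1 < e.2

/-- The product of the two spins of a pair. -/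
def X (e : Fin n × Fin n) (x : Fin n → Bool) : ℝ := spin (x e.1) * spin (x e.2)

/-- The energy without normalisation. -/
def H (g : Fin n × Fin n → ℝ) (x : Fin n → Bool) : ℝ := ∑ e ∈ pairs n, g e * X e x

lemma abs_X (e : Fin n × Fin n) (x : Fin n → Bool) : |X e x| = 1 := by
  unfold X; cases x e.1 <;> cases x e.2 <;> simp [spin]

lemma weight_eq (β : ℝ) (g : Fin n × Fin n → ℝ) (x : Fin n → Bool) :
    weight (skJ n β g) 0 x = Real.exp (β / √n * H g x) := by
  simp only [weight, Pi.zero_apply, zero_mul, sum_const_zero, add_zero, H, pairs, mul_sum,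
    sum_filter, Fintype.sum_prod_type]
  congr 1
  refine sum_congr rfl fun i _ => sum_congr rfl fun j _ => ?_
  split_ifs <;> simp [skJ, X]; ring

lemma pair_sum (s : Fin n → ℝ) :
    ∑ e ∈ pairs n, s e.1 * s e.2 = ((∑ i, s i) ^ 2 - ∑ i, s i ^ 2) / 2 := by
  have h := energy_eq (fun _ _ : Fin n => (1 : ℝ)) s
  simp only [one_mul] at h
  simp only [pairs, sum_filter, Fintype.sum_prod_type]
  rw [h]
  have e : ∀ i j : Fin n, symJ (fun _ _ : Fin n => (1 : ℝ)) i j * s i * s j =
      s i * s j - if i = j then s i * s j else 0 := by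
    intro i j
    rcases lt_trichotomy i j with h | h | h
    · simp [symJ, h, h.ne]
    · subst h; simp [symJ]
    · simp [symJ, h, h.asymm, h.ne']
  simp only [e, sum_sub_distrib, sum_ite_eq, mem_univ, if_true, sq, sum_mul_sum]

lemma card_pairs : ((pairs n).card : ℝ) = ((n : ℝ) ^ 2 - n) / 2 := by
  simpa using pair_sum (fun _ : Fin n => (1 : ℝ))

lemma card_pairs_le : ((pairs n).card : ℝ) ≤ (n : ℝ) ^ 2 / 2 := by
  rw [card_pairs]; linarith [Nat.cast_nonneg (α := ℝ) n]

variable (β : ℝ)

/-- The Gibbs law at the sample `g`. -/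
noncomputable def P (g : Fin n × Fin n → ℝ) (x : Fin n → Bool) : ℝ := gibbs (skJ n β g) 0 x

/-- The Gibbs mean of a pair product. -/
noncomputable def m (g : Fin n × Fin n → ℝ) (e : Fin n × Fin n) : ℝ := ∑ x, P β g x * X e x

/-- The overlap at the sample `g`. -/
noncomputable def q (g : Fin n × Fin n → ℝ) : ℝ := q2 (skJ n β g)

/-- A slowly varying decreasing function. -/
noncomputable def phi (ε δ s : ℝ) : ℝ := Real.exp (ε * (Real.log δ - Real.log (s + δ)))

lemma P_pos (g : Fin n × Fin n → ℝ) (x : Fin n → Bool) : 0 < P β g x := gibbs_pos _ x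

lemma P_sum (g : Fin n × Fin n → ℝ) : ∑ x, P β g x = 1 := gibbs_sum _

lemma P_eq (g : Fin n × Fin n → ℝ) (x : Fin n → Bool) :
    P β g x = Real.exp (β / √n * H g x) / ∑ y, Real.exp (β / √n * H g y) := by
  simp only [P, gibbs, weight_eq]

lemma abs_m (g : Fin n × Fin n → ℝ) (e : Fin n × Fin n) : |m β g e| ≤ 1 := by
  refine (abs_sum_le_sum_abs _ _).trans (le_of_eq ?_)
  simp [abs_mul, abs_X, abs_of_pos (P_pos β g _), P_sum]

lemma q_nonneg (g : Fin n × Fin n → ℝ) : 0 ≤ q β g := q2_nonneg _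

lemma q_le (g : Fin n × Fin n → ℝ) : q β g ≤ 1 := q2_le_one _

lemma q_eq (g : Fin n × Fin n → ℝ) : q β g = ∑ x, ∑ y, P β g x * P β g y * ov x y := rfl

@[fun_prop]
lemma continuous_P (x : Fin n → Bool) : Continuous fun g => P β g x := by
  simp only [P_eq, H]
  exact Continuous.div (by fun_prop) (by fun_prop)
    fun g => (sum_pos (fun y _ => Real.exp_pos _) univ_nonempty).ne'

@[fun_prop]
lemma continuous_m (e : Fin n × Fin n) : Continuous fun g => m β g e := by
  unfold m; fun_prop

@[fun_prop]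
lemma continuous_q : Continuous fun g : Fin n × Fin n → ℝ => q β g := by
  simp only [q_eq]; fun_prop

/-- The derivative of `P` in coordinate `e`. -/
lemma hasDeriv_P {e : Fin n × Fin n} (he : e ∈ pairs n) (g : Fin n × Fin n → ℝ) (t : ℝ)
    (x : Fin n → Bool) :
    HasDerivAt (fun s => P β (Function.update g e s) x)
      (β / √n * P β (Function.update g e t) x *
        (X e x - m β (Function.update g e t) e)) t := by
  have dH : ∀ y, HasDerivAt (fun s => H (Function.update g e s) y) (X e y) t := by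
    intro y
    have d : ∀ a ∈ pairs n, HasDerivAt (fun s => Function.update g e s a * X a y)
        (if a = e then X a y else 0) t := by
      intro a _
      by_cases h : a = e
      · subst h; simpa using (hasDerivAt_id t).mul_const (X a y)
      · simpa [h] using hasDerivAt_const t (g a * X a y)
    exact (HasDerivAt.fun_sum d).congr_deriv (by simp [he])
  have dw : ∀ y, HasDerivAt (fun s => Real.exp (β / √n * H (Function.update g e s) y))
      (Real.exp (β / √n * H (Function.update g e t) y) * (β / √n * X e y)) t := fun y =>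
    ((dH y).const_mul (β / √n)).exp
  have hZ : 0 < ∑ y, Real.exp (β / √n * H (Function.update g e t) y) :=
    sum_pos (fun y _ => Real.exp_pos _) univ_nonempty
  simp only [P_eq]
  refine ((dw x).div (HasDerivAt.fun_sum fun y _ => dw y) hZ.ne').congr_deriv ?_
  have hm : ∑ y, Real.exp (β / √n * H (Function.update g e t) y) * (β / √n * X e y) =
      β / √n * m β (Function.update g e t) e *
        ∑ y, Real.exp (β / √n * H (Function.update g e t) y) := by
    have hm0 : m β (Function.update g e t) e =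
        (∑ y, Real.exp (β / √n * H (Function.update g e t) y) * X e y) /
          ∑ y, Real.exp (β / √n * H (Function.update g e t) y) := by
      simp only [m, P_eq, div_mul_eq_mul_div, ← sum_div]
    rw [hm0, mul_assoc, div_mul_cancel₀ _ hZ.ne', mul_sum]
    exact sum_congr rfl fun y _ => by ring
  rw [hm]
  field_simp

/-- The coordinate derivative of the overlap. -/
noncomputable def Dq (g : Fin n × Fin n → ℝ) (e : Fin n × Fin n) : ℝ :=
  β / √n * ∑ x, ∑ y, P β g x * P β g y * ov x y * (X e x + X e y - 2 * m β g e)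

/-- The coordinate derivative of the tilted two point function. -/
noncomputable def DF (ε δ : ℝ) (g : Fin n × Fin n → ℝ) (e : Fin n × Fin n) : ℝ :=
  β / √n * (1 - m β g e ^ 2) * phi ε δ (q β g) +
    m β g e * (phi ε δ (q β g) * (-(ε / (q β g + δ)) * Dq β g e))

lemma hasDeriv_F {ε δ : ℝ} (hδ : 0 < δ) {e : Fin n × Fin n} (he : e ∈ pairs n)
    (g : Fin n × Fin n → ℝ) (t : ℝ) :
    HasDerivAt (fun s => m β (Function.update g e s) e * phi ε δ (q β (Function.update g e s)))
      (DF β ε δ (Function.update g e t) e) t := by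
  set g' := Function.update g e t with hg'
  have dP := hasDeriv_P β he g t
  have dm : HasDerivAt (fun s => m β (Function.update g e s) e)
      (β / √n * (1 - m β g' e ^ 2)) t := by
    refine (HasDerivAt.fun_sum fun x _ => (dP x).mul_const (X e x)).congr_deriv ?_
    have h : ∀ x, β / √n * P β g' x * (X e x - m β g' e) * X e x =
        β / √n * P β g' x - β / √n * m β g' e * (P β g' x * X e x) := by
      intro x
      have : X e x * X e x = 1 := by rw [← abs_mul_abs_self, abs_X, one_mul]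
      linear_combination (β / √n * P β g' x) * this
    simp only [← hg', h, sum_sub_distrib, ← mul_sum, P_sum]
    rw [show ∑ x, P β g' x * X e x = m β g' e from rfl]
    ring
  have dq : HasDerivAt (fun s => q β (Function.update g e s)) (Dq β g' e) t := by
    simp only [q_eq]
    refine (HasDerivAt.fun_sum fun x _ => HasDerivAt.fun_sum fun y _ =>
      ((dP x).mul (dP y)).mul_const (ov x y)).congr_deriv ?_
    simp only [Dq, ← hg', mul_sum]
    exact sum_congr rfl fun x _ => sum_congr rfl fun y _ => by ring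
  have hpos : 0 < q β g' + δ := by linarith [q_nonneg β g']
  have dphi : HasDerivAt (fun s => phi ε δ (q β (Function.update g e s)))
      (phi ε δ (q β g') * (-(ε / (q β g' + δ)) * Dq β g' e)) t := by
    refine ((((dq.add_const δ).log hpos.ne').const_sub (Real.log δ)).const_mul ε).exp.congr_deriv ?_
    simp only [phi, ← hg']
    ring
  exact dm.mul dphi

lemma phi_pos (ε δ s : ℝ) : 0 < phi ε δ s := Real.exp_pos _

lemma phi_le_one {ε δ s : ℝ} (hε : 0 ≤ ε) (hδ : 0 < δ) (hs : 0 ≤ s) : phi ε δ s ≤ 1 := by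
  refine Real.exp_le_one_iff.2 (mul_nonpos_of_nonneg_of_nonpos hε ?_)
  linarith [Real.log_le_log hδ (by linarith : δ ≤ s + δ)]

lemma abs_XXm (g : Fin n × Fin n → ℝ) (e : Fin n × Fin n) (x y : Fin n → Bool) :
    |X e x + X e y - 2 * m β g e| ≤ 4 := by
  have h1 := abs_le.1 (abs_X e x).le
  have h2 := abs_le.1 (abs_X e y).le
  have h3 := abs_le.1 (abs_m β g e)
  rw [abs_le]; constructor <;> linarith

lemma abs_Dq (hb : 0 ≤ β) (g : Fin n × Fin n → ℝ) (e : Fin n × Fin n) :
    |Dq β g e| ≤ β / √n * (4 * q β g) := by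
  rw [Dq, abs_mul, abs_of_nonneg (by positivity : 0 ≤ β / √n)]
  refine mul_le_mul_of_nonneg_left ?_ (by positivity)
  rw [q_eq, mul_sum]
  refine (abs_sum_le_sum_abs _ _).trans (sum_le_sum fun x _ => ?_)
  rw [mul_sum]
  refine (abs_sum_le_sum_abs _ _).trans (sum_le_sum fun y _ => ?_)
  have h := mul_nonneg (mul_pos (P_pos β g x) (P_pos β g y)).le (ov_nonneg x y)
  rw [abs_mul, abs_of_nonneg h, mul_comm (4 : ℝ)]
  exact mul_le_mul_of_nonneg_left (abs_XXm β g e x y) h

lemma abs_tilt {ε δ : ℝ} (hb : 0 ≤ β) (hε : 0 ≤ ε) (hδ : 0 < δ) (g : Fin n × Fin n → ℝ)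
    (e : Fin n × Fin n) :
    |m β g e * (phi ε δ (q β g) * (-(ε / (q β g + δ)) * Dq β g e))|
      ≤ β / √n * phi ε δ (q β g) * (4 * ε) := by
  have hq := q_nonneg β g
  have hp := phi_pos ε δ (q β g)
  have hpos : 0 < q β g + δ := by linarith
  rw [abs_mul, abs_mul, abs_mul, abs_neg, abs_of_pos hp, abs_of_nonneg (div_nonneg hε hpos.le)]
  calc |m β g e| * (phi ε δ (q β g) * (ε / (q β g + δ) * |Dq β g e|))
      ≤ 1 * (phi ε δ (q β g) * (ε / (q β g + δ) * (β / √n * (4 * q β g)))) := by
        gcongr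
        · exact abs_m β g e
        · exact abs_Dq β hb g e
    _ = β / √n * phi ε δ (q β g) * (4 * ε) * (q β g / (q β g + δ)) := by ring
    _ ≤ β / √n * phi ε δ (q β g) * (4 * ε) * 1 := by
        gcongr
        rw [div_le_one hpos]; linarith
    _ = _ := mul_one _

lemma abs_DF {ε δ : ℝ} (hb : 0 ≤ β) (hε : 0 ≤ ε) (hδ : 0 < δ) (g : Fin n × Fin n → ℝ)
    (e : Fin n × Fin n) : |DF β ε δ g e| ≤ β / √n * (1 + 4 * ε) := by
  have hp := phi_pos ε δ (q β g)
  have hp1 := phi_le_one hε hδ (q_nonneg β g)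
  have hc : (0 : ℝ) ≤ β / √n := by positivity
  have hm : |1 - m β g e ^ 2| ≤ 1 := by
    have := (sq_le_one_iff_abs_le_one _).2 (abs_m β g e)
    rw [abs_le]; constructor <;> nlinarith [sq_nonneg (m β g e)]
  refine (abs_add_le _ _).trans ?_
  have h2 := abs_tilt β hb hε hδ g e
  rw [abs_mul, abs_mul, abs_of_nonneg hc, abs_of_pos hp]
  have h1 : β / √n * |1 - m β g e ^ 2| * phi ε δ (q β g) ≤ β / √n * 1 * 1 := by gcongr
  have h3 : β / √n * phi ε δ (q β g) * (4 * ε) ≤ β / √n * 1 * (4 * ε) := by gcongr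
  linarith

lemma sum_one_sub_sq (hn : 0 < n) (g : Fin n × Fin n → ℝ) :
    ∑ e ∈ pairs n, (1 - m β g e ^ 2) = (n : ℝ) ^ 2 / 2 * (1 - q β g) := by
  have hn' : (n : ℝ) ≠ 0 := by exact_mod_cast hn.ne'
  have hm : ∑ e ∈ pairs n, m β g e ^ 2 =
      ∑ x, ∑ y, P β g x * P β g y * (((n : ℝ) ^ 2 * ov x y - n) / 2) := by
    simp only [m, sq, sum_mul_sum]
    rw [sum_comm]
    refine sum_congr rfl fun x _ => ?_
    rw [sum_comm]
    refine sum_congr rfl fun y _ => ?_
    have h := pair_sum (fun i => spin (x i) * spin (y i))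
    have hs : ∀ i, (spin (x i) * spin (y i)) ^ 2 = 1 := fun i => by
      cases x i <;> cases y i <;> simp [spin]
    simp only [hs, sum_const, card_univ, Fintype.card_fin, nsmul_eq_mul, mul_one] at h
    calc ∑ e ∈ pairs n, P β g x * X e x * (P β g y * X e y)
        = P β g x * P β g y *
            ∑ e ∈ pairs n, spin (x e.1) * spin (y e.1) * (spin (x e.2) * spin (y e.2)) := by
          rw [mul_sum]; exact sum_congr rfl fun e _ => by simp only [X]; ring
      _ = _ := by rw [h, ov]; field_simp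
  have hq : ∑ x, ∑ y, P β g x * P β g y * (((n : ℝ) ^ 2 * ov x y - n) / 2) =
      (n : ℝ) ^ 2 / 2 * q β g - n / 2 := by
    have e : ∀ x y, P β g x * P β g y * (((n : ℝ) ^ 2 * ov x y - n) / 2) =
        (n : ℝ) ^ 2 / 2 * (P β g x * P β g y * ov x y) - n / 2 * (P β g x * P β g y) :=
      fun x y => by ring
    simp only [e, sum_sub_distrib, ← mul_sum, P_sum, mul_one, q_eq]
  rw [sum_sub_distrib, hm, hq, sum_const, nsmul_eq_mul, mul_one, card_pairs]
  ring

lemma sum_DF_ge {ε δ : ℝ} (hn : 0 < n) (hb : 0 ≤ β) (hε : 0 ≤ ε) (hδ : 0 < δ)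
    (g : Fin n × Fin n → ℝ) :
    β / √n * (n : ℝ) ^ 2 * (phi ε δ (q β g) * ((1 - q β g) / 2 - 2 * ε))
      ≤ ∑ e ∈ pairs n, DF β ε δ g e := by
  have hp := phi_pos ε δ (q β g)
  have h1 : ∀ e ∈ pairs n, β / √n * (1 - m β g e ^ 2) * phi ε δ (q β g)
      - β / √n * phi ε δ (q β g) * (4 * ε) ≤ DF β ε δ g e := by
    intro e _
    have := (abs_le.1 (abs_tilt β hb hε hδ g e)).1
    simp only [DF]; linarith
  refine le_trans ?_ (sum_le_sum h1)
  rw [sum_sub_distrib, ← sum_mul, ← mul_sum, sum_one_sub_sq β hn, sum_const, nsmul_eq_mul]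
  have h2 := mul_le_mul_of_nonneg_right (card_pairs_le (n := n))
    (show 0 ≤ β / √n * phi ε δ (q β g) * (4 * ε) by positivity)
  linarith

lemma continuous_phi_q {ε δ : ℝ} (hδ : 0 < δ) :
    Continuous fun g : Fin n × Fin n → ℝ => phi ε δ (q β g) := by
  have hl : Continuous fun g : Fin n × Fin n → ℝ => Real.log (q β g + δ) :=
    Continuous.log (by fun_prop) fun g => by linarith [q_nonneg β g]
  unfold phi; fun_prop

lemma continuous_DF {ε δ : ℝ} (hδ : 0 < δ) (e : Fin n × Fin n) :
    Continuous fun g => DF β ε δ g e := by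
  have hp := continuous_phi_q (n := n) β (ε := ε) hδ
  have hD : Continuous fun g => Dq β g e := by unfold Dq; fun_prop
  have hd : Continuous fun g : Fin n × Fin n → ℝ => ε / (q β g + δ) :=
    Continuous.div (by fun_prop) (by fun_prop) fun g => by linarith [q_nonneg β g]
  unfold DF; fun_prop

/-- The tilted energy. -/
noncomputable def T (ε δ : ℝ) (g : Fin n × Fin n → ℝ) : ℝ :=
  ∑ e ∈ pairs n, g e * (m β g e * phi ε δ (q β g))

lemma T_eq (ε δ : ℝ) (g : Fin n × Fin n → ℝ) :
    T β ε δ g = phi ε δ (q β g) * ∑ x, P β g x * H g x := by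
  simp only [T, m, H, mul_sum, sum_mul]
  rw [sum_comm]
  exact sum_congr rfl fun x _ => sum_congr rfl fun e _ => by ring

lemma integrable_T {ε δ : ℝ} (hε : 0 ≤ ε) (hδ : 0 < δ) :
    Integrable (fun g => T β ε δ g) (stdPi (Fin n × Fin n)) :=
  integrable_finsetSum _ fun e _ => (integrable_coord e).mul_bdd (c := 1)
    ((continuous_m (n := n) β e).mul (continuous_phi_q β hδ)).aestronglyMeasurable
    (ae_of_all _ fun g => by
      rw [Real.norm_eq_abs, abs_mul, abs_of_pos (phi_pos ..)]
      exact mul_le_one₀ (abs_m β g e) (phi_pos ..).le (phi_le_one hε hδ (q_nonneg β g)))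

/-- Lower bound on the tilted energy by integration by parts. -/
theorem tilted_low {ε δ : ℝ} (hn : 0 < n) (hb : 0 ≤ β) (hε : 0 ≤ ε) (hδ : 0 < δ) :
    β / √n * (n : ℝ) ^ 2 * ∫ g, phi ε δ (q β g) * ((1 - q β g) / 2 - 2 * ε) ∂stdPi (Fin n × Fin n)
      ≤ ∫ g, T β ε δ g ∂stdPi (Fin n × Fin n) := by
  set μ := stdPi (Fin n × Fin n)
  have hc := continuous_phi_q (n := n) β (ε := ε) hδ
  have bd : ∀ g : Fin n × Fin n → ℝ, |phi ε δ (q β g)| ≤ 1 := fun g => by
    rw [abs_of_pos (phi_pos ..)]; exact phi_le_one hε hδ (q_nonneg β g)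
  have iphi : Integrable (fun g => phi ε δ (q β g)) μ :=
    (integrable_const (1 : ℝ)).mono' hc.aestronglyMeasurable (ae_of_all _ bd)
  have iphq : Integrable (fun g => phi ε δ (q β g) * q β g) μ :=
    iphi.mul_bdd (c := 1) (continuous_q β).aestronglyMeasurable
      (ae_of_all _ fun g => by rw [Real.norm_eq_abs, abs_of_nonneg (q_nonneg β g)]; exact q_le β g)
  have hFc : ∀ e, Continuous fun g => m β g e * phi ε δ (q β g) := fun e =>
    (continuous_m (n := n) β e).mul hc
  have hFb : ∀ g : Fin n × Fin n → ℝ, ∀ e, |m β g e * phi ε δ (q β g)| ≤ 1 := fun g e => by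
    rw [abs_mul]; exact mul_le_one₀ (abs_m β g e) (abs_nonneg _) (bd g)
  have iT1 : ∀ e, Integrable (fun g => g e * (m β g e * phi ε δ (q β g))) μ := fun e =>
    (integrable_coord e).mul_bdd (c := 1) (hFc e).aestronglyMeasurable (ae_of_all _ fun g => hFb g e)
  have iD : ∀ e, Integrable (fun g => DF β ε δ g e) μ := fun e =>
    (integrable_const (β / √n * (1 + 4 * ε))).mono' (continuous_DF β hδ e).aestronglyMeasurable
      (ae_of_all _ fun g => abs_DF β hb hε hδ g e)
  have e1 : ∫ g, T β ε δ g ∂μ = ∫ g, ∑ e ∈ pairs n, DF β ε δ g e ∂μ := by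
    simp only [T]
    rw [integral_finsetSum _ fun e _ => iT1 e, integral_finsetSum _ fun e _ => iD e]
    refine sum_congr rfl fun e he => ?_
    exact ibp e _ _ (hFc e) (continuous_DF β hδ e) (fun g t => hasDeriv_F β hδ he g t)
      (B := 1 + β / √n * (1 + 4 * ε))
      (fun g => (hFb g e).trans (by linarith [show 0 ≤ β / √n * (1 + 4 * ε) by positivity]))
      (fun g => (abs_DF β hb hε hδ g e).trans (by linarith))
  rw [e1, ← integral_const_mul]
  refine integral_mono ?_ (integrable_finsetSum _ fun e _ => iD e)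
    (fun g => sum_DF_ge β hn hb hε hδ g)
  refine (((iphi.mul_const (1 / 2 - 2 * ε)).sub (iphq.mul_const (1 / 2))).const_mul
    (β / √n * (n : ℝ) ^ 2)).congr (ae_of_all _ fun g => ?_)
  simp only [Pi.sub_apply]; ring

end Vale.Agent.P150.Slow
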