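import Vale.Agent.P150.SlowRS

/-! One-spin cavity: the free energy grows at the annealed rate where the overlap is small. -/

namespace Vale.Agent.P150.Slow

open Finset MeasureTheory ProbabilityTheory Real Filter
open scoped Topology

variable {n : ℕ}

lemma integral_mul_split {α γ : Type*} [Fintype α] [Fintype γ] (f : (α → ℝ) → ℝ) (h : (γ → ℝ) → ℝ)
    (_hf : Continuous f) (_hh : Continuous h) :
    ∫ g, f (fun i => g (Sum.inl i)) * h (fun i => g (Sum.inr i)) ∂stdPi (α ⊕ γ) =
      (∫ u, f u ∂stdPi α) * ∫ v, h v ∂stdPi γ := by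
  have hmp : MeasurePreserving (MeasurableEquiv.sumPiEquivProdPi fun _ : α ⊕ γ => ℝ)
      (stdPi (α ⊕ γ)) ((stdPi α).prod (stdPi γ)) :=
    measurePreserving_sumPiEquivProdPi (fun _ : α ⊕ γ => gaussianReal 0 1)
  rw [← integral_prod_mul f h]
  exact hmp.integral_comp' fun p => f p.1 * h p.2

lemma av_cpl (β : ℝ) (g : Fin n × Fin n → ℝ) (f : (Fin n → Bool) → ℝ) :
    av (cpl n β) g f = ∑ x, P β g x * f x := by
  simp only [av, en_cpl, P_eq, div_mul_eq_mul_div, ← sum_div]

lemma av_mul_const {ι Ω : Type*} [Fintype ι] [Fintype Ω] (a : ι → Ω → ℝ) (g : ι → ℝ) (c : ℝ)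
    (f : Ω → ℝ) : av a g (fun x => c * f x) = c * av a g f := by
  unfold av
  rw [mul_div_assoc', mul_sum]
  exact congrArg (· / _) (sum_congr rfl fun x _ => by ring)

/-- The mean energy is at most that of the annealed model. -/
lemma energy_le (β : ℝ) :
    ∫ g, av (cpl n β) g (en (cpl n β) g) ∂stdPi (Fin n × Fin n) ≤ n * β ^ 2 / 2 := by
  simp only [av_en]
  rw [integral_finsetSum _ fun k _ => integrable_coord_av _ k _]
  have h : ∀ k : Fin n × Fin n, ∫ g, g k * av (cpl n β) g (cpl n β k) ∂stdPi (Fin n × Fin n) ≤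
      if k ∈ pairs n then β ^ 2 / n else 0 := by
    intro k
    rw [ibp_av]
    by_cases hk : k ∈ pairs n
    · rw [if_pos hk]
      refine (integral_mono ?_ (integrable_const (β ^ 2 / n)) fun g => ?_).trans (le_of_eq (by simp))
      · exact (integrable_av _ _).sub ((integrable_av _ _).mul_bdd
          (c := ∑ x, |cpl n β k x|) (continuous_av _ _).aestronglyMeasurable
          (ae_of_all _ fun g => abs_av_le _ g _))
      · have e : (fun x => cpl n β k x * cpl n β k x) = fun _ => β ^ 2 / (n : ℝ) := by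
          funext x
          simp only [cpl, hk, if_true]
          rw [mul_mul_mul_comm, show X k x * X k x = 1 by rw [← abs_mul_abs_self, abs_X, one_mul],
            div_mul_div_comm, Real.mul_self_sqrt (Nat.cast_nonneg n)]
          ring
        rw [e]
        have hc : av (cpl n β) g (fun _ => β ^ 2 / (n : ℝ)) = β ^ 2 / n := by
          rw [av_cpl, ← sum_mul, P_sum, one_mul]
        rw [hc]
        nlinarith [mul_self_nonneg (av (cpl n β) g (cpl n β k))]
    · rw [if_neg hk]
      simp [cpl, hk, av]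
  refine (sum_le_sum fun k _ => h k).trans ?_
  rw [sum_ite_mem, univ_inter, sum_const, nsmul_eq_mul]
  rcases Nat.eq_zero_or_pos n with rfl | hn
  · simp [pairs]
  have hn' : (0 : ℝ) < n := by exact_mod_cast hn
  refine (mul_le_mul_of_nonneg_right card_pairs_le (by positivity)).trans (le_of_eq ?_)
  field_simp

/-- The expected overlap. -/
noncomputable def Q (n : ℕ) (β : ℝ) : ℝ := ∫ g, q β g ∂stdPi (Fin n × Fin n)

lemma Q_nonneg (β : ℝ) : 0 ≤ Q n β := integral_nonneg fun g => q_nonneg β g

/-- The field acting on the new spin. -/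
noncomputable def W (n : ℕ) (β : ℝ) (v : Fin n → ℝ) (x : Fin n → Bool) : ℝ :=
  ∑ i, v i * (β / √n * spin (x i))

lemma integral_cosh_lin (c : Fin n → ℝ) :
    Integrable (fun v : Fin n → ℝ => Real.cosh (∑ i, v i * c i)) (stdPi (Fin n)) ∧
    ∫ v, Real.cosh (∑ i, v i * c i) ∂stdPi (Fin n) = Real.exp ((∑ i, c i ^ 2) / 2) := by
  have h : ∀ d : Fin n → ℝ, Integrable (fun v : Fin n → ℝ => Real.exp (∑ i, v i * d i)) (stdPi (Fin n)) ∧
      ∫ v, Real.exp (∑ i, v i * d i) ∂stdPi (Fin n) = Real.exp ((∑ i, d i ^ 2) / 2) := by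
    intro d
    simp only [Real.exp_sum, stdPi, mul_comm _ (d _)]
    refine ⟨Integrable.fintype_prod fun i => integrable_exp_mul_gaussianReal _, ?_⟩
    rw [integral_fintype_prod_eq_prod (f := fun i s => Real.exp (d i * s))]
    have e2 : ∀ i, ∫ s, Real.exp (d i * s) ∂gaussianReal 0 1 = Real.exp (d i ^ 2 / 2) := fun i => by
      have h := congrFun (mgf_id_gaussianReal (μ := 0) (v := 1)) (d i)
      simpa [mgf] using h
    simp only [e2, ← Real.exp_sum, sum_div]
  have e : ∀ v : Fin n → ℝ, Real.cosh (∑ i, v i * c i) =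
      (Real.exp (∑ i, v i * c i) + Real.exp (∑ i, v i * (-c i))) / 2 := fun v => by
    simp only [Real.cosh_eq, mul_neg, sum_neg_distrib]
  simp only [e]
  refine ⟨((h c).1.add (h fun i => -c i).1).div_const 2, ?_⟩
  rw [integral_div, integral_add (h c).1 (h fun i => -c i).1, (h c).2, (h fun i => -c i).2]
  simp

lemma integral_cosh_W (β : ℝ) (hn : 0 < n) (x : Fin n → Bool) :
    ∫ v, Real.cosh (W n β v x) ∂stdPi (Fin n) = Real.exp (β ^ 2 / 2) := by
  have hn' : (n : ℝ) ≠ 0 := by exact_mod_cast hn.ne'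
  simp only [W, (integral_cosh_lin _).2]
  simp only [mul_pow, div_pow, Real.sq_sqrt (Nat.cast_nonneg n), sq (spin _), spin_mul_self, mul_one,
    sum_const, card_univ, Fintype.card_fin, nsmul_eq_mul]
  congr 2
  field_simp

lemma integral_cosh_W2 (β : ℝ) (hn : 0 < n) (x y : Fin n → Bool) :
    Integrable (fun v => Real.cosh (W n β v x) * Real.cosh (W n β v y)) (stdPi (Fin n)) ∧
    ∫ v, Real.cosh (W n β v x) * Real.cosh (W n β v y) ∂stdPi (Fin n) =
      Real.exp (β ^ 2) * Real.cosh (β ^ 2 * ((∑ i, spin (x i) * spin (y i)) / n)) := by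
  have hn' : (n : ℝ) ≠ 0 := by exact_mod_cast hn.ne'
  set cp : Fin n → ℝ := fun i => β / √n * spin (x i) + β / √n * spin (y i)
  set cm : Fin n → ℝ := fun i => β / √n * spin (x i) - β / √n * spin (y i)
  have e : ∀ v, Real.cosh (W n β v x) * Real.cosh (W n β v y) =
      (Real.cosh (∑ i, v i * cp i) + Real.cosh (∑ i, v i * cm i)) / 2 := fun v => by
    simp only [cp, cm, mul_add, mul_sub, sum_add_distrib, sum_sub_distrib, Real.cosh_add,
      Real.cosh_sub, W]
    ring
  simp only [e]
  refine ⟨((integral_cosh_lin cp).1.add (integral_cosh_lin cm).1).div_const 2, ?_⟩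
  rw [integral_div, integral_add (integral_cosh_lin cp).1 (integral_cosh_lin cm).1,
    (integral_cosh_lin cp).2, (integral_cosh_lin cm).2, Real.cosh_eq, mul_div_assoc', mul_add,
    ← Real.exp_add, ← Real.exp_add]
  have hs : ∀ b : Bool, spin b ^ 2 = 1 := fun b => by rw [sq, spin_mul_self]
  have hc : (β / √(n : ℝ)) ^ 2 = β ^ 2 / n := by rw [div_pow, Real.sq_sqrt (Nat.cast_nonneg n)]
  have hp : ∀ i, cp i ^ 2 = β ^ 2 / n * (2 + 2 * (spin (x i) * spin (y i))) := fun i => by
    simp only [cp]
    linear_combination (2 + 2 * (spin (x i) * spin (y i))) * hc +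
      (β / √(n : ℝ)) ^ 2 * hs (x i) + (β / √(n : ℝ)) ^ 2 * hs (y i)
  have hm : ∀ i, cm i ^ 2 = β ^ 2 / n * (2 - 2 * (spin (x i) * spin (y i))) := fun i => by
    simp only [cm]
    linear_combination (2 - 2 * (spin (x i) * spin (y i))) * hc +
      (β / √(n : ℝ)) ^ 2 * hs (x i) + (β / √(n : ℝ)) ^ 2 * hs (y i)
  simp only [hp, hm, ← mul_sum, sum_add_distrib, sum_sub_distrib, sum_const, card_univ,
    Fintype.card_fin, nsmul_eq_mul]
  congr 3 <;> field_simp <;> ring

/-- The log of the cavity average. -/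
lemma cavity_log (β : ℝ) (hn : 0 < n) :
    β ^ 2 / 2 - Real.exp (β ^ 2 / 2) * (β ^ 4 / 2 * Real.exp (β ^ 4 / 2)) * Q n β ≤
      ∫ g, Real.log (∑ x, P β (fun e => g (Sum.inl e)) x *
        Real.cosh (W n β (fun i => g (Sum.inr i)) x)) ∂stdPi ((Fin n × Fin n) ⊕ Fin n) := by
  set μ := stdPi ((Fin n × Fin n) ⊕ Fin n)
  set ν := stdPi (Fin n × Fin n)
  set A := Real.exp (β ^ 2 / 2) with hA
  have hA0 : 0 < A := Real.exp_pos _
  set U : ((Fin n × Fin n) ⊕ Fin n → ℝ) → ℝ := fun g => ∑ x, P β (fun e => g (Sum.inl e)) x *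
    Real.cosh (W n β (fun i => g (Sum.inr i)) x) with hU
  have cW : ∀ x, Continuous fun v => Real.cosh (W n β v x) := fun x => by unfold W; fun_prop
  have cP : ∀ x, Continuous fun g : Fin n × Fin n → ℝ => P β g x := fun x => continuous_P β x
  have hU1 : ∀ g, 1 ≤ U g := fun g =>
    calc (1 : ℝ) = ∑ x, P β (fun e => g (Sum.inl e)) x * 1 := by simp [P_sum]
      _ ≤ _ := sum_le_sum fun x _ =>
        mul_le_mul_of_nonneg_left (Real.one_le_cosh _) (P_pos β _ x).le
  have hUc : Continuous U := by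
    refine continuous_finsetSum _ fun x _ => ?_
    exact ((cP x).comp (by fun_prop)).mul ((cW x).comp (by fun_prop))
  have hPle : ∀ (g : Fin n × Fin n → ℝ) x, P β g x ≤ 1 := fun g x => by
    rw [← P_sum β g]; exact single_le_sum (fun y _ => (P_pos β g y).le) (mem_univ x)
  have hmpr := mp_comp (ι := (Fin n × Fin n) ⊕ Fin n) (Sum.inr (α := Fin n × Fin n)) Sum.inr_injective
  have i1 : ∀ x, Integrable (fun g => P β (fun e => g (Sum.inl e)) x *
      Real.cosh (W n β (fun i => g (Sum.inr i)) x)) μ := fun x => by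
    have h := hmpr.integrable_comp_of_integrable (g := fun v => Real.cosh (W n β v x))
      (by simpa only [W] using (integral_cosh_lin (fun i => β / √n * spin (x i))).1)
    exact h.bdd_mul (c := 1) ((cP x).comp (by fun_prop)).aestronglyMeasurable
      (ae_of_all _ fun g => by rw [Real.norm_eq_abs, abs_of_pos (P_pos β _ x)]; exact hPle _ x)
  have i2 : ∀ x y, Integrable (fun g => P β (fun e => g (Sum.inl e)) x *
      P β (fun e => g (Sum.inl e)) y * (Real.cosh (W n β (fun i => g (Sum.inr i)) x) *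
        Real.cosh (W n β (fun i => g (Sum.inr i)) y))) μ := fun x y => by
    have h := hmpr.integrable_comp_of_integrable
      (g := fun v => Real.cosh (W n β v x) * Real.cosh (W n β v y)) (integral_cosh_W2 β hn x y).1
    exact h.bdd_mul (c := 1) (((cP x).mul (cP y)).comp (by fun_prop)).aestronglyMeasurable
      (ae_of_all _ fun g => by
        rw [Real.norm_eq_abs, abs_of_pos (mul_pos (P_pos β _ x) (P_pos β _ y))]
        exact mul_le_one₀ (hPle _ x) (P_pos β _ y).le (hPle _ y))
  have iP : ∀ x, Integrable (fun g => P β g x) ν := fun x =>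
    (integrable_const (1 : ℝ)).mono' (cP x).aestronglyMeasurable
      (ae_of_all _ fun g => by rw [Real.norm_eq_abs, abs_of_pos (P_pos β g x)]; exact hPle g x)
  have iPP : ∀ x y, Integrable (fun g => P β g x * P β g y) ν := fun x y =>
    (iP x).mul_bdd (c := 1) (cP y).aestronglyMeasurable
      (ae_of_all _ fun g => by rw [Real.norm_eq_abs, abs_of_pos (P_pos β g y)]; exact hPle g y)
  have iU : Integrable U μ := integrable_finsetSum _ fun x _ => i1 x
  have eU2 : ∀ g, U g ^ 2 = ∑ x, ∑ y, P β (fun e => g (Sum.inl e)) x *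
      P β (fun e => g (Sum.inl e)) y * (Real.cosh (W n β (fun i => g (Sum.inr i)) x) *
        Real.cosh (W n β (fun i => g (Sum.inr i)) y)) := fun g => by
    rw [sq, hU, sum_mul_sum]
    exact sum_congr rfl fun x _ => sum_congr rfl fun y _ => by ring
  have iU2 : Integrable (fun g => U g ^ 2) μ := by
    simp only [eU2]; exact integrable_finsetSum _ fun x _ => integrable_finsetSum _ fun y _ => i2 x y
  have m1 : ∫ g, U g ∂μ = A := by
    simp only [hU]
    rw [integral_finsetSum _ fun x _ => i1 x]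
    simp only [μ, integral_mul_split (fun u => P β u _) _ (cP _) (cW _), integral_cosh_W β hn,
      ← sum_mul]
    rw [← integral_finsetSum _ fun x _ => iP x]
    simp [P_sum, hA]
  have m2 : ∫ g, U g ^ 2 ∂μ ≤ A ^ 2 * (1 + β ^ 4 / 2 * Real.exp (β ^ 4 / 2) * Q n β) := by
    simp only [eU2]
    rw [integral_finsetSum _ fun x _ => integrable_finsetSum _ fun y _ => i2 x y,
      sum_congr rfl fun x _ => integral_finsetSum _ fun y _ => i2 x y]
    have sp : ∀ x y, ∫ g, P β (fun e => g (Sum.inl e)) x * P β (fun e => g (Sum.inl e)) y *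
        (Real.cosh (W n β (fun i => g (Sum.inr i)) x) *
          Real.cosh (W n β (fun i => g (Sum.inr i)) y)) ∂μ = (∫ u, P β u x * P β u y ∂ν) *
        (Real.exp (β ^ 2) * Real.cosh (β ^ 2 * ((∑ i, spin (x i) * spin (y i)) / n))) := fun x y => by
      rw [← (integral_cosh_W2 β hn x y).2]
      exact integral_mul_split (fun u => P β u x * P β u y)
        (fun v => Real.cosh (W n β v x) * Real.cosh (W n β v y)) ((cP x).mul (cP y))
        ((cW x).mul (cW y))
    simp only [sp]
    set C := β ^ 4 / 2 * Real.exp (β ^ 4 / 2)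
    have hA2 : Real.exp (β ^ 2) = A ^ 2 := by rw [hA, ← Real.exp_nat_mul]; ring_nf
    have hb : ∀ x y : Fin n → Bool, Real.exp (β ^ 2) *
        Real.cosh (β ^ 2 * ((∑ i, spin (x i) * spin (y i)) / n)) ≤ A ^ 2 * (1 + C * ov x y) := by
      intro x y
      rw [hA2]
      refine mul_le_mul_of_nonneg_left ((cosh_le_exp_half_sq _).trans ?_) (sq_nonneg A)
      set u := (β ^ 2 * ((∑ i, spin (x i) * spin (y i)) / n)) ^ 2 / 2 with hu
      have e : u = β ^ 4 / 2 * ov x y := by rw [hu, ov]; ring
      have h0 := ov_nonneg x y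
      have h1 := ov_le_one x y
      have hub : u ≤ β ^ 4 / 2 := by rw [e]; exact mul_le_of_le_one_right (by positivity) h1
      have hu0 : 0 ≤ u := by rw [e]; positivity
      have h2 : Real.exp u ≤ 1 + u * Real.exp u := by
        have := mul_le_mul_of_nonneg_right (Real.add_one_le_exp (-u)) (Real.exp_pos u).le
        rw [← Real.exp_add, neg_add_cancel, Real.exp_zero] at this
        linarith
      refine h2.trans ?_
      have h3 := mul_le_mul_of_nonneg_left (Real.exp_le_exp.2 hub) hu0
      calc 1 + u * Real.exp u ≤ 1 + u * Real.exp (β ^ 4 / 2) := by linarith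
        _ = _ := by rw [e]; ring
    refine (sum_le_sum fun x _ => sum_le_sum fun y _ => mul_le_mul_of_nonneg_left (hb x y)
      (integral_nonneg fun g => (mul_pos (P_pos β g x) (P_pos β g y)).le)).trans (le_of_eq ?_)
    simp only [← integral_mul_const, Q, q_eq]
    rw [sum_congr rfl fun x _ => (integral_finsetSum _ fun y _ => (iPP x y).mul_const _).symm,
      ← integral_finsetSum _ fun x _ => integrable_finsetSum _ fun y _ => (iPP x y).mul_const _]
    rw [mul_add, mul_one, ← integral_const_mul, ← integral_const_mul]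
    have iq : Integrable (fun g => ∑ x, ∑ y, P β g x * P β g y * ov x y) ν :=
      integrable_finsetSum _ fun x _ => integrable_finsetSum _ fun y _ => (iPP x y).mul_const _
    nth_rw 2 [show A ^ 2 = ∫ _g, A ^ 2 ∂ν by simp]
    rw [← integral_add (integrable_const _) ((iq.const_mul _).const_mul _)]
    refine integral_congr_ae (ae_of_all _ fun g => ?_)
    have hPP : ∑ x, ∑ y, P β g x * P β g y = 1 := by simp only [← mul_sum, P_sum, mul_one]
    simp only [mul_add, mul_one, sum_add_distrib, ← sum_mul, mul_sum]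
    rw [hPP, one_mul]
    congr 1
    exact sum_congr rfl fun x _ => sum_congr rfl fun y _ => by ring
  have pt : ∀ g, (β ^ 2 / 2 - 1 - A) + (1 / A + 2) * U g - U g ^ 2 / A ≤ Real.log (U g) := by
    intro g
    have hpos : 0 < U g := lt_of_lt_of_le one_pos (hU1 g)
    set w := U g / A with hw
    have hw0 : 0 < w := div_pos hpos hA0
    have h1 := Real.one_sub_inv_le_log_of_pos hw0
    have h2 : 1 / A ≤ w := by rw [hw]; gcongr; exact hU1 g
    have h2' : 1 ≤ A * w := by rw [div_le_iff₀ hA0] at h2; linarith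
    have h3 : (w - 1) - A * (w - 1) ^ 2 ≤ 1 - w⁻¹ := by
      have e : 1 - w⁻¹ = (w - 1) - (w - 1) ^ 2 / w := by field_simp; ring
      rw [e, sub_le_sub_iff_left, div_le_iff₀ hw0]
      nlinarith [mul_le_mul_of_nonneg_left h2' (sq_nonneg (w - 1))]
    have hl : Real.log w = Real.log (U g) - β ^ 2 / 2 := by
      rw [hw, Real.log_div hpos.ne' hA0.ne', hA, Real.log_exp]
    have e2 : (β ^ 2 / 2 - 1 - A) + (1 / A + 2) * U g - U g ^ 2 / A =
        β ^ 2 / 2 + ((w - 1) - A * (w - 1) ^ 2) := by rw [hw]; field_simp; ring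
    linarith
  have hlc : Continuous fun g => Real.log (U g) :=
    hUc.log fun g => (lt_of_lt_of_le one_pos (hU1 g)).ne'
  have il : Integrable (fun g => Real.log (U g)) μ := iU.mono' hlc.aestronglyMeasurable
    (ae_of_all _ fun g => by
      rw [Real.norm_eq_abs, abs_of_nonneg (Real.log_nonneg (hU1 g))]
      linarith [Real.log_le_sub_one_of_pos (lt_of_lt_of_le one_pos (hU1 g))])
  have i3 : Integrable (fun g => (β ^ 2 / 2 - 1 - A) + (1 / A + 2) * U g) μ :=
    (integrable_const _).add (iU.const_mul _)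
  refine le_trans ?_ (integral_mono (i3.sub (iU2.div_const A)) il pt)
  simp only [Pi.sub_apply]
  rw [integral_sub i3 (iU2.div_const A), integral_add (integrable_const _) (iU.const_mul _),
    integral_const, probReal_univ, one_smul, integral_const_mul, m1, integral_div]
  have h4 := div_le_div_of_nonneg_right m2 hA0.le
  have e5 : (1 / A + 2) * A = 1 + 2 * A := by field_simp
  have e6 : A ^ 2 * (1 + β ^ 4 / 2 * Real.exp (β ^ 4 / 2) * Q n β) / A =
      A + A * (β ^ 4 / 2 * Real.exp (β ^ 4 / 2)) * Q n β := by field_simp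
  rw [e5]
  rw [e6] at h4
  linarith

/-- The coordinates of the disorder seen by the first spins and by the last one. -/
def jmap (n : ℕ) : (Fin n × Fin n) ⊕ Fin n → Fin (n + 1) × Fin (n + 1) :=
  Sum.elim (fun e => (Fin.castSucc e.1, Fin.castSucc e.2)) fun i => (Fin.castSucc i, Fin.last n)

lemma jmap_inj (n : ℕ) : Function.Injective (jmap n) := by
  rintro (⟨a, b⟩ | a) (⟨c, d⟩ | c) h <;>
    simp only [jmap, Sum.elim_inl, Sum.elim_inr, Prod.mk.injEq] at h
  · obtain ⟨h1, h2⟩ := h
    rw [Fin.castSucc_injective _ h1, Fin.castSucc_injective _ h2]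
  · exact absurd h.2 (Fin.castSucc_ne_last _)
  · exact absurd h.2.symm (Fin.castSucc_ne_last _)
  · rw [Fin.castSucc_injective _ h.1]

lemma H_snoc (g : Fin (n + 1) × Fin (n + 1) → ℝ) (x : Fin n → Bool) (b : Bool) :
    H g (Fin.snoc x b) = H (fun e => g (jmap n (Sum.inl e))) x +
      spin b * ∑ i, g (jmap n (Sum.inr i)) * spin (x i) := by
  simp only [H, pairs, sum_filter, Fintype.sum_prod_type]
  rw [Fin.sum_univ_castSucc]
  simp only [Fin.sum_univ_castSucc, X, Fin.snoc_castSucc, Fin.snoc_last,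
    Fin.castSucc_lt_castSucc_iff, Fin.castSucc_lt_last, not_lt.2 (Fin.le_last _), if_false, if_true,
    sum_const_zero, add_zero, sum_add_distrib, jmap, Sum.elim_inl, Sum.elim_inr, mul_sum]
  congr 1
  exact sum_congr rfl fun i _ => by ring

lemma sum_snoc (f : (Fin (n + 1) → Bool) → ℝ) :
    ∑ y, f y = ∑ x : Fin n → Bool, (f (Fin.snoc x true) + f (Fin.snoc x false)) := by
  rw [← (Fin.snocEquiv fun _ : Fin (n + 1) => Bool).sum_comp f, Fintype.sum_prod_type,
    Fintype.sum_bool, ← sum_add_distrib]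
  rfl

lemma lg_succ {b β : ℝ} (hc : ∀ x : ℝ, b / √((n + 1 : ℕ) : ℝ) * x = β / √n * x)
    (g : Fin (n + 1) × Fin (n + 1) → ℝ) :
    lg (cpl (n + 1) b) g = Real.log 2 + (lg (cpl n β) (fun e => g (jmap n (Sum.inl e))) +
      Real.log (∑ x, P β (fun e => g (jmap n (Sum.inl e))) x *
        Real.cosh (W n β (fun i => g (jmap n (Sum.inr i))) x))) := by
  set g1 := fun e => g (jmap n (Sum.inl e))
  set g2 := fun i => g (jmap n (Sum.inr i))
  have hen : ∀ x c, en (cpl (n + 1) b) g (Fin.snoc x c) =
      en (cpl n β) g1 x + spin c * W n β g2 x := by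
    intro x c
    rw [en_cpl, hc, en_cpl, H_snoc, mul_add, W, mul_sum, mul_sum, mul_sum]
    congr 1
    exact sum_congr rfl fun i _ => by ring
  have e : ∀ x, Real.exp (en (cpl (n + 1) b) g (Fin.snoc x true)) +
      Real.exp (en (cpl (n + 1) b) g (Fin.snoc x false)) =
      2 * (Real.exp (en (cpl n β) g1 x) * Real.cosh (W n β g2 x)) := fun x => by
    rw [hen, hen, Real.exp_add, Real.exp_add, Real.cosh_eq]
    simp [spin]; ring
  have hpos : 0 < ∑ x, Real.exp (en (cpl n β) g1 x) := part_pos _ _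
  have hnum : 0 < ∑ x, Real.exp (en (cpl n β) g1 x) * Real.cosh (W n β g2 x) :=
    sum_pos (fun x _ => mul_pos (Real.exp_pos _) (Real.cosh_pos _)) univ_nonempty
  have hP : ∑ x, P β g1 x * Real.cosh (W n β g2 x) =
      (∑ x, Real.exp (en (cpl n β) g1 x) * Real.cosh (W n β g2 x)) /
        ∑ x, Real.exp (en (cpl n β) g1 x) := by
    simp only [P_eq, en_cpl, div_mul_eq_mul_div, ← sum_div]
  rw [hP, Real.log_div hnum.ne' hpos.ne']
  unfold lg
  rw [sum_snoc fun x => Real.exp (en (cpl (n + 1) b) g x)]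
  simp only [e, ← mul_sum]
  rw [Real.log_mul two_ne_zero hnum.ne']
  ring

/-- One more spin gains at least the annealed increment, up to the overlap and `1 / n`. -/
theorem cavity {β : ℝ} (hβ : 0 < β) (hn : 0 < n) :
    F n β + Real.log 2 + β ^ 2 / 4 - 3 * β ^ 2 / (4 * n)
      - Real.exp (β ^ 2 / 2) * (β ^ 4 / 2 * Real.exp (β ^ 4 / 2)) * Q n β ≤ F (n + 1) β := by
  have hn' : (0 : ℝ) < n := by exact_mod_cast hn
  set r : ℝ := ((n + 1 : ℕ) : ℝ) / n with hr
  have hr' : r = 1 + 1 / n := by rw [hr]; push_cast; field_simp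
  have hr1 : 1 ≤ r := by rw [hr']; linarith [show (0 : ℝ) ≤ 1 / n by positivity]
  set s := √r with hs
  have hs1 : 1 ≤ s := by rw [hs]; exact Real.one_le_sqrt.2 hr1
  have hs2 : s ^ 2 = r := Real.sq_sqrt (by linarith)
  -- lowering the temperature back to `β`
  have ht : F (n + 1) (β * s) - β ^ 2 / 4 * r ^ 2 ≤ F (n + 1) β := by
    have hscale : ∀ k x, cpl (n + 1) β k x = 1 / s * cpl (n + 1) (β * s) k x := fun k x => by
      simp only [cpl]
      split_ifs
      · field_simp
      · simp
    have hpt : ∀ g, lg (cpl (n + 1) (β * s)) g + (1 / s - 1) *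
        av (cpl (n + 1) (β * s)) g (en (cpl (n + 1) (β * s)) g) ≤ lg (cpl (n + 1) β) g := by
      intro g
      have e : (fun x => en (cpl (n + 1) β) g x - en (cpl (n + 1) (β * s)) g x) =
          fun x => (1 / s - 1) * en (cpl (n + 1) (β * s)) g x := by
        funext x
        simp only [en, hscale, mul_sum, ← sum_sub_distrib]
        exact sum_congr rfl fun k _ => by ring
      have h := lg_tangent (cpl (n + 1) (β * s)) (cpl (n + 1) β) g
      rwa [e, av_mul_const] at h
    have ie : Integrable (fun g => av (cpl (n + 1) (β * s)) g (en (cpl (n + 1) (β * s)) g))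
        (stdPi (Fin (n + 1) × Fin (n + 1))) := by
      simp only [av_en]; exact integrable_finsetSum _ fun k _ => integrable_coord_av _ k _
    have h := integral_mono ((integrable_lg _).add (ie.const_mul (1 / s - 1))) (integrable_lg _) hpt
    simp only [Pi.add_apply] at h
    rw [integral_add (integrable_lg _) (ie.const_mul _), integral_const_mul] at h
    have he := mul_le_mul_of_nonpos_left (energy_le (n := n + 1) (β * s))
      (show 1 / s - 1 ≤ 0 by rw [sub_nonpos, div_le_one (by linarith)]; exact hs1)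
    have hfac : -(β ^ 2 / 4 * r ^ 2) ≤
        (1 / s - 1) * ((n + 1 : ℕ) * (β * s) ^ 2 / 2) := by
      have e : (1 / s - 1) * (((n + 1 : ℕ) : ℝ) * (β * s) ^ 2 / 2) =
          -(((n + 1 : ℕ) : ℝ) * β ^ 2 / 2 * (s * (s - 1))) := by field_simp; ring
      rw [e]
      have h5 : s * (s - 1) ≤ r * (r - 1) / 2 := by
        rw [← hs2]; nlinarith [mul_nonneg (mul_nonneg (by linarith : 0 ≤ s) (by linarith : 0 ≤ s - 1))
          (show 0 ≤ s * (s + 1) - 2 by nlinarith)]
      have h6 := mul_le_mul_of_nonneg_left h5 (show 0 ≤ ((n + 1 : ℕ) : ℝ) * β ^ 2 / 2 by positivity)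
      have h7 : ((n + 1 : ℕ) : ℝ) * (r - 1) = r := by rw [hr]; push_cast; field_simp; ring
      have h8 : ((n + 1 : ℕ) : ℝ) * β ^ 2 / 2 * (r * (r - 1) / 2) = β ^ 2 / 4 * r ^ 2 := by
        linear_combination (β ^ 2 * r / 4) * h7
      linarith
    unfold F
    linarith
  -- splitting off the last spin
  have hc : ∀ x : ℝ, β * s / √((n + 1 : ℕ) : ℝ) * x = β / √n * x := fun x => by
    rw [hs, hr, Real.sqrt_div (Nat.cast_nonneg _)]
    have : (0 : ℝ) < √((n + 1 : ℕ) : ℝ) := by positivity
    field_simp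
  have hj := jmap_inj n
  set T : ((Fin n × Fin n) ⊕ Fin n → ℝ) → ℝ := fun g => Real.log 2 +
    (lg (cpl n β) (fun e => g (Sum.inl e)) + Real.log (∑ x, P β (fun e => g (Sum.inl e)) x *
        Real.cosh (W n β (fun i => g (Sum.inr i)) x))) with hT
  have hTeq : ∀ g, lg (cpl (n + 1) (β * s)) g = T (g ∘ jmap n) := fun g => lg_succ hc g
  set μ := stdPi ((Fin n × Fin n) ⊕ Fin n)
  have hUc : Continuous fun g : (Fin n × Fin n) ⊕ Fin n → ℝ =>
      ∑ x, P β (fun e => g (Sum.inl e)) x * Real.cosh (W n β (fun i => g (Sum.inr i)) x) :=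
    continuous_finsetSum _ fun x _ =>
      ((continuous_P β x).comp (by fun_prop)).mul (by unfold W; fun_prop)
  have hU0 : ∀ g : (Fin n × Fin n) ⊕ Fin n → ℝ, 0 <
      ∑ x, P β (fun e => g (Sum.inl e)) x * Real.cosh (W n β (fun i => g (Sum.inr i)) x) := fun g =>
    sum_pos (fun x _ => mul_pos (P_pos β _ x) (Real.cosh_pos _)) univ_nonempty
  have hmpl := mp_comp (ι := (Fin n × Fin n) ⊕ Fin n) (Sum.inl (β := Fin n)) Sum.inl_injective
  have il : Integrable (fun g => lg (cpl n β) (fun e => g (Sum.inl e))) μ :=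
    hmpl.integrable_comp_of_integrable (integrable_lg (cpl n β))
  have hTc : Continuous T :=
    continuous_const.add (((continuous_lg _).comp (by fun_prop)).add
      (hUc.log fun g => (hU0 g).ne'))
  have hF : F (n + 1) (β * s) = ∫ g, T g ∂μ := by
    simp only [F, hTeq]
    exact integral_comp_inj (jmap n) hj hTc
  have iT : Integrable T μ := by
    have h : Integrable (fun g => T (g ∘ jmap n)) (stdPi (Fin (n + 1) × Fin (n + 1))) := by
      simpa only [← hTeq] using integrable_lg (cpl (n + 1) (β * s))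
    have hmp := mp_comp (jmap n) hj
    exact (hmp.integrable_comp hTc.aestronglyMeasurable).1 h
  have ilog : Integrable (fun g => Real.log
      (∑ x, P β (fun e => g (Sum.inl e)) x * Real.cosh (W n β (fun i => g (Sum.inr i)) x))) μ := by
    refine ((iT.sub (integrable_const (Real.log 2))).sub il).congr (ae_of_all _ fun g => ?_)
    simp only [hT, Pi.sub_apply]; ring
  have hsplit : ∫ g, T g ∂μ = Real.log 2 + (F n β + ∫ g, Real.log
      (∑ x, P β (fun e => g (Sum.inl e)) x * Real.cosh (W n β (fun i => g (Sum.inr i)) x)) ∂μ) := by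
    have i12 : Integrable (fun g => lg (cpl n β) (fun e => g (Sum.inl e)) + Real.log
        (∑ x, P β (fun e => g (Sum.inl e)) x * Real.cosh (W n β (fun i => g (Sum.inr i)) x))) μ :=
      il.add ilog
    simp only [hT]
    rw [integral_add (integrable_const _) i12, integral_add il ilog, integral_const, probReal_univ,
      one_smul]
    congr 2
    exact integral_comp_inj Sum.inl Sum.inl_injective (continuous_lg _)
  have hcl := cavity_log β hn
  have hr3 : r ^ 2 ≤ 1 + 3 / n := by
    have h1 : (1 / n : ℝ) ≤ 1 := by rw [div_le_one hn']; exact_mod_cast hn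
    have h0 : (0 : ℝ) ≤ 1 / n := by positivity
    have e : (3 : ℝ) / n = 3 * (1 / n) := by ring
    rw [hr', e]; nlinarith
  have h9 := mul_le_mul_of_nonneg_left hr3 (show 0 ≤ β ^ 2 / 4 by positivity)
  have e10 : β ^ 2 / 4 * (1 + 3 / n) = β ^ 2 / 4 + 3 * β ^ 2 / (4 * n) := by ring
  linarith

end Vale.Agent.P150.Slow
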