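import Vale.Agent.P150.SlowEnergy

/-! Log partition functions of Gaussian fields on a finite state space. -/

namespace Vale.Agent.P150.Slow

open Finset MeasureTheory ProbabilityTheory Real Filter

variable {ι Ω : Type*} [Fintype ι] [Fintype Ω]

/-- The energy of a linear Gaussian field. -/
def en (a : ι → Ω → ℝ) (g : ι → ℝ) : Ω → ℝ := fun x => ∑ e, g e * a e x

/-- The log partition function. -/
noncomputable def lg (a : ι → Ω → ℝ) (g : ι → ℝ) : ℝ := Real.log (∑ x, Real.exp (en a g x))

/-- The average under the associated probability weights. -/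
noncomputable def av (a : ι → Ω → ℝ) (g : ι → ℝ) (f : Ω → ℝ) : ℝ :=
  (∑ x, Real.exp (en a g x) * f x) / ∑ x, Real.exp (en a g x)

variable [Nonempty Ω] (a : ι → Ω → ℝ)

lemma part_pos (g : ι → ℝ) : 0 < ∑ x, Real.exp (en a g x) :=
  sum_pos (fun x _ => Real.exp_pos _) univ_nonempty

lemma abs_av_le (g : ι → ℝ) (f : Ω → ℝ) : |av a g f| ≤ ∑ x, |f x| := by
  unfold av
  rw [abs_div, abs_of_pos (part_pos a g), div_le_iff₀ (part_pos a g)]
  refine (abs_sum_le_sum_abs _ _).trans ?_
  rw [mul_sum]
  refine sum_le_sum fun x _ => ?_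
  rw [abs_mul, abs_of_pos (Real.exp_pos _), mul_comm]
  exact mul_le_mul_of_nonneg_right (single_le_sum (f := fun y => |f y|) (fun _ _ => abs_nonneg _)
    (mem_univ x)) (Real.exp_pos _).le

lemma continuous_av (f : Ω → ℝ) : Continuous fun g => av a g f := by
  unfold av en
  exact Continuous.div (by fun_prop) (by fun_prop) fun g => (part_pos a g).ne'

lemma continuous_lg : Continuous fun g => lg a g := by
  unfold lg en
  exact Continuous.log (by fun_prop) fun g => (part_pos a g).ne'

lemma integrable_av (f : Ω → ℝ) : Integrable (fun g => av a g f) (stdPi ι) :=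
  (integrable_const (∑ x, |f x|)).mono' (continuous_av a f).aestronglyMeasurable
    (ae_of_all _ fun g => abs_av_le a g f)

lemma integrable_coord_av (e : ι) (f : Ω → ℝ) :
    Integrable (fun g => g e * av a g f) (stdPi ι) := by
  classical
  exact (integrable_coord e).mul_bdd (c := ∑ x, |f x|) (continuous_av a f).aestronglyMeasurable
    (ae_of_all _ fun g => abs_av_le a g f)

omit [Nonempty Ω] in
lemma abs_en_le (g : ι → ℝ) (x : Ω) : |en a g x| ≤ ∑ e, |g e| * ∑ y, |a e y| := by
  refine (abs_sum_le_sum_abs _ _).trans (sum_le_sum fun e _ => ?_)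
  rw [abs_mul]
  exact mul_le_mul_of_nonneg_left
    (single_le_sum (f := fun y => |a e y|) (fun _ _ => abs_nonneg _) (mem_univ x)) (abs_nonneg _)

lemma integrable_lg : Integrable (fun g => lg a g) (stdPi ι) := by
  classical
  have hb : Integrable (fun g : ι → ℝ =>
      Real.log (Fintype.card Ω) + ∑ e, |g e| * ∑ y, |a e y|) (stdPi ι) :=
    (integrable_const _).add (integrable_finsetSum _ fun e _ => ((integrable_coord e).abs).mul_const _)
  refine hb.mono' (continuous_lg a).aestronglyMeasurable (ae_of_all _ fun g => ?_)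
  set M := ∑ e, |g e| * ∑ y, |a e y|
  have hc : (0 : ℝ) < Fintype.card Ω := by exact_mod_cast Fintype.card_pos
  rw [Real.norm_eq_abs, lg, abs_le]
  constructor
  · obtain ⟨x⟩ := (inferInstance : Nonempty Ω)
    have h1 : en a g x ≤ Real.log (∑ y, Real.exp (en a g y)) := by
      rw [Real.le_log_iff_exp_le (part_pos a g)]
      exact single_le_sum (f := fun y => Real.exp (en a g y)) (fun y _ => (Real.exp_pos _).le)
        (mem_univ x)
    have h2 := (abs_le.1 (abs_en_le a g x)).1
    have h3 : 0 ≤ Real.log (Fintype.card Ω) := Real.log_natCast_nonneg _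
    linarith
  · rw [← Real.log_exp (Real.log (Fintype.card Ω) + M)]
    refine Real.log_le_log (part_pos a g) ?_
    rw [Real.exp_add, Real.exp_log hc]
    calc ∑ y, Real.exp (en a g y) ≤ ∑ _y : Ω, Real.exp M :=
          sum_le_sum fun y _ => Real.exp_le_exp.2 ((abs_le.1 (abs_en_le a g y)).2)
      _ = _ := by simp [M]

/-- Coordinatewise derivative of an average. -/
lemma hasDeriv_av [DecidableEq ι] (f : Ω → ℝ) (e : ι) (g : ι → ℝ) (t : ℝ) :
    HasDerivAt (fun s => av a (Function.update g e s) f)
      (av a (Function.update g e t) (fun x => f x * a e x) -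
        av a (Function.update g e t) f * av a (Function.update g e t) (a e)) t := by
  have dE : ∀ y, HasDerivAt (fun s => en a (Function.update g e s) y) (a e y) t := by
    intro y
    have d : ∀ b ∈ (univ : Finset ι), HasDerivAt (fun s => Function.update g e s b * a b y)
        (if b = e then a b y else 0) t := by
      intro b _
      by_cases h : b = e
      · subst h; simpa using (hasDerivAt_id t).mul_const (a b y)
      · simpa [h] using hasDerivAt_const t (g b * a b y)
    exact (HasDerivAt.fun_sum d).congr_deriv (by simp)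
  have hZ := part_pos a (Function.update g e t)
  simp only [av]
  refine ((HasDerivAt.fun_sum fun y _ => (dE y).exp.mul_const (f y)).div
    (HasDerivAt.fun_sum fun y _ => (dE y).exp) hZ.ne').congr_deriv ?_
  rw [div_mul_div_comm, div_sub_div _ _ hZ.ne' (mul_pos hZ hZ).ne',
    div_eq_div_iff (by positivity) (by positivity)]
  have h1 : ∀ y, Real.exp (en a (Function.update g e t) y) * a e y * f y =
      Real.exp (en a (Function.update g e t) y) * (f y * a e y) := fun y => by ring
  simp only [h1]
  ring

/-- Integration by parts for an average. -/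
theorem ibp_av [DecidableEq ι] (f : Ω → ℝ) (e : ι) :
    ∫ g, g e * av a g f ∂stdPi ι =
      ∫ g, (av a g (fun x => f x * a e x) - av a g f * av a g (a e)) ∂stdPi ι := by
  refine ibp e _ _ (continuous_av a f)
    ((continuous_av a _).sub ((continuous_av a f).mul (continuous_av a _)))
    (fun g t => hasDeriv_av a f e g t)
    (B := ∑ x, |f x| + (∑ x, |f x * a e x| + (∑ x, |f x|) * ∑ x, |a e x|))
    (fun g => ?_) (fun g => ?_)
  · refine (abs_av_le a g f).trans (le_add_of_nonneg_right ?_)
    exact add_nonneg (sum_nonneg fun _ _ => abs_nonneg _)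
      (mul_nonneg (sum_nonneg fun _ _ => abs_nonneg _) (sum_nonneg fun _ _ => abs_nonneg _))
  · refine (abs_sub _ _).trans ((add_le_add (abs_av_le a g _) ?_).trans
      (le_add_of_nonneg_left (sum_nonneg fun _ _ => abs_nonneg _)))
    rw [abs_mul]
    exact mul_le_mul (abs_av_le a g f) (abs_av_le a g _) (abs_nonneg _)
      (sum_nonneg fun _ _ => abs_nonneg _)

/-- The tangent line bound for the log partition function. -/
lemma lg_tangent (b : ι → Ω → ℝ) (g : ι → ℝ) :
    lg a g + av a g (fun x => en b g x - en a g x) ≤ lg b g := by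
  have hA := part_pos a g
  have hB := part_pos b g
  have hx : ∀ x, Real.exp (en a g x) *
      (lg a g - lg b g + (en b g x - en a g x) + 1) ≤
      Real.exp (en b g x) * ((∑ y, Real.exp (en a g y)) / ∑ y, Real.exp (en b g y)) := by
    intro x
    refine (mul_le_mul_of_nonneg_left (Real.add_one_le_exp _) (Real.exp_pos _).le).trans
      (le_of_eq ?_)
    rw [lg, lg, ← Real.log_div hA.ne' hB.ne', ← Real.exp_add, ← Real.exp_log (div_pos hA hB),
      ← Real.exp_add, Real.log_exp]
    ring_nf
  have h := sum_le_sum (s := (univ : Finset Ω)) fun x _ => hx x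
  simp only [mul_add, sum_add_distrib, ← sum_mul, mul_one] at h
  have hav : av a g (fun x => en b g x - en a g x) * (∑ y, Real.exp (en a g y)) =
      ∑ x, Real.exp (en a g x) * (en b g x - en a g x) := by
    rw [av, div_mul_cancel₀ _ hA.ne']
  have e2 : (∑ x, Real.exp (en b g x)) *
      ((∑ y, Real.exp (en a g y)) / ∑ y, Real.exp (en b g y)) = ∑ y, Real.exp (en a g y) := by
    field_simp
  rw [e2, ← hav] at h
  refine le_of_mul_le_mul_right ?_ hA
  linarith

/-- Reindexing along an injection preserves the Gaussian law. -/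
lemma mp_comp {κ : Type*} [Fintype κ] (j : κ → ι) (hj : Function.Injective j) :
    MeasurePreserving (fun g : ι → ℝ => g ∘ j) (stdPi ι) (stdPi κ) := by
  classical
  have hm : Measurable fun g : ι → ℝ => g ∘ j :=
    measurable_pi_lambda _ fun i => measurable_pi_apply (j i)
  refine ⟨hm, (Measure.pi_eq fun s hs => ?_).symm⟩
  rw [Measure.map_apply hm (MeasurableSet.univ_pi hs)]
  have hpre : (fun g : ι → ℝ => g ∘ j) ⁻¹' Set.univ.pi s =
      Set.univ.pi (Function.extend j s fun _ => Set.univ) := by
    ext g
    simp only [Set.mem_preimage, Set.mem_pi, Set.mem_univ, true_implies, Function.comp_apply]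
    constructor
    · intro h i
      by_cases hi : ∃ k, j k = i
      · obtain ⟨k, rfl⟩ := hi; rw [hj.extend_apply]; exact h k
      · rw [Function.extend_apply' _ _ _ hi]; trivial
    · intro h k; simpa [hj.extend_apply] using h (j k)
  rw [hpre, stdPi, Measure.pi_pi]
  rw [← prod_subset (subset_univ (univ.image j)) fun i _ hi => by
    rw [Function.extend_apply' _ _ _ (fun ⟨k, hk⟩ => hi (mem_image.2 ⟨k, mem_univ _, hk⟩)),
      measure_univ]]
  rw [prod_image fun _ _ _ _ h => hj h]
  exact prod_congr rfl fun k _ => by rw [hj.extend_apply]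

lemma integral_comp_inj {κ : Type*} [Fintype κ] (j : κ → ι) (hj : Function.Injective j)
    {G : (κ → ℝ) → ℝ} (hG : Continuous G) :
    ∫ g, G (g ∘ j) ∂stdPi ι = ∫ h, G h ∂stdPi κ := by
  have h := mp_comp (ι := ι) j hj
  have e1 := integral_map (μ := stdPi ι) h.measurable.aemeasurable (f := G) hG.aestronglyMeasurable
  rw [h.map_eq] at e1
  exact e1.symm

end Vale.Agent.P150.Slow
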