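import Vale.Agent.P150.SlowSuper

/-! Above the critical temperature the slope of the pressure is strictly below the annealed one. -/

namespace Vale.Agent.P150.Slow

open Finset MeasureTheory ProbabilityTheory Real Filter
open scoped Topology

variable {n : ℕ}

lemma integrable_q (β : ℝ) :
    Integrable (fun g : Fin n × Fin n → ℝ => q β g) (stdPi (Fin n × Fin n)) :=
  (integrable_const (1 : ℝ)).mono' (continuous_q β).aestronglyMeasurable
    (ae_of_all _ fun g => by rw [Real.norm_eq_abs, abs_of_nonneg (q_nonneg β g)]; exact q_le β g)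

lemma Q_le_one (n : ℕ) (β : ℝ) : Q n β ≤ 1 :=
  (integral_mono (integrable_q β) (integrable_const _) fun g => q_le β g).trans (le_of_eq (by simp))

/-- The mean energy is exactly the annealed one times one minus the overlap. -/
lemma energy_eq_Q (hn : 0 < n) (β : ℝ) :
    ∫ g, av (cpl n β) g (en (cpl n β) g) ∂stdPi (Fin n × Fin n) =
      n * β ^ 2 / 2 * (1 - Q n β) := by
  have hn' : (0 : ℝ) < n := by exact_mod_cast hn
  simp only [av_en]
  rw [integral_finsetSum _ fun k _ => integrable_coord_av _ k _]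
  simp only [ibp_av]
  have icov : ∀ k, Integrable (fun g => av (cpl n β) g (fun x => cpl n β k x * cpl n β k x)
      - av (cpl n β) g (cpl n β k) * av (cpl n β) g (cpl n β k)) (stdPi (Fin n × Fin n)) := fun k =>
    (integrable_av _ _).sub ((integrable_av _ _).mul_bdd
      (c := ∑ x, |cpl n β k x|) (continuous_av _ _).aestronglyMeasurable
      (ae_of_all _ fun g => abs_av_le _ g _))
  rw [← integral_finsetSum _ fun k _ => icov k]
  have hc : (β / √(n : ℝ)) ^ 2 = β ^ 2 / n := by rw [div_pow, Real.sq_sqrt hn'.le]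
  have pt : ∀ g : Fin n × Fin n → ℝ, ∑ k, (av (cpl n β) g (fun x => cpl n β k x * cpl n β k x)
      - av (cpl n β) g (cpl n β k) * av (cpl n β) g (cpl n β k)) =
        n * β ^ 2 / 2 * (1 - q β g) := by
    intro g
    have h1 : ∀ k, av (cpl n β) g (fun x => cpl n β k x * cpl n β k x)
        - av (cpl n β) g (cpl n β k) * av (cpl n β) g (cpl n β k) =
        if k ∈ pairs n then β ^ 2 / n * (1 - m β g k ^ 2) else 0 := by
      intro k
      simp only [av_cpl, cpl]
      split_ifs with hk
      · have hX : ∀ x, X k x * X k x = 1 := fun x => by rw [← abs_mul_abs_self, abs_X, one_mul]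
        have e1 : ∀ x, P β g x * (β / √n * X k x * (β / √n * X k x)) =
            P β g x * (β ^ 2 / n) := fun x => by
          linear_combination (P β g x * (β / √(n : ℝ)) ^ 2) * hX x + (P β g x) * hc
        have e2 : ∑ x, P β g x * (β / √n * X k x) = β / √n * m β g k := by
          rw [m, mul_sum]; exact sum_congr rfl fun x _ => by ring
        simp only [e1, ← sum_mul, P_sum, one_mul, e2]
        linear_combination (-(m β g k ^ 2)) * hc
      · simp
    simp only [h1, sum_ite_mem, univ_inter, ← mul_sum, sum_one_sub_sq β hn]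
    field_simp
  rw [integral_congr_ae (ae_of_all _ pt), integral_const_mul,
    integral_sub (integrable_const _) (integrable_q β)]
  simp [Q]

/-- The tangent of the expected pressure at the upper end. -/
lemma F_sub_le (n : ℕ) {β b : ℝ} (hb : 0 < b) :
    F n b - F n β ≤ n * ((b - β) * (b / 2 * (1 - Q n b))) := by
  rcases Nat.eq_zero_or_pos n with rfl | hn
  · simp [F, lg, en]
  have hscale : ∀ k x, cpl n β k x = β / b * cpl n b k x := fun k x => by
    simp only [cpl]
    split_ifs
    · field_simp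
    · simp
  have hpt : ∀ g, lg (cpl n b) g + (β / b - 1) * av (cpl n b) g (en (cpl n b) g) ≤
      lg (cpl n β) g := by
    intro g
    have e : (fun x => en (cpl n β) g x - en (cpl n b) g x) =
        fun x => (β / b - 1) * en (cpl n b) g x := by
      funext x
      simp only [en, hscale, mul_sum, ← sum_sub_distrib]
      exact sum_congr rfl fun k _ => by ring
    have h := lg_tangent (cpl n b) (cpl n β) g
    rwa [e, av_mul_const] at h
  have ie : Integrable (fun g => av (cpl n b) g (en (cpl n b) g)) (stdPi (Fin n × Fin n)) := by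
    simp only [av_en]; exact integrable_finsetSum _ fun k _ => integrable_coord_av _ k _
  have h := integral_mono ((integrable_lg _).add (ie.const_mul (β / b - 1))) (integrable_lg _) hpt
  simp only [Pi.add_apply] at h
  rw [integral_add (integrable_lg _) (ie.const_mul _), integral_const_mul, energy_eq_Q hn] at h
  have e2 : (β / b - 1) * (n * b ^ 2 / 2 * (1 - Q n b)) =
      -(n * ((b - β) * (b / 2 * (1 - Q n b)))) := by field_simp; ring
  unfold F
  linarith

/-- The overlap is positive on average over the size. -/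
theorem sum_Q_ge {β φ : ℝ} (hb : 0 < β) (hφ : 0 < φ)
    (hgap : ∀ n : ℕ, 0 < n → F n β ≤ n * (Real.log 2 + β ^ 2 / 4 - φ)) :
    ∀ᶠ N : ℕ in atTop,
      φ / (2 * (Real.exp (β ^ 2 / 2) * (β ^ 4 / 2 * Real.exp (β ^ 4 / 2)))) * N ≤
        ∑ k ∈ range N, Q k β := by
  set A := Real.log 2 + β ^ 2 / 4 with hA
  set K := Real.exp (β ^ 2 / 2) * (β ^ 4 / 2 * Real.exp (β ^ 4 / 2)) with hK
  have hK0 : 0 < K := by positivity
  set n₀ := ⌈3 * β ^ 2 / φ⌉₊ + 1 with hn₀
  have step : ∀ n, n₀ ≤ n → F n β + (A - φ / 4) - K * Q n β ≤ F (n + 1) β := by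
    intro n hn
    have hn1 : 0 < n := by omega
    have hc := cavity (β := β) hb hn1
    have h : 3 * β ^ 2 / (4 * (n : ℝ)) ≤ φ / 4 := by
      have h1 := Nat.le_ceil (3 * β ^ 2 / φ)
      have h2 : (n₀ : ℝ) ≤ n := by exact_mod_cast hn
      rw [hn₀] at h2; push_cast at h2
      rw [div_le_iff₀ hφ] at h1
      have h3 := mul_le_mul_of_nonneg_right
        (show (⌈3 * β ^ 2 / φ⌉₊ : ℝ) ≤ n by linarith) hφ.le
      rw [div_le_iff₀ (by positivity)]
      linarith
    rw [← hK] at hc
    linarith
  have tele : ∀ m, F n₀ β + m * (A - φ / 4) - K * ∑ k ∈ range (n₀ + m), Q k β ≤ F (n₀ + m) β := by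
    intro m
    induction m with
    | zero =>
      simp only [Nat.cast_zero, zero_mul, add_zero]
      have := mul_nonneg hK0.le (sum_nonneg fun k (_ : k ∈ range n₀) => Q_nonneg (n := k) β)
      linarith
    | succ m ih =>
      rw [Nat.cast_succ, ← Nat.add_assoc, sum_range_succ]
      linarith [step (n₀ + m) (by omega)]
  set C := |F n₀ β| + n₀ * |A - φ / 4| with hC
  filter_upwards [eventually_ge_atTop n₀, eventually_ge_atTop (⌈4 * C / φ⌉₊ + 1)] with N hN hN'
  obtain ⟨m, rfl⟩ := Nat.exists_eq_add_of_le hN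
  have h1 := tele m
  have h2 := hgap (n₀ + m) (by omega)
  push_cast at h2
  have h3 : 4 * C / φ ≤ ((n₀ + m : ℕ) : ℝ) :=
    (Nat.le_ceil _).trans (by exact_mod_cast (by omega : ⌈4 * C / φ⌉₊ ≤ n₀ + m))
  rw [div_le_iff₀ hφ] at h3
  push_cast at h3 ⊢
  have h4 := le_abs_self (A - φ / 4)
  have h5 := neg_abs_le (F n₀ β)
  have h6 : (n₀ : ℝ) * (A - φ / 4) ≤ n₀ * |A - φ / 4| := mul_le_mul_of_nonneg_left h4 (by positivity)
  rw [div_mul_eq_mul_div, div_le_iff₀ (by positivity)]
  linarith

/-- For all large sizes the slope of the pressure is strictly below the annealed slope. -/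
theorem slope {β : ℝ} (hβ : 1 < β) : ∃ h κ : ℝ, 0 < h ∧ 0 < κ ∧
    ∀ᶠ n : ℕ in atTop, F n (β + h) - F n β ≤ n * (h * (β / 2 - κ)) := by
  have hb0 : 0 < β := by linarith
  obtain ⟨φ, hφ, hgap⟩ := annealed_gap hβ
  set φ' := 3 * φ / 4 with hφ'def
  have hφ' : 0 < φ' := by positivity
  set K := Real.exp ((β + 1) ^ 2 / 2) * ((β + 1) ^ 4 / 2 * Real.exp ((β + 1) ^ 4 / 2)) with hK
  set δ := φ' / (2 * K) with hδdef
  have hδ : 0 < δ := by positivity
  set h := min 1 (min φ (β * δ / 2)) with hh
  have h0 : 0 < h := lt_min one_pos (lt_min hφ (by positivity))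
  have h1 : h ≤ 1 := min_le_left _ _
  have h2 : h ≤ φ := (min_le_right _ _).trans (min_le_left _ _)
  have h3 : h ≤ β * δ / 2 := (min_le_right _ _).trans (min_le_right _ _)
  refine ⟨h, β * δ / 8, h0, by positivity, ?_⟩
  set b := β + h with hbdef
  have hb : 0 < b := by positivity
  have hgapb : ∀ n : ℕ, 0 < n → F n b ≤ n * (Real.log 2 + b ^ 2 / 4 - φ') := by
    intro n hn
    have e1 := F_sub_le n (β := β) hb
    have e2 := hgap n hn
    have e3 : (b - β) * (b / 2 * (1 - Q n b)) ≤ h * b / 2 := by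
      rw [show b - β = h by rw [hbdef]; ring, show h * b / 2 = h * (b / 2 * 1) by ring]
      refine mul_le_mul_of_nonneg_left (mul_le_mul_of_nonneg_left ?_ (by positivity)) h0.le
      linarith [Q_nonneg (n := n) b]
    have e4 : (Real.log 2 + β ^ 2 / 4 - φ) + h * b / 2 ≤ Real.log 2 + b ^ 2 / 4 - φ' := by
      have : h ^ 2 ≤ φ := by nlinarith
      rw [hbdef, hφ'def]; nlinarith
    have e5 := mul_le_mul_of_nonneg_left e3 (Nat.cast_nonneg (α := ℝ) n)
    have e6 := mul_le_mul_of_nonneg_left e4 (Nat.cast_nonneg (α := ℝ) n)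
    linarith
  have hQ := sum_Q_ge hb hφ' hgapb
  set u : ℕ → ℝ := fun k => F k b / k - F k β / k with hu
  obtain ⟨pb, hpb⟩ := exists_limit (show 1 < b by linarith)
  obtain ⟨p, hp⟩ := exists_limit hβ
  have hu' : Tendsto u atTop (𝓝 (pb - p)) := hpb.sub hp
  have uk : ∀ k, u k ≤ h * b / 2 * (1 - Q k b) := by
    intro k
    rcases Nat.eq_zero_or_pos k with rfl | hk
    · simp only [hu, Nat.cast_zero, div_zero, sub_zero]
      exact mul_nonneg (by positivity) (by linarith [Q_le_one 0 b])
    · have e := F_sub_le k (β := β) hb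
      have hk' : (0 : ℝ) < k := by exact_mod_cast hk
      rw [show b - β = h by rw [hbdef]; ring] at e
      simp only [hu, ← sub_div]
      rw [div_le_iff₀ hk']
      linarith
  have hK' : Real.exp (b ^ 2 / 2) * (b ^ 4 / 2 * Real.exp (b ^ 4 / 2)) ≤ K := by
    rw [hK]; gcongr <;> linarith
  have hP : pb - p ≤ h * b / 2 * (1 - δ) := by
    refine le_of_tendsto hu'.cesaro ?_
    filter_upwards [hQ, eventually_gt_atTop 0] with N hN hN0
    have hN' : (0 : ℝ) < N := by exact_mod_cast hN0
    have hδN : δ * N ≤ ∑ k ∈ range N, Q k b := by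
      refine le_trans (mul_le_mul_of_nonneg_right ?_ hN'.le) hN
      rw [hδdef]
      exact div_le_div_of_nonneg_left hφ'.le (by positivity) (by linarith)
    have hs := sum_le_sum (s := range N) fun k _ => uk k
    rw [← mul_sum, sum_sub_distrib (fun _ => (1 : ℝ)) (fun k => Q k b), sum_const, card_range,
      nsmul_eq_mul, mul_one] at hs
    rw [inv_mul_le_iff₀ hN']
    have := mul_le_mul_of_nonneg_left hδN (show 0 ≤ h * b / 2 by positivity)
    linarith
  have hlt : pb - p < h * (β / 2 - β * δ / 8) := by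
    have : b * (1 - δ) ≤ β * (1 - δ / 2) := by
      rw [hbdef]; nlinarith
    nlinarith
  filter_upwards [hu'.eventually (eventually_le_nhds hlt), eventually_gt_atTop 0] with n hn hn0
  have hn' : (0 : ℝ) < n := by exact_mod_cast hn0
  simp only [hu, ← sub_div] at hn
  rw [div_le_iff₀ hn'] at hn
  linarith

end Vale.Agent.P150.Slow
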