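import Vale.Agent.P150.SlowRS
import Vale.Agent.P150.SlowCavity

/-! Gaussian comparison by rotation, superadditivity in the size, and existence of the pressure. -/

namespace Vale.Agent.P150.Slow

open Finset MeasureTheory ProbabilityTheory Real Filter
open scoped Topology

section Compare

variable {ι κ Ω : Type*} [Fintype ι] [Fintype κ] [Fintype Ω] [Nonempty Ω]

/-- A field rotating from `b` to `a`. -/
noncomputable def mix (a : ι → Ω → ℝ) (b : κ → Ω → ℝ) (θ : ℝ) : ι ⊕ κ → Ω → ℝ
  | Sum.inl e, x => Real.sin θ * a e x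
  | Sum.inr k, x => Real.cos θ * b k x

/-- Its angular derivative. -/
noncomputable def mix' (a : ι → Ω → ℝ) (b : κ → Ω → ℝ) (θ : ℝ) : ι ⊕ κ → Ω → ℝ
  | Sum.inl e, x => Real.cos θ * a e x
  | Sum.inr k, x => -Real.sin θ * b k x

/-- Comparison of two centred Gaussian fields. -/
theorem compare (a : ι → Ω → ℝ) (b : κ → Ω → ℝ)
    (hab : ∀ x y, ∑ e, a e x * (a e x - a e y) ≤ ∑ k, b k x * (b k x - b k y)) :
    ∫ g, lg a g ∂stdPi ι ≤ ∫ h, lg b h ∂stdPi κ := by
  classical
  set μ := stdPi (ι ⊕ κ)
  set r := mix a b with hr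
  set G : ℝ → ℝ := fun θ => ∫ g, lg (r θ) g ∂μ with hG
  set G' : ℝ → ℝ := fun θ => ∫ g, av (r θ) g (en (mix' a b θ) g) ∂μ with hG'
  have habs : ∀ θ k x, |mix' a b θ k x| ≤ |Sum.elim a b k x| := by
    rintro θ (e | k) x
    · simp only [mix', Sum.elim_inl, abs_mul]
      exact mul_le_of_le_one_left (abs_nonneg _) (Real.abs_cos_le_one θ)
    · simp only [mix', Sum.elim_inr, abs_mul, abs_neg]
      exact mul_le_of_le_one_left (abs_nonneg _) (Real.abs_sin_le_one θ)
  set bound : (ι ⊕ κ → ℝ) → ℝ := fun g => ∑ x, ∑ k, |g k| * |Sum.elim a b k x|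
  have ib : Integrable bound μ := integrable_finsetSum _ fun x _ => integrable_finsetSum _ fun k _ =>
    (integrable_coord k).abs.mul_const _
  have hcont : ∀ θ, Continuous fun g => av (r θ) g (en (mix' a b θ) g) := fun θ => by
    simp only [av_en]
    exact continuous_finsetSum _ fun k _ => (continuous_apply k).mul (continuous_av _ _)
  have dlg : ∀ θ g, HasDerivAt (fun s => lg (r s) g) (av (r θ) g (en (mix' a b θ) g)) θ := by
    intro θ g
    have dk : ∀ k x, HasDerivAt (fun s => r s k x) (mix' a b θ k x) θ := by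
      rintro (e | k) x
      · exact (Real.hasDerivAt_sin θ).mul_const _
      · exact (Real.hasDerivAt_cos θ).mul_const _
    have dE : ∀ x, HasDerivAt (fun s => en (r s) g x) (en (mix' a b θ) g x) θ := fun x =>
      HasDerivAt.fun_sum fun k _ => (dk k x).const_mul (g k)
    refine ((HasDerivAt.fun_sum fun x _ => (dE x).exp).log (part_pos _ g).ne').congr_deriv ?_
    rfl
  have dG : ∀ θ, HasDerivAt G (G' θ) θ := fun θ =>
    (hasDerivAt_integral_of_dominated_loc_of_deriv_le (μ := μ) (s := Set.univ)
      (F := fun s g => lg (r s) g) (bound := bound) Filter.univ_mem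
      (Eventually.of_forall fun s => (continuous_lg _).aestronglyMeasurable) (integrable_lg _)
      (F' := fun s g => av (r s) g (en (mix' a b s) g)) (hcont θ).aestronglyMeasurable
      (ae_of_all _ fun g s _ => by
        refine (abs_av_le _ g _).trans (sum_le_sum fun x _ => ?_)
        refine (abs_sum_le_sum_abs _ _).trans (sum_le_sum fun k _ => ?_)
        rw [abs_mul]
        exact mul_le_mul_of_nonneg_left (habs s k x) (abs_nonneg _))
      ib (ae_of_all _ fun g s _ => dlg s g)).2
  have hle : ∀ θ ∈ Set.Ioo (0 : ℝ) (π / 2), G' θ ≤ 0 := by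
    intro θ hθ
    have hsc : 0 ≤ Real.sin θ * Real.cos θ :=
      mul_nonneg (Real.sin_nonneg_of_nonneg_of_le_pi hθ.1.le (by linarith [hθ.2, Real.pi_pos]))
        (Real.cos_nonneg_of_mem_Icc ⟨by linarith [hθ.1, Real.pi_pos], hθ.2.le⟩)
    simp only [hG', av_en]
    rw [integral_finsetSum _ fun k _ => integrable_coord_av _ k _]
    simp only [ibp_av]
    have icov : ∀ k, Integrable (fun g => av (r θ) g (fun x => mix' a b θ k x * r θ k x)
        - av (r θ) g (mix' a b θ k) * av (r θ) g (r θ k)) μ := fun k =>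
      (integrable_av _ _).sub ((integrable_av _ _).mul_bdd
        (c := ∑ x, |r θ k x|) (continuous_av _ _).aestronglyMeasurable
        (ae_of_all _ fun g => abs_av_le _ g _))
    rw [← integral_finsetSum _ fun k _ => icov k]
    refine integral_nonpos fun g => ?_
    simp only [Pi.zero_apply]
    set p : Ω → ℝ := fun x => Real.exp (en (r θ) g x) / ∑ y, Real.exp (en (r θ) g y)
    have hp0 : ∀ x, 0 ≤ p x := fun x => (div_pos (Real.exp_pos _) (part_pos _ g)).le
    have hp1 : ∑ x, p x = 1 := by simp only [p, ← sum_div]; exact div_self (part_pos _ g).ne'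
    have hav : ∀ f, av (r θ) g f = ∑ x, p x * f x := fun f => by
      simp only [av, p, div_mul_eq_mul_div, ← sum_div]
    have term : ∀ k, av (r θ) g (fun x => mix' a b θ k x * r θ k x)
        - av (r θ) g (mix' a b θ k) * av (r θ) g (r θ k) =
        ∑ x, ∑ y, p x * p y * (mix' a b θ k x * (r θ k x - r θ k y)) := by
      intro k
      simp only [hav, mul_sub, sum_sub_distrib, sum_mul_sum]
      congr 1
      · refine sum_congr rfl fun x _ => ?_
        rw [← sum_mul, ← mul_sum, hp1, mul_one]
      · exact sum_congr rfl fun x _ => sum_congr rfl fun y _ => by ring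
    simp only [term]
    rw [sum_comm]
    refine sum_nonpos fun x _ => ?_
    rw [sum_comm]
    refine sum_nonpos fun y _ => ?_
    rw [← mul_sum]
    refine mul_nonpos_of_nonneg_of_nonpos (mul_nonneg (hp0 x) (hp0 y)) ?_
    have e : ∑ k, mix' a b θ k x * (r θ k x - r θ k y) = Real.sin θ * Real.cos θ *
        (∑ e, a e x * (a e x - a e y) - ∑ k, b k x * (b k x - b k y)) := by
      simp only [hr, Fintype.sum_sum_type, mix, mix']
      rw [mul_sub, mul_sum, mul_sum, sub_eq_add_neg (∑ i, _), ← sum_neg_distrib]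
      congr 1
      · exact sum_congr rfl fun e _ => by ring
      · exact sum_congr rfl fun e _ => by ring
    rw [e]
    exact mul_nonpos_of_nonneg_of_nonpos hsc (by linarith [hab x y])
  have hanti : AntitoneOn G (Set.Icc 0 (π / 2)) := by
    refine antitoneOn_of_deriv_nonpos (convex_Icc _ _)
      (fun r _ => (dG r).continuousAt.continuousWithinAt)
      (fun r _ => (dG r).differentiableAt.differentiableWithinAt) fun r hr => ?_
    rw [interior_Icc] at hr
    rw [(dG r).deriv]
    exact hle r hr
  have hfin := hanti (Set.left_mem_Icc.2 (by positivity)) (Set.right_mem_Icc.2 (by positivity))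
    (by positivity)
  have hend : G (π / 2) = ∫ g, lg a g ∂stdPi ι := by
    simp only [hG]
    have e : ∀ g, lg (r (π / 2)) g = lg a (g ∘ Sum.inl) := fun g => by
      simp [lg, en, hr, mix, Fintype.sum_sum_type]
    simp only [e]
    exact integral_comp_inj Sum.inl Sum.inl_injective (continuous_lg _)
  have hstart : G 0 = ∫ h, lg b h ∂stdPi κ := by
    simp only [hG]
    have e : ∀ g, lg (r 0) g = lg b (g ∘ Sum.inr) := fun g => by
      simp [lg, en, hr, mix, Fintype.sum_sum_type]
    simp only [e]
    exact integral_comp_inj Sum.inr Sum.inr_injective (continuous_lg _)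
  linarith

end Compare

lemma cpl_cov {n : ℕ} (hn : 0 < n) (β : ℝ) (x y : Fin n → Bool) :
    ∑ e, cpl n β e x * (cpl n β e x - cpl n β e y) =
      β ^ 2 / (2 * n) * ((n : ℝ) ^ 2 - (∑ i, spin (x i) * spin (y i)) ^ 2) := by
  have hn' : (0 : ℝ) < n := by exact_mod_cast hn
  have h1 : ∀ e, cpl n β e x * (cpl n β e x - cpl n β e y) = if e ∈ pairs n then
      β ^ 2 / n * (1 - spin (x e.1) * spin (y e.1) * (spin (x e.2) * spin (y e.2))) else 0 := by
    intro e
    simp only [cpl]
    split_ifs
    · have h : X e x * X e x = 1 := by rw [← abs_mul_abs_self, abs_X, one_mul]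
      have hc : (β / √(n : ℝ)) ^ 2 = β ^ 2 / n := by rw [div_pow, Real.sq_sqrt hn'.le]
      simp only [X] at h ⊢
      linear_combination ((β / √(n : ℝ)) ^ 2) * h +
        (1 - spin (x e.1) * spin (y e.1) * (spin (x e.2) * spin (y e.2))) * hc
    · ring
  simp only [h1, sum_ite_mem, univ_inter, ← mul_sum, sum_sub_distrib, sum_const, nsmul_eq_mul,
    mul_one, card_pairs]
  have h3 := pair_sum (fun i => spin (x i) * spin (y i))
  have hsq : ∀ i, (spin (x i) * spin (y i)) ^ 2 = 1 := fun i => by
    cases x i <;> cases y i <;> simp [spin]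
  simp only [hsq, sum_const, card_univ, Fintype.card_fin, nsmul_eq_mul, mul_one] at h3
  rw [h3]
  field_simp
  ring

/-- Two independent blocks. -/
noncomputable def blocks (n m : ℕ) (β : ℝ) :
    (Fin n × Fin n) ⊕ (Fin m × Fin m) → (Fin (n + m) → Bool) → ℝ
  | Sum.inl e, x => cpl n β e fun i => x (Fin.castAdd m i)
  | Sum.inr e, x => cpl m β e fun i => x (Fin.natAdd n i)

/-- Superadditivity of the expected log partition function. -/
theorem superadd (β : ℝ) (n m : ℕ) : F n β + F m β ≤ F (n + m) β := by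
  have F0 : F 0 β = 0 := by simp [F, lg, en]
  rcases Nat.eq_zero_or_pos n with rfl | hn
  · rw [F0, Nat.zero_add, zero_add]
  rcases Nat.eq_zero_or_pos m with rfl | hm
  · rw [F0, add_zero, Nat.add_zero]
  have h := compare (blocks n m β) (cpl (n + m) β) ?_
  · refine le_trans (le_of_eq ?_) h
    have e : ∀ g, lg (blocks n m β) g =
        lg (cpl n β) (g ∘ Sum.inl) + lg (cpl m β) (g ∘ Sum.inr) := by
      intro g
      simp only [lg]
      rw [← Real.log_mul (part_pos _ _).ne' (part_pos _ _).ne', sum_mul_sum,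
        ← (Fin.appendEquiv n m).sum_comp, Fintype.sum_prod_type]
      congr 1
      refine sum_congr rfl fun u _ => sum_congr rfl fun v _ => ?_
      rw [← Real.exp_add]
      simp [en, blocks, Fintype.sum_sum_type, Fin.appendEquiv]
    have i1 : Integrable (fun g => lg (cpl n β) (g ∘ Sum.inl))
        (stdPi ((Fin n × Fin n) ⊕ (Fin m × Fin m))) := (mp_comp (ι := (Fin n × Fin n) ⊕ (Fin m × Fin m)) Sum.inl
      Sum.inl_injective).integrable_comp_of_integrable (integrable_lg (cpl n β))
    have i2 : Integrable (fun g => lg (cpl m β) (g ∘ Sum.inr))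
        (stdPi ((Fin n × Fin n) ⊕ (Fin m × Fin m))) := (mp_comp (ι := (Fin n × Fin n) ⊕ (Fin m × Fin m)) Sum.inr
      Sum.inr_injective).integrable_comp_of_integrable (integrable_lg (cpl m β))
    simp only [e]
    rw [integral_add i1 i2, integral_comp_inj Sum.inl Sum.inl_injective (continuous_lg _),
      integral_comp_inj Sum.inr Sum.inr_injective (continuous_lg _)]
    rfl
  · intro x y
    rw [Fintype.sum_sum_type]
    simp only [blocks, cpl_cov hn, cpl_cov hm, cpl_cov (show 0 < n + m by omega)]
    rw [Fin.sum_univ_add]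
    set a := ∑ i : Fin n, spin (x (Fin.castAdd m i)) * spin (y (Fin.castAdd m i))
    set c := ∑ i : Fin m, spin (x (Fin.natAdd n i)) * spin (y (Fin.natAdd n i))
    have hn' : (0 : ℝ) < n := by exact_mod_cast hn
    have hm' : (0 : ℝ) < m := by exact_mod_cast hm
    push_cast
    have key : β ^ 2 / (2 * (n + m)) * (((n : ℝ) + m) ^ 2 - (a + c) ^ 2) -
        (β ^ 2 / (2 * n) * ((n : ℝ) ^ 2 - a ^ 2) + β ^ 2 / (2 * m) * ((m : ℝ) ^ 2 - c ^ 2)) =
        β ^ 2 / (2 * (n * m * (n + m))) * (a * m - c * n) ^ 2 := by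
      field_simp; ring
    nlinarith [show 0 ≤ β ^ 2 / (2 * ((n : ℝ) * m * (n + m))) * (a * m - c * n) ^ 2 by positivity]

/-- The pressure exists. -/
theorem exists_limit {β : ℝ} (hβ : 1 < β) :
    ∃ p : ℝ, Tendsto (fun n : ℕ => F n β / n) atTop (𝓝 p) := by
  obtain ⟨φ, hφ, hgap⟩ := annealed_gap hβ
  have hs : Subadditive fun n => -F n β := fun m n => by
    have := superadd β m n
    linarith
  have hb : BddBelow (Set.range fun n : ℕ => -F n β / n) := by
    refine ⟨-|Real.log 2 + β ^ 2 / 4 - φ|, ?_⟩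
    rintro _ ⟨n, rfl⟩
    rcases Nat.eq_zero_or_pos n with rfl | hn
    · simp
    have hn' : (0 : ℝ) < n := by exact_mod_cast hn
    have h1 := hgap n hn
    have h2 := le_abs_self (Real.log 2 + β ^ 2 / 4 - φ)
    rw [le_div_iff₀ hn']
    nlinarith
  have h := (hs.tendsto_lim hb).neg
  exact ⟨_, h.congr fun n => by ring⟩

end Vale.Agent.P150.Slow
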