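import Vale.Agent.P150.SlowSlope
import Vale.Agent.P150.SlowConc

/-! Above the critical temperature the squared overlap is tight away from zero. -/

namespace Vale.Agent.P150.Slow

open Finset MeasureTheory ProbabilityTheory Real Filter
open scoped Topology

variable (β : ℝ) {n : ℕ}

/-- The tilted energy is at most the tilted increment of the pressure, up to its fluctuations. -/
theorem tilted_up {ε δ h k : ℝ} (hn : 0 < n) (hb : 0 < β) (hε : 0 ≤ ε) (hδ : 0 < δ) (hh : 0 < h)
    (hslope : F n (β + h) - F n β ≤ n * (h * k)) :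
    h / √n * ∫ g, T β ε δ g ∂stdPi (Fin n × Fin n) ≤
      n * (h * k) * (∫ g, phi ε δ (q β g) ∂stdPi (Fin n × Fin n)) +
        √n * ((β + h) ^ 2 / 4 + β ^ 2 / 4 + 1) := by
  set μ := stdPi (Fin n × Fin n)
  set b := β + h with hbdef
  have hc := continuous_phi_q (n := n) β (ε := ε) hδ
  have iphi : Integrable (fun g => phi ε δ (q β g)) μ :=
    (integrable_const (1 : ℝ)).mono' hc.aestronglyMeasurable (ae_of_all _ fun g => by
      rw [Real.norm_eq_abs, abs_of_pos (phi_pos ..)]; exact phi_le_one hε hδ (q_nonneg β g))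
  have i1 : Integrable (fun g => |lg (cpl n b) g - F n b|) μ :=
    ((integrable_lg _).sub (integrable_const _)).abs
  have i2 : Integrable (fun g => |lg (cpl n β) g - F n β|) μ :=
    ((integrable_lg _).sub (integrable_const _)).abs
  have pt : ∀ g, h / √n * T β ε δ g ≤ n * (h * k) * phi ε δ (q β g) +
      (|lg (cpl n b) g - F n b| + |lg (cpl n β) g - F n β|) := by
    intro g
    have ht := lg_tangent (cpl n β) (cpl n b) g
    have e : (fun x => en (cpl n b) g x - en (cpl n β) g x) = fun x => h / √n * H g x := by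
      funext x; simp only [en_cpl, hbdef]; ring
    rw [e, av_mul_const, av_cpl] at ht
    have hp := phi_pos ε δ (q β g)
    have hp1 := phi_le_one hε hδ (q_nonneg β g)
    have h1 := le_abs_self (lg (cpl n b) g - F n b)
    have h2 := neg_abs_le (lg (cpl n β) g - F n β)
    rw [T_eq]
    have h3 : h / √n * ∑ x, P β g x * H g x ≤
        n * (h * k) + (|lg (cpl n b) g - F n b| + |lg (cpl n β) g - F n β|) := by linarith
    have h4 := mul_le_mul_of_nonneg_left h3 hp.le
    have h5 := mul_le_mul_of_nonneg_right hp1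
      (add_nonneg (abs_nonneg (lg (cpl n b) g - F n b)) (abs_nonneg (lg (cpl n β) g - F n β)))
    linarith
  rw [← integral_const_mul]
  refine (integral_mono ((integrable_T β hε hδ).const_mul _)
    ((iphi.const_mul _).add (i1.add i2)) pt).trans ?_
  simp only [Pi.add_apply]
  have i12 : Integrable (fun g => |lg (cpl n b) g - F n b| + |lg (cpl n β) g - F n β|) μ := i1.add i2
  rw [integral_add (iphi.const_mul _) i12, integral_const_mul, integral_add i1 i2]
  have d1 := lg_deviation hn b
  have d2 := lg_deviation hn β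
  linarith

/-- Probability of a small overlap. -/
theorem prob_small_le {ε δ θ h k κ : ℝ} (hn : 0 < n) (hb : 0 < β) (hε : 0 ≤ ε) (hδ : 0 < δ)
    (hθ : 0 < θ) (hh : 0 < h) (hκ : 0 < κ) (hgap : κ ≤ β * ((1 - θ) / 2 - 2 * ε) - k)
    (hslope : F n (β + h) - F n β ≤ n * (h * k)) :
    disorder n {g | q2 (skJ n β g) ≤ δ} ≤ ENNReal.ofReal
      (Real.exp (ε * Real.log 2) / κ *
        (β / 2 * Real.exp (ε * (Real.log δ - Real.log θ)) +
          ((β + h) ^ 2 / 4 + β ^ 2 / 4 + 1) / (h * √n))) := by
  set μ := stdPi (Fin n × Fin n)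
  change μ {g | q β g ≤ δ} ≤ _
  have hc := continuous_phi_q (n := n) β (ε := ε) hδ
  have bd : ∀ g : Fin n × Fin n → ℝ, |phi ε δ (q β g)| ≤ 1 := fun g => by
    rw [abs_of_pos (phi_pos ..)]; exact phi_le_one hε hδ (q_nonneg β g)
  have iphi : Integrable (fun g => phi ε δ (q β g)) μ :=
    (integrable_const (1 : ℝ)).mono' hc.aestronglyMeasurable (ae_of_all _ bd)
  set A := β / 2 * Real.exp (ε * (Real.log δ - Real.log θ)) with hA
  have pt : ∀ g : Fin n × Fin n → ℝ, κ * phi ε δ (q β g) - A ≤
      β * (phi ε δ (q β g) * ((1 - q β g) / 2 - 2 * ε)) - k * phi ε δ (q β g) := by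
    intro g
    have hp := phi_pos ε δ (q β g)
    have h0 := mul_le_mul_of_nonneg_left hgap hp.le
    have h1 : phi ε δ (q β g) * (q β g - θ) ≤ Real.exp (ε * (Real.log δ - Real.log θ)) := by
      rcases le_or_gt (q β g) θ with h | h
      · exact (mul_nonpos_of_nonneg_of_nonpos hp.le (by linarith)).trans (Real.exp_pos _).le
      · calc phi ε δ (q β g) * (q β g - θ) ≤ phi ε δ (q β g) * 1 :=
              mul_le_mul_of_nonneg_left (by linarith [q_le β g]) hp.le
          _ ≤ _ := by
              rw [mul_one, phi]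
              refine Real.exp_le_exp.2 (mul_le_mul_of_nonneg_left ?_ hε)
              linarith [Real.log_le_log hθ (by linarith : θ ≤ q β g + δ)]
    have h2 := mul_le_mul_of_nonneg_left h1 (by linarith : (0:ℝ) ≤ β / 2)
    rw [← hA] at h2
    linarith
  have i2 : Integrable (fun g => phi ε δ (q β g) * ((1 - q β g) / 2 - 2 * ε)) μ := by
    refine iphi.mul_bdd (c := 1 + 2 * ε) (by fun_prop) (ae_of_all _ fun g => abs_le.2 ⟨?_, ?_⟩) <;>
      linarith [q_le β g, q_nonneg β g]
  have hint' : Integrable (fun g => κ * phi ε δ (q β g) - A) μ :=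
    (iphi.const_mul κ).sub (integrable_const A)
  have h1 := integral_mono hint' ((i2.const_mul β).sub (iphi.const_mul k)) pt
  simp only [Pi.sub_apply] at h1
  rw [integral_sub (iphi.const_mul κ) (integrable_const A),
    integral_sub (i2.const_mul β) (iphi.const_mul k), integral_const_mul κ, integral_const_mul β,
    integral_const_mul k, integral_const, probReal_univ, one_smul] at h1
  have hsub : {g | q β g ≤ δ} ⊆
      {g : Fin n × Fin n → ℝ | Real.exp (-(ε * Real.log 2)) ≤ phi ε δ (q β g)} := by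
    intro g hg
    refine Real.exp_le_exp.2 ?_
    rw [← mul_neg]
    refine mul_le_mul_of_nonneg_left ?_ hε
    have := Real.log_le_log (by linarith [q_nonneg β g] : 0 < q β g + δ)
      (by linarith [Set.mem_ofPred.1 hg] : q β g + δ ≤ 2 * δ)
    rw [Real.log_mul two_ne_zero hδ.ne'] at this
    linarith
  have hmk := mul_meas_ge_le_integral_of_nonneg (μ := μ)
    (ae_of_all _ fun g => (phi_pos ε δ (q β g)).le) iphi (Real.exp (-(ε * Real.log 2)))
  refine (measure_mono hsub).trans ?_
  rw [← ofReal_measureReal (measure_ne_top _ _)]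
  refine ENNReal.ofReal_le_ofReal ?_
  have low := tilted_low β hn hb.le hε hδ
  have up := tilted_up β hn hb hε hδ hh hslope
  set I := ∫ g, phi ε δ (q β g) ∂μ
  set I1 := ∫ g, phi ε δ (q β g) * ((1 - q β g) / 2 - 2 * ε) ∂μ
  set D := (β + h) ^ 2 / 4 + β ^ 2 / 4 + 1
  have hn' : (0 : ℝ) < n := by exact_mod_cast hn
  have hs : 0 < √(n : ℝ) := Real.sqrt_pos.2 hn'
  have key := (mul_le_mul_of_nonneg_left low (show 0 ≤ h / √n by positivity)).trans up
  have hs2 : √(n : ℝ) ^ 2 = n := Real.sq_sqrt hn'.le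
  have hkey : h / √n * (β / √n * (n : ℝ) ^ 2 * I1) = h * β * n * I1 := by
    field_simp
    rw [hs2]
  rw [hkey] at key
  have hdiff : β * I1 - k * I ≤ D / (h * √n) := by
    rw [le_div_iff₀ (by positivity)]
    refine le_of_mul_le_mul_right ?_ hs
    calc (β * I1 - k * I) * (h * √n) * √n = (β * I1 - k * I) * (h * n) := by
          rw [mul_assoc, mul_assoc h, ← sq, hs2]
      _ ≤ √n * D := by linarith
      _ = D * √n := by ring
  have hI : I ≤ (A + D / (h * √n)) / κ := by rw [le_div_iff₀ hκ]; linarith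
  simp only [Real.exp_neg] at hmk ⊢
  rw [inv_mul_le_iff₀ (Real.exp_pos _)] at hmk
  refine hmk.trans ((mul_le_mul_of_nonneg_left hI (Real.exp_pos _).le).trans (le_of_eq ?_))
  ring

/-- For every `β > 1` the overlap is bounded below with probability arbitrarily close to one. -/
theorem tight (hβ : 1 < β) {η : ℝ} (hη : 0 < η) :
    ∃ δ : ℝ, 0 < δ ∧ ∀ᶠ n in atTop,
      disorder n {g | q2 (skJ n β g) ≤ δ} ≤ ENNReal.ofReal η := by
  obtain ⟨h, κ₀, hh, hκ₀, hev⟩ := slope hβ
  have hb : 0 < β := by linarith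
  set κ := κ₀ / 2 with hκdef
  have hκ : 0 < κ := by positivity
  set ε := κ / (4 * β) with hεdef
  set θ := κ / β with hθdef
  have hε : 0 < ε := by positivity
  have hθ : 0 < θ := by positivity
  have hgap : κ ≤ β * ((1 - θ) / 2 - 2 * ε) - (β / 2 - κ₀) := by
    rw [hεdef, hθdef]
    have e : β * ((1 - κ / β) / 2 - 2 * (κ / (4 * β))) = β / 2 - κ := by field_simp; ring
    rw [e, hκdef]; linarith
  set C := Real.exp (ε * Real.log 2) / κ with hC
  have hC0 : 0 < C := by positivity
  set u := η / (C * β) with hu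
  have hu0 : 0 < u := by positivity
  refine ⟨θ * Real.exp (Real.log u / ε), by positivity, ?_⟩
  set D := (β + h) ^ 2 / 4 + β ^ 2 / 4 + 1
  have lim : Tendsto (fun n : ℕ => C * (D / (h * √n))) atTop (𝓝 0) := by
    have h1 : Tendsto (fun n : ℕ => h * √(n : ℝ)) atTop atTop :=
      (Real.tendsto_sqrt_atTop.comp tendsto_natCast_atTop_atTop).const_mul_atTop hh
    have h2 := ((tendsto_const_nhds (x := D)).div_atTop h1).const_mul C
    simpa using h2
  filter_upwards [hev, eventually_gt_atTop 0, lim.eventually (eventually_le_nhds (half_pos hη))]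
    with n hsl hn hsmall
  refine (prob_small_le β hn hb hε.le (by positivity) hθ hh hκ hgap hsl).trans
    (ENNReal.ofReal_le_ofReal ?_)
  rw [Real.log_mul hθ.ne' (Real.exp_pos _).ne', Real.log_exp, add_sub_cancel_left,
    mul_div_cancel₀ _ hε.ne', Real.exp_log hu0, ← hC, hu]
  have e : C * (β / 2 * (η / (C * β))) = η / 2 := by field_simp
  rw [mul_add, e]
  linarith

end Vale.Agent.P150.Slow
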