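import Vale.Agent.P150.Ent
import Vale.Agent.P150.Gap

/-! One step of the binary-channel localisation. -/

namespace Vale.Agent.P150

open Finset

variable {Ω : Type*} [Fintype Ω] {m : ℕ}

/-- Likelihood of the signs `σ`, up to the factor `2^m`. -/
noncomputable def lik (T : Fin m → Ω → ℝ) (η : ℝ) (σ : Fin m → Bool) (x : Ω) : ℝ :=
  ∏ k, (1 + spin (σ k) * Real.tanh (η * T k x))

theorem sum_lik (T : Fin m → Ω → ℝ) (η : ℝ) (x : Ω) :
    ∑ σ, lik T η σ x = (2 : ℝ) ^ m := by
  unfold lik
  rw [← Fintype.prod_sum (fun k b => 1 + spin b * Real.tanh (η * T k x))]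
  simp only [Fintype.sum_bool, spin, if_true, Bool.false_eq_true, if_false]
  ring_nf
  simp

theorem sum_spin_sq (d : Fin m → ℝ) :
    ∑ σ : Fin m → Bool, (∑ k, spin (σ k) * d k) ^ 2 = (2 : ℝ) ^ m * ∑ k, d k ^ 2 := by
  have orth : ∀ k l : Fin m, ∑ σ : Fin m → Bool, spin (σ k) * spin (σ l)
      = if k = l then (2 : ℝ) ^ m else 0 := by
    intro k l
    split_ifs with h
    · subst h; simp [spin_mul_self]
    · have hinv : Function.Involutive fun σ : Fin m → Bool => Function.update σ k (!σ k) := by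
        intro σ; funext j
        by_cases hj : j = k
        · subst hj; simp
        · simp [hj]
      have e := Equiv.sum_comp hinv.toPerm fun σ : Fin m → Bool => spin (σ k) * spin (σ l)
      simp only [Function.Involutive.coe_toPerm, Function.update_self,
        Function.update_of_ne (Ne.symm h), spin_not, neg_mul, Finset.sum_neg_distrib] at e
      linarith
  simp only [pow_two (∑ k, spin (_ : Bool) * d k), Finset.sum_mul_sum]
  rw [Finset.sum_comm, Finset.mul_sum]
  refine Finset.sum_congr rfl fun k _ => ?_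
  rw [Finset.sum_comm]
  simp only [show ∀ (σ : Fin m → Bool) l, spin (σ k) * d k * (spin (σ l) * d l)
    = (spin (σ k) * spin (σ l)) * (d k * d l) from fun σ l => by ring, ← Finset.sum_mul, orth,
    ite_mul, zero_mul, Finset.sum_ite_eq, Finset.mem_univ, if_true]
  ring

theorem hasDerivAt_tanh_zero (a : ℝ) : HasDerivAt (fun η : ℝ => Real.tanh (η * a)) a 0 := by
  have e : (fun η : ℝ => Real.tanh (η * a))
      = fun η => Real.sinh (η * a) / Real.cosh (η * a) := funext fun η => Real.tanh_eq_sinh_div_cosh _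
  rw [e]
  refine ((((hasDerivAt_id (0 : ℝ)).mul_const a).sinh).div (((hasDerivAt_id (0 : ℝ)).mul_const a).cosh)
    (Real.cosh_pos _).ne').congr_deriv ?_
  simp

/-- First order expansion of the likelihood, uniform in the finitely many points and signs. -/
theorem lik_expand (T : Fin m → Ω → ℝ) {ε : ℝ} (hε : 0 < ε) :
    ∀ᶠ η in nhdsWithin (0 : ℝ) (Set.Ioi 0), ∀ σ x,
      |lik T η σ x - 1 - η * ∑ k, spin (σ k) * T k x| ≤ ε * η ∧ 1 - ε ≤ lik T η σ x := by
  refine Filter.eventually_all.2 fun σ => Filter.eventually_all.2 fun x => ?_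
  have d0 : HasDerivAt (fun η => lik T η σ x) (∑ k, spin (σ k) * T k x) 0 := by
    refine (HasDerivAt.fun_finsetProd (fun k _ =>
      ((hasDerivAt_tanh_zero (T k x)).const_mul (spin (σ k))).const_add 1)).congr_deriv ?_
    simp
  have h1 : lik T 0 σ x = 1 := by simp [lik]
  have hlo := hasDerivAt_iff_isLittleO_nhds_zero.1 d0
  rw [Asymptotics.isLittleO_iff] at hlo
  refine Filter.Eventually.filter_mono nhdsWithin_le_nhds ((hlo hε).and
    ((d0.continuousAt.eventually_const_le (by rw [h1]; linarith : 1 - ε < lik T 0 σ x)))) |>.mp ?_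
  filter_upwards [self_mem_nhdsWithin] with η (hη : 0 < η) h
  simp only [zero_add, h1, smul_eq_mul, Real.norm_eq_abs, abs_of_pos hη] at h
  exact h

/-- Entropy lost in one step of the channel. -/
theorem step [Nonempty Ω] (T : Fin m → Ω → ℝ) : ∀ᶠ η in nhdsWithin (0 : ℝ) (Set.Ioi 0),
    ∀ (w f : Ω → ℝ) (K : ℝ), (∀ x, 0 < w x) → (∀ x, 0 ≤ f x) → 0 ≤ K →
      (∀ (c : Fin m → ℝ) (t : ℝ), vari (fun x => w x * Real.exp (t * ∑ k, c k * T k x))
          (fun x => ∑ k, c k * T k x) ≤ K * ∑ k, c k ^ 2) →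
      (1 - η ^ 2 * (8 * K + 2)) * ent w f
        ≤ ∑ σ, ent (fun x => (1 / 2 : ℝ) ^ m * (w x * lik T η σ x)) f := by
  filter_upwards [lik_expand T (by norm_num : (0 : ℝ) < 1 / 2), self_mem_nhdsWithin]
    with η hη (hη0 : 0 < η)
  intro w f K hw hf hK hV
  set v : (Fin m → Bool) → Ω → ℝ := fun σ x => (1 / 2 : ℝ) ^ m * (w x * lik T η σ x) with hv
  have hvpos : ∀ σ x, 0 < v σ x := fun σ x =>
    mul_pos (by positivity) (mul_pos (hw x) (by linarith [(hη σ x).2]))
  have hsum : ∀ x, ∑ σ, v σ x = w x := by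
    intro x
    simp only [hv, ← Finset.mul_sum, sum_lik]
    rw [mul_comm (w x), ← mul_assoc, ← mul_pow]; norm_num
  have split := ent_split v w f hsum (fun σ x => (hvpos σ x).ne') fun x => (hw x).ne'
  have he : 0 ≤ ent w f := ent_nonneg w f hw hf
  have hcoef : 0 ≤ 8 * K + 2 := by linarith
  rcases (Finset.sum_nonneg fun x _ => mul_nonneg (hw x).le (hf x) :
      (0 : ℝ) ≤ ∑ x, w x * f x).eq_or_lt with hA | hA
  · have hz : ∀ x, w x * f x = 0 := fun x =>
      (Finset.sum_eq_zero_iff_of_nonneg fun x _ => mul_nonneg (hw x).le (hf x)).1 hA.symm x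
        (Finset.mem_univ x)
    have hf0 : f = fun _ => 0 := funext fun x => by
      rcases mul_eq_zero.1 (hz x) with h | h
      · exact absurd h (hw x).ne'
      · exact h
    simp [ent, rel, hf0]
  set A := ∑ x, w x * f x with hAdef
  set B := ∑ x, w x with hBdef
  have hB : 0 < B := Finset.sum_pos (fun x _ => hw x) Finset.univ_nonempty
  set a : (Fin m → Bool) → ℝ := fun σ => ∑ x, v σ x * f x with ha
  set b : (Fin m → Bool) → ℝ := fun σ => ∑ x, v σ x with hb
  have sa : ∑ σ, a σ = A := by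
    simp only [ha]; rw [Finset.sum_comm]; simp only [← Finset.sum_mul, hsum, hAdef]
  have sb : ∑ σ, b σ = B := by
    simp only [hb]; rw [Finset.sum_comm]; simp only [hsum, hBdef]
  set E' : (Ω → ℝ) → ℝ := fun φ => (∑ x, w x * f x * φ x) / A with hE'
  set E : (Ω → ℝ) → ℝ := fun φ => (∑ x, w x * φ x) / B with hE
  set d : Fin m → ℝ := fun k => E' (T k) - E (T k) with hd
  set S := ∑ k, d k ^ 2 with hS
  set L := ent w f / A with hL
  have hL0 : 0 ≤ L := div_nonneg he hA.le
  have hSL : S ≤ 2 * K * L := by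
    have ht := transport w f (fun x => ∑ k, d k * T k x) hw hf hA (K * S) (hV d)
    have e : (∑ x, w x * f x * ∑ k, d k * T k x) / A - (∑ x, w x * ∑ k, d k * T k x) / B = S := by
      simp only [hS, Finset.mul_sum]
      rw [Finset.sum_comm (f := fun x k => w x * f x * (d k * T k x)),
        Finset.sum_comm (f := fun x k => w x * (d k * T k x)), Finset.sum_div, Finset.sum_div,
        ← Finset.sum_sub_distrib]
      refine Finset.sum_congr rfl fun k _ => ?_
      rw [pow_two]
      conv_rhs => arg 2; simp only [hd, hE', hE]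
      rw [mul_sub, mul_div_assoc', mul_div_assoc', Finset.mul_sum, Finset.mul_sum]
      exact congrArg₂ (· - ·) (congrArg (· / A) (Finset.sum_congr rfl fun x _ => by ring))
        (congrArg (· / B) (Finset.sum_congr rfl fun x _ => by ring))
    rw [e, ← hL] at ht
    have hS0 : 0 ≤ S := Finset.sum_nonneg fun k _ => sq_nonneg _
    rcases hS0.eq_or_lt with h | h
    · rw [← h]; positivity
    · nlinarith
  set D := ∑ x, |w x * f x / A - w x / B| with hD
  have hD2 : D ^ 2 ≤ 2 * L := by
    set φ : Ω → ℝ := fun x => if 0 ≤ w x * f x / A - w x / B then 1 else -1 with hφ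
    have hφ2 : ∀ x, φ x ^ 2 = 1 := fun x => by simp only [hφ]; split_ifs <;> norm_num
    have ht := transport w f φ hw hf hA 1 fun t => (vari_le_second _ _).trans (le_of_eq (by
      simp only [hφ2, mul_one]
      exact div_self (Finset.sum_pos (fun x _ => mul_pos (hw x) (Real.exp_pos _))
        Finset.univ_nonempty).ne'))
    have e : (∑ x, w x * f x * φ x) / A - (∑ x, w x * φ x) / B = D := by
      rw [Finset.sum_div, Finset.sum_div, ← Finset.sum_sub_distrib, hD]
      refine Finset.sum_congr rfl fun x _ => ?_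
      simp only [hφ]
      split_ifs with h
      · rw [abs_of_nonneg h]; ring
      · rw [abs_of_neg (not_le.1 h)]; ring
    rw [e, mul_one, ← hL] at ht
    exact ht
  have key : ∀ σ, (a σ - b σ * (A / B)) ^ 2 / (b σ * (A / B))
      ≤ (1 / 2 : ℝ) ^ m * A * η ^ 2 * (4 * (∑ k, spin (σ k) * d k) ^ 2 + D ^ 2) := by
    intro σ
    set p : ℝ := (1 / 2 : ℝ) ^ m
    have hp : 0 < p := by positivity
    set ρ : Ω → ℝ := fun x => lik T η σ x - 1 - η * ∑ k, spin (σ k) * T k x with hρ
    have e1 : a σ = p * A * E' (lik T η σ) := by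
      simp only [ha, hv, hE']
      rw [mul_assoc, mul_div_cancel₀ _ hA.ne', Finset.mul_sum]
      exact Finset.sum_congr rfl fun x _ => by ring
    have e2 : b σ * (A / B) = p * A * E (lik T η σ) := by
      simp only [hb, hv, hE, ← Finset.mul_sum]
      field_simp
    have hlow : 1 / 2 ≤ E (lik T η σ) := by
      simp only [hE]
      rw [le_div_iff₀ hB, hBdef, Finset.mul_sum]
      exact Finset.sum_le_sum fun x _ => by nlinarith [(hη σ x).2, hw x]
    have e3 : E' (lik T η σ) - E (lik T η σ)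
        = η * (∑ k, spin (σ k) * d k) + ∑ x, (w x * f x / A - w x / B) * ρ x := by
      have h1 : (∑ x, (w x * f x / A - w x / B) * 1) = 0 := by
        simp only [mul_one, Finset.sum_sub_distrib, ← Finset.sum_div, ← hAdef, ← hBdef,
          div_self hA.ne', div_self hB.ne', sub_self]
      have h2 : η * (∑ k, spin (σ k) * d k)
          = ∑ x, (w x * f x / A - w x / B) * (η * ∑ k, spin (σ k) * T k x) := by
        simp only [hd, hE', hE, Finset.sum_div, ← Finset.sum_sub_distrib, Finset.mul_sum]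
        rw [Finset.sum_comm]
        exact Finset.sum_congr rfl fun x _ => Finset.sum_congr rfl fun k _ => by ring
      simp only [hE', hE, Finset.sum_div, ← Finset.sum_sub_distrib]
      rw [h2, ← Finset.sum_add_distrib]
      conv_lhs => rw [← sub_zero (∑ x, _), ← h1, ← Finset.sum_sub_distrib]
      exact Finset.sum_congr rfl fun x _ => by simp only [hρ]; ring
    have e4 : |∑ x, (w x * f x / A - w x / B) * ρ x| ≤ η / 2 * D := by
      refine (Finset.abs_sum_le_sum_abs _ _).trans ?_
      rw [hD, Finset.mul_sum]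
      refine Finset.sum_le_sum fun x _ => ?_
      rw [abs_mul, mul_comm]
      refine mul_le_mul_of_nonneg_right ?_ (abs_nonneg _)
      linarith [(hη σ x).1]
    have e5 := pow_le_pow_left₀ (abs_nonneg _) e4 2
    rw [sq_abs] at e5
    rw [e1, e2, div_le_iff₀ (by have := lt_of_lt_of_le one_half_pos hlow; positivity), ← mul_sub, e3]
    set u := η * ∑ k, spin (σ k) * d k with hu
    set r := ∑ x, (w x * f x / A - w x / B) * ρ x
    have hsq : (u + r) ^ 2 ≤ (4 * u ^ 2 + η ^ 2 * D ^ 2) / 2 := by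
      nlinarith [two_mul_le_add_sq u r]
    have hnn : 0 ≤ 4 * u ^ 2 + η ^ 2 * D ^ 2 := by positivity
    have hpA : 0 ≤ (p * A) ^ 2 := sq_nonneg _
    have e6 : η ^ 2 * (4 * (∑ k, spin (σ k) * d k) ^ 2 + D ^ 2) = 4 * u ^ 2 + η ^ 2 * D ^ 2 := by
      rw [hu]; ring
    calc (p * A * (u + r)) ^ 2 = (p * A) ^ 2 * (u + r) ^ 2 := by ring
      _ ≤ (p * A) ^ 2 * ((4 * u ^ 2 + η ^ 2 * D ^ 2) / 2) := mul_le_mul_of_nonneg_left hsq hpA
      _ ≤ (p * A) ^ 2 * ((4 * u ^ 2 + η ^ 2 * D ^ 2) * E (lik T η σ)) :=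
          mul_le_mul_of_nonneg_left (by nlinarith) hpA
      _ = _ := by rw [← e6]; ring
  have up := log_sum_upper Finset.univ a b
    (fun σ _ => Finset.sum_nonneg fun x _ => mul_nonneg (hvpos σ x).le (hf x))
    (fun σ _ => Finset.sum_pos (fun x _ => hvpos σ x) Finset.univ_nonempty) (by rw [sa]; exact hA)
  rw [sa, sb] at up
  have hbr : ∑ σ, rel (a σ) (b σ) - rel A B ≤ A * η ^ 2 * (4 * S + D ^ 2) := by
    refine up.trans ((Finset.sum_le_sum fun σ _ => key σ).trans (le_of_eq ?_))
    rw [← Finset.mul_sum, Finset.sum_add_distrib, ← Finset.mul_sum, sum_spin_sq, Finset.sum_const,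
      nsmul_eq_mul]
    simp only [Finset.card_univ, Fintype.card_fun, Fintype.card_bool, Fintype.card_fin]
    push_cast
    have : (1 / 2 : ℝ) ^ m * 2 ^ m = 1 := by rw [← mul_pow]; norm_num
    linear_combination (A * η ^ 2 * (4 * S + D ^ 2)) * this
  have hfin : A * η ^ 2 * (4 * S + D ^ 2) ≤ η ^ 2 * (8 * K + 2) * ent w f := by
    have hAL : A * L = ent w f := mul_div_cancel₀ _ hA.ne'
    have := mul_le_mul_of_nonneg_left (show 4 * S + D ^ 2 ≤ (8 * K + 2) * L by linarith)
      (mul_nonneg hA.le (sq_nonneg η))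
    calc _ ≤ A * η ^ 2 * ((8 * K + 2) * L) := this
      _ = _ := by rw [← hAL]; ring
  show _ ≤ ∑ σ, ent (v σ) f
  linarith

end Vale.Agent.P150
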